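import Vale.Agent.P046.Phase1

/-! The first phase: probability of leaving the good set. -/

set_option linter.unusedSectionVars false

open Finset Vale.Agent.P044

namespace Vale.Agent.P046

variable {V : Type*} [Fintype V] [DecidableEq V]

/-- The good set. -/
def Good (D Δ ζ c : ℝ) (r : ℕ) (G : SimpleGraph V) : Prop :=
  Reg (adj G) D Δ ζ ∧ ∀ x, (Blk (adj G) x ^ 2 ^ (r + 1)).trace ≤ (1 + c) * D ^ 2 ^ (r + 1)

lemma adj_top (x y : V) : adj (⊤ : SimpleGraph V) x y = 1 - ind (y = x) := by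
  unfold adj; by_cases h : y = x <;> simp [ind, h, Ne.symm]

lemma sum_ind_eq (x : V) : ∑ y, ind (y = x) = 1 := by
  rw [sum_eq_single x] <;> simp +contextual [ind]

lemma dg_top (x : V) : dg (adj (⊤ : SimpleGraph V)) x = Fintype.card V - 1 := by
  simp only [dg, adj_top, sum_sub_distrib, sum_ind_eq, sum_const, card_univ, nsmul_eq_mul, mul_one]

lemma cod_top {x y : V} (h : x ≠ y) : cod (adj (⊤ : SimpleGraph V)) x y = Fintype.card V - 2 := by
  have : ∀ z, adj (⊤ : SimpleGraph V) x z * adj (⊤ : SimpleGraph V) y z = 1 - ind (z = x) - ind (z = y) := by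
    intro z
    rw [adj_top, adj_top]
    by_cases h1 : z = x
    · rw [ind_pos h1, ind_neg fun h2 => h (h1.symm.trans h2)]; ring
    · rw [ind_neg h1]; ring
  simp only [cod, this, sum_sub_distrib, sum_ind_eq, sum_const, card_univ, nsmul_eq_mul, mul_one]
  ring

lemma good_top {ζ c : ℝ} (r : ℕ) (hN : 0 < (Fintype.card V : ℝ)) (hζ : 2 / (Fintype.card V : ℝ) ≤ ζ)
    (hc : 0 ≤ c) : Good (Fintype.card V) (Fintype.card V) ζ c r (⊤ : SimpleGraph V) := by
  refine ⟨⟨fun x y hxy => ?_, fun x => ?_⟩, fun x => ?_⟩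
  · rw [cod_top (adj_eq_one.1 hxy).ne, show ((Fintype.card V : ℝ) - 2) / Fintype.card V - 1 =
      -(2 / Fintype.card V) by field_simp; ring, abs_neg, abs_of_pos (by positivity)]
    exact hζ
  · rw [dg_top, show ((Fintype.card V : ℝ) - 1) / Fintype.card V - 1 =
      -(1 / Fintype.card V) by field_simp; ring, abs_neg, abs_of_pos (by positivity)]
    exact le_trans (div_le_div_of_nonneg_right (by norm_num) hN.le) hζ
  · obtain ⟨l, hl⟩ : ∃ l, 2 ^ (r + 1) = l + 1 := Nat.exists_eq_succ_of_ne_zero (by positivity)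
    rw [hl, trace_pow_eq]
    calc _ ≤ ∑ _z : Fin (l + 1) → V, (1 : ℝ) := sum_le_sum fun z _ => prod_le_one
          (fun i _ => mul_nonneg (mul_nonneg ((adj01 _).nn _ _) ((adj01 _).nn _ _)) ((adj01 _).nn _ _))
          fun i _ => mul_le_one₀ (mul_le_one₀ ((adj01 _).le1 _ _) ((adj01 _).nn _ _) ((adj01 _).le1 _ _))
            ((adj01 _).nn _ _) ((adj01 _).le1 _ _)
      _ = (Fintype.card V : ℝ) ^ (l + 1) := by simp
      _ ≤ _ := le_mul_of_one_le_left (by positivity) (by linarith)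

lemma Psi_nn (G : SimpleGraph V) {Δ κ : ℝ} (hΔ : 0 ≤ Δ) (hκ : 0 ≤ κ) {p : ℕ} (hp : Even p)
    (χ : V → V → ℝ) (δ : V → ℝ) : 0 ≤ Psi (adj G) Δ κ p χ δ :=
  add_nonneg (div_nonneg (sum_nonneg fun _ _ => sum_nonneg fun _ _ =>
    mul_nonneg ((adj01 G).nn _ _) (hp.pow_nonneg _)) hΔ)
    (mul_nonneg hκ (sum_nonneg fun _ _ => hp.pow_nonneg _))

lemma le_Psi {a : V → V → ℝ} (ha : Adj01 a) {Δ κ N b : ℝ} (hΔ : 0 < Δ) (hΔN : Δ ≤ N) (hN : 1 ≤ N)
    (hκ : 0 ≤ κ) (hκ1 : κ ≤ 1) {p : ℕ} (hp : Even p) (χ : V → V → ℝ) (δ : V → ℝ) (hb : 0 ≤ b)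
    (H : (∃ x, b ≤ |δ x|) ∨ ∃ x y, a x y = 1 ∧ b ≤ |χ x y|) : κ * b ^ p / N ≤ Psi a Δ κ p χ δ := by
  have h1 : 0 ≤ (∑ x, ∑ y, a x y * χ x y ^ p) / Δ := div_nonneg (sum_nonneg fun _ _ =>
    sum_nonneg fun _ _ => mul_nonneg (ha.nn _ _) (hp.pow_nonneg _)) hΔ.le
  have h2 : 0 ≤ κ * ∑ x, δ x ^ p := mul_nonneg hκ (sum_nonneg fun _ _ => hp.pow_nonneg _)
  have h3 : 0 ≤ b ^ p := by positivity
  unfold Psi
  rcases H with ⟨x, hx⟩ | ⟨x, y, hxy, hx⟩
  · have a1 : b ^ p ≤ ∑ x, δ x ^ p := by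
      refine le_trans ?_ (single_le_sum (f := fun x => δ x ^ p) (fun _ _ => hp.pow_nonneg _) (mem_univ x))
      rw [← hp.pow_abs (δ x)]; exact pow_le_pow_left₀ hb hx _
    have a2 : κ * b ^ p / N ≤ κ * b ^ p := div_le_self (by positivity) hN
    have := mul_le_mul_of_nonneg_left a1 hκ
    linarith
  · have a1 : b ^ p ≤ ∑ x, ∑ y, a x y * χ x y ^ p := by
      refine le_trans ?_ (single_le_sum (f := fun x => ∑ y, a x y * χ x y ^ p)
        (fun _ _ => sum_nonneg fun _ _ => mul_nonneg (ha.nn _ _) (hp.pow_nonneg _)) (mem_univ x))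
      refine le_trans ?_ (single_le_sum (f := fun y => a x y * χ x y ^ p)
        (fun _ _ => mul_nonneg (ha.nn _ _) (hp.pow_nonneg _)) (mem_univ y))
      rw [hxy, one_mul, ← hp.pow_abs (χ x y)]; exact pow_le_pow_left₀ hb hx _
    have a2 : κ * b ^ p / N ≤ (∑ x, ∑ y, a x y * χ x y ^ p) / Δ :=
      div_le_div₀ (h3.trans a1) ((mul_le_of_le_one_left h3 hκ1).trans a1) hΔ hΔN
    linarith

lemma bad_le {D Δ ζ c κ : ℝ} {r l p J : ℕ} (hl : 2 ^ (r + 1) = l + 1) (hD : 0 < D) (hΔ : 0 < Δ)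
    (hΔN : Δ ≤ Fintype.card V) (hN : 1 ≤ (Fintype.card V : ℝ)) (hκ : 0 < κ) (hκ1 : κ ≤ 1) (hp : Even p)
    (hζ : 0 < ζ) (hc : 0 ≤ c) (G : SimpleGraph V) :
    ind (¬Good D Δ ζ c r G) ≤ Fintype.card V / (κ * (ζ / 3) ^ p) * Psi (adj G) Δ κ p (chi G D Δ) (del G Δ) +
      ∑ x, (1 / ((1 + c) * D ^ (l + 1))) ^ J * Wh l x G ^ J := by
  have h1 : 0 ≤ Fintype.card V / (κ * (ζ / 3) ^ p) * Psi (adj G) Δ κ p (chi G D Δ) (del G Δ) :=
    mul_nonneg (by positivity) (Psi_nn G hΔ.le hκ.le hp _ _)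
  have h0 : ∀ x, 0 ≤ (1 / ((1 + c) * D ^ (l + 1))) ^ J * Wh l x G ^ J := fun x =>
    mul_nonneg (by positivity) (pow_nonneg (Wh_nn _ _ _) _)
  have h2 : 0 ≤ ∑ x, (1 / ((1 + c) * D ^ (l + 1))) ^ J * Wh l x G ^ J := sum_nonneg fun x _ => h0 x
  by_cases hG : Good D Δ ζ c r G
  · rw [ind_neg (not_not.2 hG)]; linarith
  rw [ind_pos hG]
  by_cases hR : Reg (adj G) D Δ ζ
  · obtain ⟨x, hx⟩ := not_forall.1 fun h => hG ⟨hR, h⟩
    rw [hl, not_le] at hx
    have a1 := hx.le.trans (trace_le_Wh l x G)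
    have a2 : 1 ≤ (1 / ((1 + c) * D ^ (l + 1))) ^ J * Wh l x G ^ J := by
      rw [← mul_pow]
      refine one_le_pow₀ ?_
      rw [one_div, ← div_eq_inv_mul, one_le_div (by positivity)]; exact a1
    have a3 := single_le_sum (f := fun x => (1 / ((1 + c) * D ^ (l + 1))) ^ J * Wh l x G ^ J)
      (fun x _ => h0 x) (mem_univ x)
    linarith
  · have a1 := le_Psi (adj01 G) hΔ hΔN hN hκ.le hκ1 hp (chi G D Δ) (del G Δ) (b := ζ / 3)
      (by positivity) (by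
        by_contra hc
        push Not at hc
        refine hR ⟨fun x y hxy => ?_, fun x => (hc.1 x).le.trans (by linarith)⟩
        have b1 := abs_lt.1 (hc.1 x)
        have b2 := abs_lt.1 (hc.1 y)
        have b3 := abs_lt.1 (hc.2 x y hxy)
        unfold chi at b3
        rw [abs_le]; constructor <;> linarith)
    have a2 : 1 ≤ Fintype.card V / (κ * (ζ / 3) ^ p) * Psi (adj G) Δ κ p (chi G D Δ) (del G Δ) := by
      rw [div_mul_eq_mul_div, one_le_div (by positivity)]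
      rw [div_le_iff₀ (by linarith)] at a1; linarith
    linarith

/-- The good sets along the trajectory. -/
def Gd (h ζ c : ℝ) (r : ℕ) (i : ℕ) (G : SimpleGraph V) : Prop :=
  Good (Fintype.card V * qs (Fintype.card V) h i ^ 2) (Fintype.card V * qs (Fintype.card V) h i) ζ c r G

lemma Hok.small {h : ℝ} (hh : Hok V h) (hN : 8 ≤ (Fintype.card V : ℝ)) :
    h * (Fintype.card V : ℝ) ^ 2 ≤ 1 / 8 ∧ h * Fintype.card V ≤ 1 / 8 := by
  have h1 := hh.1
  have h2 := hh.2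
  have a : h * (Fintype.card V : ℝ) ^ 2 ≤ 1 / 8 := by
    nlinarith [mul_nonneg h1 (sq_nonneg (Fintype.card V : ℝ))]
  exact ⟨a, by nlinarith [mul_nonneg h1 (by linarith : (0 : ℝ) ≤ Fintype.card V)]⟩

lemma Gd_zero {h ζ c : ℝ} (r : ℕ) (hN : 8 ≤ (Fintype.card V : ℝ)) (hζ : 2 / (Fintype.card V : ℝ) ≤ ζ)
    (hc : 0 ≤ c) : Gd h ζ c r 0 (⊤ : SimpleGraph V) := by
  simpa [Gd, qs] using good_top r (by linarith) hζ hc

lemma psi_arith {u E C N lam : ℝ} (hu : 0 ≤ u) (hu8 : u ≤ 1 / 8) (hE0 : 0 ≤ E) (hC : 0 ≤ C) (hN : 0 ≤ N)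
    (p : ℕ) (hlam : lam + 1 ≤ p) :
    (1 + u * lam) * ((C + 1) * N * E ^ p) + u * C * N * E ^ p ≤ (C + 1) * N * (E / (1 - u)) ^ p := by
  have a3 : (1 + p * u) * E ^ p ≤ (E / (1 - u)) ^ p := by
    have b1 := one_add_mul_le_pow (a := u) (by linarith) p
    have b2 : (1 + u) * E ≤ E / (1 - u) := by
      rw [le_div_iff₀ (by linarith)]; nlinarith [mul_nonneg hE0 (mul_nonneg hu hu)]
    refine le_trans ?_ (pow_le_pow_left₀ (by positivity) b2 _)
    rw [mul_pow]; exact mul_le_mul_of_nonneg_right b1 (by positivity)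
  have a6 := mul_le_mul_of_nonneg_left a3 (by positivity : 0 ≤ (C + 1) * N)
  have a7 : 0 ≤ u * N * E ^ p := by positivity
  have a8 := mul_le_mul_of_nonneg_left hlam (mul_nonneg a7 (by linarith : 0 ≤ C + 1))
  nlinarith

lemma psi_bound {h ζ c e s : ℝ} {r : ℕ} (hh : Hok V h) (hN : 8 ≤ (Fintype.card V : ℝ))
    (hζN : 2 / (Fintype.card V : ℝ) ≤ ζ) (hζ : ζ ≤ 1 / 2) (hc0 : 0 ≤ c) (he : 0 < e)
    (hc : c + 2 ^ (r + 1) * ζ ≤ e ^ 2 ^ (r + 1)) (m : ℕ) (hm : Even (m + 1)) (hs : 0 < s) (hs1 : s ≤ 1)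
    (hΓ : 8 * 16 ^ (m + 1) * (2 * e ^ 2 + 8 * ζ ^ 2) ≤ (s ^ 2 / 4) ^ (m + 3))
    (hlam : 4 + 24 * ((m + 1 : ℕ) + 2) * s + 1 ≤ (m + 3 : ℕ)) (I : ℕ)
    (hI : 1 ≤ Fintype.card V * qs (Fintype.card V) h I ^ 2) (i : ℕ) (hi : i < I) :
    mu h (Gd h ζ c r) i (Pop h fun G : SimpleGraph V => Psi (adj G)
      (Fintype.card V * qs (Fintype.card V) h (i + 1)) (s ^ (m + 3)) (m + 3)
      (chi G (Fintype.card V * qs (Fintype.card V) h (i + 1) ^ 2)
        (Fintype.card V * qs (Fintype.card V) h (i + 1)))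
      (del G (Fintype.card V * qs (Fintype.card V) h (i + 1)))) ≤
      (cP (m + 1) s + 1) * Fintype.card V *
        (50 / (√(Fintype.card V) * qs (Fintype.card V) h (i + 1))) ^ (m + 3) := by
  set N : ℝ := (Fintype.card V : ℝ) with hNd
  have hN0 : 0 < N := by linarith
  have hsm := hh.small hN
  have h0 : Gd h ζ c r 0 (⊤ : SimpleGraph V) := Gd_zero r hN hζN hc0
  have hcP : 0 ≤ cP (m + 1) s := by unfold cP; have := one_le_kT (m + 1); positivity
  have hsq : 0 < √N := Real.sqrt_pos.2 hN0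
  have hev : Even (m + 3) := hm.add even_two
  let Ψ : ℕ → SimpleGraph V → ℝ := fun i G => Psi (adj G) (N * qs N h i) (s ^ (m + 3)) (m + 3)
      (chi G (N * qs N h i ^ 2) (N * qs N h i)) (del G (N * qs N h i))
  have step : ∀ i, i < I → mu h (Gd h ζ c r) i (Ψ i) ≤
      (cP (m + 1) s + 1) * N * (50 / (√N * qs N h i)) ^ (m + 3) →
      mu h (Gd h ζ c r) i (Pop h (Ψ (i + 1))) ≤
        (cP (m + 1) s + 1) * N * (50 / (√N * qs N h (i + 1))) ^ (m + 3) := by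
    intro i hi H
    have hq := qs_bd hN0.le hh.1 hsm.2 i
    have hu := us_bd hN0.le hh.1 hsm.2 i
    have hDi : 1 ≤ N * qs N h i ^ 2 := hI.trans (mul_le_mul_of_nonneg_left
      (pow_le_pow_left₀ (qs_bd hN0.le hh.1 hsm.2 I).1.le (qs_anti hN0.le hh.1 hsm.2 hi.le) 2) hN0.le)
    have e1 : N * qs N h (i + 1) = N * qs N h i * (1 - h * (N * qs N h i ^ 2)) := by
      simp only [qs]; ring
    have e2 : N * qs N h (i + 1) ^ 2 = N * qs N h i ^ 2 * (1 - h * (N * qs N h i ^ 2)) ^ 2 := by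
      simp only [qs]; ring
    have e3 : (50 / (√N * qs N h i)) ^ 2 = 2500 / (N * qs N h i ^ 2) := by
      rw [div_pow, mul_pow, Real.sq_sqrt hN0.le]; norm_num
    have hDN : N * qs N h i ^ 2 ≤ N * qs N h i := mul_le_mul_of_nonneg_left (by nlinarith) hN0.le
    have hDN' : N * qs N h i ^ 2 ≤ N := hDN.trans (mul_le_of_le_one_right hN0.le hq.2)
    have F := mu_fn hh h0 i
    have a1 := F.mono (Pop h (Ψ (i + 1))) _ fun G hG => by
      simp only [Ψ, e1, e2]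
      exact phase1_step (E := 50 / (√N * qs N h i)) hh hG.1 (by linarith) hDi hDN (hu.2.trans hsm.2)
        (by rw [le_div_iff₀ (by linarith)]
            have := mul_le_mul_of_nonneg_left (mul_le_mul hDN' hDN' (by linarith) hN0.le) hh.1
            nlinarith [hsm.1]) (m + 1) hm hs hs1
        (linkP_of (adj01 G) hG.1 (by linarith) (mul_pos hN0 hq.1) hζ he r hc hG.2 m le_rfl) hΓ
        (by have := hq.1; positivity) e3.ge
    rw [F.add, F.mul] at a1
    have hE0 : 0 ≤ 50 / (√N * qs N h i) := by have := hq.1; positivity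
    have e4 : 50 / (√N * qs N h (i + 1)) = 50 / (√N * qs N h i) / (1 - h * (N * qs N h i ^ 2)) := by
      simp only [qs]; rw [div_div, mul_assoc]
    rw [e4]
    refine le_trans (a1.trans (add_le_add (mul_le_mul_of_nonneg_left H ?_) (F.const ?_)))
      (psi_arith hu.1 (hu.2.trans hsm.2) hE0 hcP hN0.le _ hlam)
    · have := hu.1; positivity
    · have := hu.1; positivity
  induction i with
  | zero =>
    refine step 0 hi ?_
    have e1 : ∀ x y, adj (⊤ : SimpleGraph V) x y * chi ⊤ N N x y ^ (m + 3) = 0 := fun x y => by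
      by_cases hxy : x = y
      · rw [adj_zero (by simp [hxy]), zero_mul]
      · have : chi ⊤ N N x y = 0 := by
          unfold chi del; rw [cod_top hxy, dg_top, dg_top, ← hNd]; field_simp; ring
        rw [this]; simp
    have e2 : ∀ x, del (⊤ : SimpleGraph V) N x ^ (m + 3) = (1 / N) ^ (m + 3) := fun x => by
      rw [← hev.neg_pow]; congr 1; unfold del; rw [dg_top, ← hNd]; field_simp; ring
    simp only [mu, Ψ, qs, Psi, one_pow, mul_one, e1, e2, sum_const_zero, zero_div, zero_add, sum_const,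
      card_univ, nsmul_eq_mul, ← hNd]
    have b1 : (1 / N) ^ (m + 3) ≤ (50 / √N) ^ (m + 3) := by
      refine pow_le_pow_left₀ (by positivity) ?_ _
      rw [div_le_div_iff₀ hN0 hsq]
      have : √N ≤ N := Real.sqrt_le_iff.2 ⟨hN0.le, by nlinarith⟩
      linarith
    have b2 : s ^ (m + 3) ≤ cP (m + 1) s + 1 := (pow_le_one₀ hs.le hs1).trans (by linarith)
    rw [mul_assoc]
    exact mul_le_mul b2 (mul_le_mul_of_nonneg_left b1 hN0.le) (by positivity) (by linarith)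
  | succ i ih =>
    refine step (i + 1) hi (le_trans (mu_succ_le hh h0 i fun G => ?_) (ih (by omega)))
    exact Psi_nn G (mul_pos hN0 (qs_bd hN0.le hh.1 hsm.2 _).1).le (by positivity) hev _ _

lemma surv3 {h ζ c D0 : ℝ} {r : ℕ} (hh : Hok V h) (hN : 8 ≤ (Fintype.card V : ℝ))
    (hζN : 2 / (Fintype.card V : ℝ) ≤ ζ) (hc0 : 0 ≤ c) (s0 : ℕ) (hs0 : (s0 : ℝ) ≤ Fintype.card V)
    (hD0 : 1 ≤ D0) (hlog : 2 * s0 * (ζ + s0 / D0) * Real.log (Fintype.card V) ≤ 1) (I : ℕ)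
    (hI : D0 ≤ Fintype.card V * qs (Fintype.card V) h I ^ 2) (i : ℕ) (hi : i < I) :
    Surv (fun f : SimpleGraph V → ℝ => mu h (Gd h ζ c r) i (Pop h f))
      (qs (Fintype.card V) h (i + 1)) 3 s0 := by
  intro S hS
  set N : ℝ := (Fintype.card V : ℝ) with hNd
  have hN0 : 0 < N := by linarith
  have hsm := hh.small hN
  have hζ : 0 ≤ ζ := le_trans (by positivity) hζN
  refine (surv hh hsm.2 (Gd_zero r hN hζN hc0) s0 ?_ hζ (by linarith) I (fun i G hG => hG.1) hI S hS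
    i hi).trans (mul_le_mul_of_nonneg_right ?_ (pow_nonneg (qs_bd hN0.le hh.1 hsm.2 _).1.le _))
  · have := mul_le_mul_of_nonneg_right hs0 (mul_nonneg hh.1 hN0.le)
    nlinarith [hsm.1]
  · have hq := qs_bd hN0.le hh.1 hsm.2 (i + 1)
    have a1 : 1 ≤ N * qs N h (i + 1) ^ 2 := (hD0.trans hI).trans (mul_le_mul_of_nonneg_left
      (pow_le_pow_left₀ (qs_bd hN0.le hh.1 hsm.2 I).1.le (qs_anti hN0.le hh.1 hsm.2 hi) 2) hN0.le)
    have a2 : 1 ≤ N * qs N h (i + 1) := a1.trans (mul_le_mul_of_nonneg_left (by nlinarith) hN0.le)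
    have a3 := a2.trans (mul_le_mul_of_nonneg_left (qs_exp hN0.le hh.1 hsm.2 (i + 1)) hN0.le)
    have a4 : ∑ j ∈ range (i + 1), h * (N * qs N h j ^ 2) ≤ Real.log N := by
      rw [Real.le_log_iff_exp_le hN0]
      rw [Real.exp_neg, ← div_eq_mul_inv, one_le_div (Real.exp_pos _)] at a3
      exact a3
    have a5 := (mul_le_mul_of_nonneg_left a4 (by positivity : 0 ≤ 2 * s0 * (ζ + s0 / D0))).trans hlog
    exact (Real.exp_le_exp.2 a5).trans (Real.exp_one_lt_d9.le.trans (by norm_num))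

theorem loss_bound {h ζ c e s D0 E0 : ℝ} {r : ℕ} (hh : Hok V h) (hN : 8 ≤ (Fintype.card V : ℝ))
    (hζN : 2 / (Fintype.card V : ℝ) ≤ ζ) (hζ : ζ ≤ 1 / 2) (hc0 : 0 ≤ c) (he : 0 < e)
    (hc : c + 2 ^ (r + 2) * ζ ≤ e ^ 2 ^ (r + 2)) (m : ℕ) (hm : Even (m + 1)) (hs : 0 < s) (hs1 : s ≤ 1)
    (hΓ : 8 * 16 ^ (m + 1) * (2 * e ^ 2 + 8 * ζ ^ 2) ≤ (s ^ 2 / 4) ^ (m + 3))
    (hlam : 4 + 24 * ((m + 1 : ℕ) + 2) * s + 1 ≤ (m + 3 : ℕ)) (s0 J : ℕ) (hs0 : (s0 : ℝ) ≤ Fintype.card V)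
    (hJ : 2 * 2 ^ (r + 2) * J ≤ s0)
    (hD0 : 1 ≤ D0) (hlog : 2 * s0 * (ζ + s0 / D0) * Real.log (Fintype.card V) ≤ 1)
    (hE0 : 0 ≤ E0) (hE : 2500 / D0 ≤ E0 ^ 2)
    (hW : 2 ^ (r + 2) * ((2 ^ (r + 2) : ℝ) + 2 * s0) ^ 2 ^ (r + 2) *
      (1 / D0 + Fintype.card V / D0 ^ (2 ^ (r + 1) - 1)) ≤ c / 2) (I : ℕ)
    (hI : D0 ≤ Fintype.card V * qs (Fintype.card V) h I ^ 2) (i : ℕ) (hi : i < I) :
    mu h (Gd h ζ c (r + 1)) i (Pop h fun G : SimpleGraph V => ind (¬Gd h ζ c (r + 1) (i + 1) G)) ≤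
      (cP (m + 1) s + 1) * (Fintype.card V : ℝ) ^ 2 * (3 * E0 / ζ) ^ (m + 3) / s ^ (m + 3) +
        3 * Fintype.card V * ((1 + c / 2) / (1 + c)) ^ J := by
  have P1 := psi_bound hh hN hζN hζ hc0 he hc m hm hs hs1 hΓ hlam I (hD0.trans hI) i hi
  have P2 := surv3 (c := c) (r := r + 1) hh hN hζN hc0 s0 hs0 hD0 hlog I hI i hi
  set N : ℝ := (Fintype.card V : ℝ) with hNd
  have hN0 : 0 < N := by linarith
  have hsm := hh.small hN
  have hζ0 : 0 < ζ := lt_of_lt_of_le (by positivity) hζN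
  have hq := qs_bd hN0.le hh.1 hsm.2 (i + 1)
  have hD : D0 ≤ N * qs N h (i + 1) ^ 2 := hI.trans (mul_le_mul_of_nonneg_left
    (pow_le_pow_left₀ (qs_bd hN0.le hh.1 hsm.2 I).1.le (qs_anti hN0.le hh.1 hsm.2 hi) 2) hN0.le)
  obtain ⟨l, hl⟩ : ∃ l, 2 ^ (r + 2) = l + 1 := Nat.exists_eq_succ_of_ne_zero (by positivity)
  obtain ⟨k, hk⟩ : ∃ k, 2 ^ (r + 1) = k + 1 := Nat.exists_eq_succ_of_ne_zero (by positivity)
  have hk1 : 1 ≤ k := by
    have : 2 ^ 1 ≤ 2 ^ (r + 1) := Nat.pow_le_pow_right (by norm_num) (by omega)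
    omega
  have hlk : l + 1 = 2 * (k + 1) := by rw [← hl, ← hk, pow_succ]; ring
  have F := (mu_fn hh (Gd_zero (h := h) (r + 1) hN hζN hc0) i).pop hh
  set q := qs N h (i + 1) with hqd
  set D := N * q ^ 2 with hDd
  have hD1 : 1 ≤ D := hD0.trans hD
  have hcP : 0 ≤ cP (m + 1) s := by unfold cP; have := one_le_kT (m + 1); positivity
  refine (F.mono _ _ fun G _ => bad_le (J := J) (κ := s ^ (m + 3)) (p := m + 3) hl (by linarith)
    (mul_pos hN0 hq.1) (mul_le_of_le_one_right hN0.le hq.2) (by linarith) (by positivity)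
    (pow_le_one₀ hs.le hs1) (hm.add even_two) hζ0 hc0 G).trans ?_
  rw [F.add, F.mul, F.sum]
  refine add_le_add ?_ ?_
  · refine (mul_le_mul_of_nonneg_left P1 (by positivity)).trans ?_
    have a1 : 50 / (√N * q) ≤ E0 := by
      refine (pow_le_pow_iff_left₀ (by have := hq.1; positivity) hE0 two_ne_zero).1 (le_trans ?_ hE)
      rw [div_pow, mul_pow, Real.sq_sqrt hN0.le]
      exact div_le_div₀ (by norm_num) (by norm_num) (by linarith) hD
    have a2 : (50 / (√N * q)) ^ (m + 3) ≤ E0 ^ (m + 3) :=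
      pow_le_pow_left₀ (by have := hq.1; positivity) a1 _
    calc _ ≤ N / (s ^ (m + 3) * (ζ / 3) ^ (m + 3)) * ((cP (m + 1) s + 1) * N * E0 ^ (m + 3)) := by gcongr
      _ = _ := by rw [div_pow, div_pow, mul_pow]; field_simp
  · have hQ : ∀ x : V, ∀ E0 : Finset (Sym2 V), E0.card ≤ s0 →
        ∑ z ∈ univ.filter fun z : Fin (l + 1) → V => ∀ i, z i ≠ x, q ^ (wset x z \ E0).card ≤
          (1 + c / 2) * D ^ (l + 1) := by
      intro x E0 hE0
      refine (wheel_sum hlk (by omega) x E0 hq.1 hq.2 hD1).trans ?_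
      rw [← hNd, ← hDd]
      have b0 : ((2 : ℝ) ^ (r + 2)) = l + 1 := by exact_mod_cast hl
      rw [b0, hl, hk, Nat.add_sub_cancel] at hW
      have b1 : (E0.card : ℝ) ≤ s0 := by exact_mod_cast hE0
      have b2 : D ^ l ≤ 1 / D0 * D ^ (l + 1) := by
        rw [one_div, ← div_eq_inv_mul, le_div_iff₀ (by linarith), pow_succ]
        exact mul_le_mul_of_nonneg_left hD (by positivity)
      have b3 : D ^ (k + 1 + 1) / q ≤ N / D0 ^ k * D ^ (l + 1) := by
        have c1 : 1 ≤ N * q := hD1.trans (mul_le_mul_of_nonneg_left (by nlinarith) hN0.le)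
        have c2 : D0 ^ k ≤ D ^ k := pow_le_pow_left₀ (by linarith) hD k
        rw [div_mul_eq_mul_div, div_le_div_iff₀ hq.1 (by positivity),
          show l + 1 = k + 1 + 1 + k by omega, pow_add D (k + 1 + 1) k]
        calc D ^ (k + 1 + 1) * D0 ^ k ≤ D ^ (k + 1 + 1) * D ^ k * 1 := by rw [mul_one]; gcongr
          _ ≤ D ^ (k + 1 + 1) * D ^ k * (N * q) := by gcongr
          _ = _ := by ring
      have b4 : (l + 1 : ℝ) * ((l + 1 : ℝ) + 2 * E0.card) ^ (l + 1) * (D ^ l + D ^ (k + 1 + 1) / q) ≤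
          (l + 1) * ((l + 1 : ℝ) + 2 * s0) ^ (l + 1) * (1 / D0 * D ^ (l + 1) + N / D0 ^ k * D ^ (l + 1)) := by
        have := hq.1
        gcongr
      have b5 := mul_le_mul_of_nonneg_right hW (by positivity : 0 ≤ D ^ (l + 1))
      linarith
    calc _ ≤ ∑ _x : V, 3 * ((1 + c / 2) / (1 + c)) ^ J := by
          refine sum_le_sum fun x _ => ?_
          rw [F.mul]
          have b1 := wheel_mom F P2 hq.1.le (by norm_num) (by positivity) x (hQ x) J ∅
            (by rw [card_empty, ← hl]; omega)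
          simp only [sub, notMem_empty, IsEmpty.forall_iff, implies_true, ind_pos, one_mul, card_empty,
            pow_zero, mul_one] at b1
          refine (mul_le_mul_of_nonneg_left b1 (by positivity)).trans (le_of_eq ?_)
          rw [mul_left_comm, ← mul_pow]
          congr 2
          rw [← hNd, ← hqd, ← hDd]
          field_simp
      _ = _ := by rw [sum_const, card_univ, nsmul_eq_mul]; ring

end Vale.Agent.P046
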