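import Vale.Agent.P046.Real
import Vale.Agent.P046.Phase1b

/-! Stability of the branching recursion on a good graph. -/

set_option linter.unusedSectionVars false

open Finset Vale.Agent.P044

namespace Vale.Agent.P046

noncomputable def Th (W : ℕ → ℝ) (D : ℝ) : ℕ → ℝ
  | 0 => 0
  | s + 1 => Th W D s + W s * D * Real.exp (-2 * Th W D s)

lemma Th_mono {W : ℕ → ℝ} {D : ℝ} (hW : ∀ t, 0 ≤ W t) (hD : 0 ≤ D) : Monotone (Th W D) :=
  monotone_nat_of_le_succ fun s => by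
    have := hW s
    simp only [Th]; exact le_add_of_nonneg_right (by positivity)

lemma Th_nn {W : ℕ → ℝ} {D : ℝ} (hW : ∀ t, 0 ≤ W t) (hD : 0 ≤ D) (s : ℕ) : 0 ≤ Th W D s :=
  Th_mono hW hD (Nat.zero_le s)

lemma Th_lower (W : ℕ → ℝ) (D : ℝ) (s : ℕ) :
    1 + 2 * D * ∑ t ∈ range s, W t ≤ Real.exp (2 * Th W D s) := by
  induction s with
  | zero => simp [Th]
  | succ s ih =>
    have h1 := Real.add_one_le_exp (2 * (W s * D * Real.exp (-2 * Th W D s)))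
    have h2 : Real.exp (2 * Th W D s) * Real.exp (-2 * Th W D s) = 1 := by
      rw [← Real.exp_add]; simp
    have h3 := mul_le_mul_of_nonneg_left h1 (Real.exp_pos (2 * Th W D s)).le
    simp only [Th]
    rw [sum_range_succ, mul_add 2 (Th W D s), Real.exp_add]
    have e : Real.exp (2 * Th W D s) * (2 * (W s * D * Real.exp (-2 * Th W D s)) + 1) =
      2 * D * W s * (Real.exp (2 * Th W D s) * Real.exp (-2 * Th W D s)) + Real.exp (2 * Th W D s) := by ring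
    rw [e, h2] at h3
    linarith

lemma dth_le {W : ℕ → ℝ} {D : ℝ} (hW : ∀ t, 0 ≤ W t) (hD : 0 ≤ D) (s : ℕ) :
    0 ≤ W s * D * Real.exp (-2 * Th W D s) ∧ W s * D * Real.exp (-2 * Th W D s) ≤ W s * D := by
  have := hW s
  have := Th_nn hW hD s
  exact ⟨by positivity, mul_le_of_le_one_right (by positivity) (Real.exp_le_one_iff.2 (by linarith))⟩

lemma Th_upper {W : ℕ → ℝ} {D wb : ℝ} {k : ℕ} (hW : ∀ t, 0 ≤ W t) (hD : 0 ≤ D)
    (hwb : ∀ t < k, W t ≤ wb) (h1 : wb * D ≤ 1 / 2) (s : ℕ) (hs : s ≤ k) :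
    Real.exp (2 * Th W D s) ≤ 1 + 2 * D * (1 + 2 * (wb * D)) * ∑ t ∈ range s, W t := by
  induction s with
  | zero => simp [Th]
  | succ s ih =>
    have ih := ih (by omega)
    have hd := dth_le hW hD s
    have h0 := hd.2.trans (mul_le_mul_of_nonneg_right (hwb s (by omega)) hD)
    set u := W s * D * Real.exp (-2 * Th W D s) with hu
    have h4 := (abs_le.1 (Real.abs_exp_sub_one_sub_id_le (x := 2 * u)
      (by rw [abs_le]; constructor <;> linarith))).2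
    have h2 : Real.exp (2 * Th W D s) * u = W s * D := by
      rw [hu, mul_left_comm, ← Real.exp_add]; simp
    have h5 : Real.exp (2 * u) ≤ 1 + 2 * u * (1 + 2 * (wb * D)) := by nlinarith
    have h3 := mul_le_mul_of_nonneg_left h5 (Real.exp_pos (2 * Th W D s)).le
    simp only [Th]
    rw [sum_range_succ, mul_add 2 (Th W D s), Real.exp_add, ← hu]
    have e : Real.exp (2 * Th W D s) * (1 + 2 * u * (1 + 2 * (wb * D))) = Real.exp (2 * Th W D s) +
      2 * (Real.exp (2 * Th W D s) * u) * (1 + 2 * (wb * D)) := by ring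
    rw [e, h2] at h3
    linarith

lemma log_bd {y : ℝ} (h0 : 0 ≤ y) (h1 : y ≤ 1 / 2) :
    -(2 * y ^ 2) ≤ Real.log (1 - y) + y ∧ Real.log (1 - y) + y ≤ 0 := by
  have h2 : 0 < 1 - y := by linarith
  refine ⟨?_, by linarith [Real.log_le_sub_one_of_pos h2]⟩
  have h3 := Real.one_sub_inv_le_log_of_pos h2
  have h4 : (1 - y)⁻¹ ≤ 1 + y + 2 * y ^ 2 := by
    rw [inv_le_iff_one_le_mul₀ h2]; nlinarith [mul_nonneg (mul_nonneg h0 h0) (by linarith : 0 ≤ 1 - 2 * y)]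
  linarith

variable {V : Type} [Fintype V] [DecidableEq V]

lemma sum_ap (G : SimpleGraph V) (x u : V) (f : V → ℝ) :
    ∑ z ∈ ap G x u ∅, f z = ∑ z, adj G x z * adj G u z * f z := by
  unfold ap
  rw [sum_filter]
  refine sum_congr rfl fun z _ => ?_
  by_cases h1 : G.Adj x z <;> by_cases h2 : G.Adj u z <;> simp [adj, ind, h1, h2]

lemma ap_insert {G : SimpleGraph V} {x z u : V} (h1 : G.Adj x u) (h2 : G.Adj z u) :
    ap G x z ∅ = insert u (ap G x z {u}) := by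
  ext v
  by_cases h : v = u
  · simp [mem_ap, h, h1, h2]
  · simp [mem_ap, h]

noncomputable def al (G : SimpleGraph V) (y : V × V × V → ℝ) (θ : ℝ) (x u : V) : ℝ :=
  θ + ∑ z ∈ ap G x u ∅, Real.log (1 - y (x, u, z))

lemma prod_ap {G : SimpleGraph V} {y : V × V × V → ℝ} (hy : ∀ a, VdG G a → y a ≤ 1 / 2) {x u : V}
    (h : G.Adj x u) (X : Finset V) :
    ∏ z ∈ ap G x u X, (1 - y (x, u, z)) = Real.exp (∑ z ∈ ap G x u X, Real.log (1 - y (x, u, z))) := by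
  rw [Real.exp_sum]
  refine prod_congr rfl fun z hz => (Real.exp_log ?_).symm
  linarith [hy (x, u, z) ⟨h, (mem_ap.1 hz).1, (mem_ap.1 hz).2.1⟩]

variable {τ : Type} [Fintype τ] {tv : τ → ℕ} {w : τ → ℝ}

lemma vv_root (hw : Pw w) (G : SimpleGraph V) (s : ℕ) (θ : ℝ)
    (hy : ∀ a, VdG G a → yy w lineG (chG G) tv s a ≤ 1 / 2) {x u : V} (h : G.Adj x u) :
    vv w lineG (chG G) tv s (fanL G x u ∅) =
      Real.exp (-θ) * Real.exp (al G (yy w lineG (chG G) tv s) θ x u) := by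
  rw [vv_eq hw, lprod_fan, prod_ap hy h, ← Real.exp_add, al]; congr 1; ring

lemma vv_ch (hw : Pw w) (G : SimpleGraph V) (s : ℕ) (θ : ℝ) {γ : ℝ} (hγ : γ ≤ 1 / 2)
    (hy : ∀ a, VdG G a → 0 ≤ yy w lineG (chG G) tv s a ∧ yy w lineG (chG G) tv s a ≤ γ) {x u z : V}
    (ha : VdG G (x, u, z)) : ∃ η, 0 ≤ η ∧ η ≤ 4 * γ ∧ vv w lineG (chG G) tv s (chG G (x, u, z)) =
      Real.exp (-2 * θ) * Real.exp (al G (yy w lineG (chG G) tv s) θ x z +
        al G (yy w lineG (chG G) tv s) θ u z + η) := by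
  obtain ⟨h1, h2, h3⟩ : G.Adj x u ∧ G.Adj x z ∧ G.Adj u z := ha
  have hy' : ∀ a, VdG G a → yy w lineG (chG G) tv s a ≤ 1 / 2 := fun a ha => (hy a ha).2.trans hγ
  have a1 := hy (x, z, u) ⟨h2, h1, h3.symm⟩
  have a2 := hy (u, z, x) ⟨h3, h1.symm, h2.symm⟩
  have b1 := log_bd a1.1 (a1.2.trans hγ)
  have b2 := log_bd a2.1 (a2.2.trans hγ)
  refine ⟨-Real.log (1 - yy w lineG (chG G) tv s (x, z, u)) - Real.log (1 - yy w lineG (chG G) tv s (u, z, x)),
    by linarith, by nlinarith, ?_⟩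
  rw [vv_eq hw, chG, List.map_append, List.prod_append, lprod_fan, lprod_fan, prod_ap hy' h2, prod_ap hy' h3,
    ← Real.exp_add, ← Real.exp_add, al, al, ap_insert h1 h3.symm, ap_insert h1.symm h2.symm,
    sum_insert (by simp [mem_ap]), sum_insert (by simp [mem_ap])]
  congr 1; ring

lemma drift_eq {G : SimpleGraph V} {D Δ ζ β γ : ℝ} (hR : Reg (adj G) D Δ ζ) (hD : 0 < D) (hζ : ζ ≤ 1)
    (α : V → V → ℝ) (hα : ∀ x y, G.Adj x y → |α x y| ≤ β) (hβγ : 2 * β + 4 * γ ≤ 1) (hγ : 0 ≤ γ)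
    {x u : V} (h : G.Adj x u) (v : V → ℝ)
    (hv : ∀ z, G.Adj x z → G.Adj u z → ∃ η, 0 ≤ η ∧ η ≤ 4 * γ ∧ v z = Real.exp (α x z + α u z + η)) :
    |1 - (∑ z ∈ ap G x u ∅, v z) / D + (∑ z, adj G x z * α x z) / Δ + (∑ z, adj G u z * α u z) / Δ +
      Rop (adj G) D Δ x (α x) u + Rop (adj G) D Δ u (α u) x| ≤ ζ + 2 * (4 * γ + (2 * β + 4 * γ) ^ 2) := by
  have e : 1 - (∑ z ∈ ap G x u ∅, v z) / D + (∑ z, adj G x z * α x z) / Δ + (∑ z, adj G u z * α u z) / Δ +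
      Rop (adj G) D Δ x (α x) u + Rop (adj G) D Δ u (α u) x = -(cod (adj G) x u / D - 1) -
        (∑ z, adj G x z * adj G u z * (v z - 1 - α x z - α u z)) / D := by
    simp only [sum_ap, Rop, cod, mul_sub, sum_sub_distrib, mul_one, mul_comm (adj G u _) (adj G x _)]
    ring
  rw [e]
  have h1 := abs_wsum_le (fun z => adj G x z * adj G u z) (fun z => v z - 1 - α x z - α u z)
    (fun z => mul_nonneg ((adj01 G).nn _ _) ((adj01 G).nn _ _)) (4 * γ + (2 * β + 4 * γ) ^ 2) fun z hz => by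
      have a1 : G.Adj x z := of_ind_ne (left_ne_zero_of_mul hz)
      have a2 : G.Adj u z := of_ind_ne (right_ne_zero_of_mul hz)
      obtain ⟨η, b1, b2, b3⟩ := hv z a1 a2
      have c1 := abs_le.1 (hα x z a1)
      have c2 := abs_le.1 (hα u z a2)
      have c3 : |α x z + α u z + η| ≤ 2 * β + 4 * γ := by rw [abs_le]; constructor <;> linarith
      have c4 := abs_le.1 (Real.abs_exp_sub_one_sub_id_le (c3.trans hβγ))
      have c5 : (α x z + α u z + η) ^ 2 ≤ (2 * β + 4 * γ) ^ 2 := by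
        rw [← sq_abs]; exact pow_le_pow_left₀ (abs_nonneg _) c3 2
      rw [b3, abs_le]; constructor <;> linarith
  have hb : 0 ≤ 4 * γ + (2 * β + 4 * γ) ^ 2 := by positivity
  have h2 := hR.cod_le hD hζ (adj_one h)
  have h3 := abs_le.1 (hR.cd x u (adj_one h))
  have h4 : |(∑ z, adj G x z * adj G u z * (v z - 1 - α x z - α u z)) / D| ≤
      2 * (4 * γ + (2 * β + 4 * γ) ^ 2) := by
    rw [abs_div, abs_of_pos hD, div_le_iff₀ hD]
    have := mul_le_mul_of_nonneg_right h2 hb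
    unfold cod at this; linarith
  rw [abs_le] at h4 ⊢
  constructor <;> linarith

noncomputable def dl (G : SimpleGraph V) (Δ : ℝ) (θ : ℕ → ℝ) (y : ℕ → V × V × V → ℝ) (s : ℕ) (x : V) : ℝ :=
  -∑ t ∈ range s, (θ (t + 1) - θ t) * ((∑ z, adj G x z * al G (y t) (θ t) x z) / Δ)

noncomputable def ci (G : SimpleGraph V) (Δ : ℝ) (θ : ℕ → ℝ) (y : ℕ → V × V × V → ℝ) (s : ℕ) (x u : V) : ℝ :=
  θ s - ∑ z ∈ ap G x u ∅, y s (x, u, z) - dl G Δ θ y s x - dl G Δ θ y s u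

lemma al_split {G : SimpleGraph V} {D Δ ζ γ : ℝ} (hR : Reg (adj G) D Δ ζ) (hD : 0 < D) (hζ : ζ ≤ 1)
    (θ : ℕ → ℝ) (y : ℕ → V × V × V → ℝ) (t : ℕ) (hγ : γ ≤ 1 / 2)
    (hy : ∀ a, VdG G a → 0 ≤ y t a ∧ y t a ≤ γ) {x u : V} (h : G.Adj x u) :
    |al G (y t) (θ t) x u - ci G Δ θ y t x u - dl G Δ θ y t x - dl G Δ θ y t u| ≤ 4 * D * γ ^ 2 := by
  have e : al G (y t) (θ t) x u - ci G Δ θ y t x u - dl G Δ θ y t x - dl G Δ θ y t u =
      ∑ z ∈ ap G x u ∅, (Real.log (1 - y t (x, u, z)) + y t (x, u, z)) := by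
    rw [sum_add_distrib, al, ci]; ring
  rw [e, sum_ap]
  refine (abs_wsum_le (fun z => adj G x z * adj G u z) _
    (fun z => mul_nonneg ((adj01 G).nn _ _) ((adj01 G).nn _ _)) (2 * γ ^ 2) fun z hz => ?_).trans ?_
  · have a := hy (x, u, z) ⟨h, of_ind_ne (left_ne_zero_of_mul hz), of_ind_ne (right_ne_zero_of_mul hz)⟩
    have b := log_bd a.1 (a.2.trans hγ)
    have c := pow_le_pow_left₀ a.1 a.2 2
    rw [abs_le]; constructor <;> nlinarith
  · have := mul_le_mul_of_nonneg_right (hR.cod_le hD hζ (adj_one h)) (by positivity : 0 ≤ 2 * γ ^ 2)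
    unfold cod at this; linarith

lemma psi_step {G : SimpleGraph V} {D Δ ζ Γ s E β γ : ℝ} {m : ℕ} (hR : Reg (adj G) D Δ ζ) (hD : 0 < D)
    (hΔ : 0 < Δ) (hζ : ζ ≤ 1) (hm : Even m) (hs : 0 < s) (hs1 : s ≤ 1)
    (hM : LinkP (adj G) D Δ Γ (m + 2)) (hΓ : Γ ≤ (s ^ 2 / 4) ^ (m + 2))
    (hβγ : 2 * β + 4 * γ ≤ 1) (hγ : 0 ≤ γ) (hβ : 0 ≤ β) (hE1 : ζ + 2 * (4 * γ + (2 * β + 4 * γ) ^ 2) ≤ E)
    (hE2 : 4 * D * γ ^ 2 ≤ E) (hE4 : E ≤ 1) (θ : ℕ → ℝ) (y : ℕ → V × V × V → ℝ) (t : ℕ)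
    (hu : 0 ≤ θ (t + 1) - θ t) (hu1 : θ (t + 1) - θ t ≤ 1 / 2) (hE3 : 81 * (θ (t + 1) - θ t) ≤ E ^ 2)
    (hy : ∀ a, VdG G a → 0 ≤ y t a ∧ y t a ≤ γ) (hα : ∀ x u, G.Adj x u → |al G (y t) (θ t) x u| ≤ β)
    (hv : ∀ x u z, VdG G (x, u, z) → ∃ η, 0 ≤ η ∧ η ≤ 4 * γ ∧ y (t + 1) (x, u, z) = y t (x, u, z) +
      (θ (t + 1) - θ t) / D * Real.exp (al G (y t) (θ t) x z + al G (y t) (θ t) u z + η)) :
    Psi (adj G) Δ (s ^ (m + 2)) (m + 2) (ci G Δ θ y (t + 1)) (dl G Δ θ y (t + 1)) ≤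
      (1 + (θ (t + 1) - θ t) * (4 + 24 * (m + 2) * s)) *
        Psi (adj G) Δ (s ^ (m + 2)) (m + 2) (ci G Δ θ y t) (dl G Δ θ y t) +
        (θ (t + 1) - θ t) * cP m s * Fintype.card V * E ^ (m + 2) := by
  set u := θ (t + 1) - θ t with hud
  set α := al G (y t) (θ t) with hαd
  have hE : 0 ≤ E := le_trans (by positivity) hE2
  choose! η hη using hv
  let e : V → V → ℝ := fun x u => 1 - (∑ z ∈ ap G x u ∅, Real.exp (α x z + α u z + η x u z)) / D +
    (∑ z, adj G x z * α x z) / Δ + (∑ z, adj G u z * α u z) / Δ +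
      Rop (adj G) D Δ x (α x) u + Rop (adj G) D Δ u (α u) x
  have he : ∀ x u, adj G x u = 1 → |e x u| ≤ E := fun x u h =>
    (drift_eq hR hD hζ α hα hβγ hγ (adj_eq_one.1 h) _ fun z h1 h2 =>
      ⟨η x u z, (hη x u z ⟨adj_eq_one.1 h, h1, h2⟩).1, (hη x u z ⟨adj_eq_one.1 h, h1, h2⟩).2.1, rfl⟩).trans hE1
  have hδ : ∀ x, dl G Δ θ y (t + 1) x - dl G Δ θ y t x = u * (-(∑ z, adj G x z * α x z) / Δ) := fun x => by
    simp only [dl, sum_range_succ]; ring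
  have hχ : ∀ x v, adj G x v = 1 → ci G Δ θ y (t + 1) x v - ci G Δ θ y t x v =
      u * (-Rop (adj G) D Δ x (α x) v - Rop (adj G) D Δ v (α v) x + e x v) := fun x v h => by
    have a1 : ∑ z ∈ ap G x v ∅, y (t + 1) (x, v, z) = ∑ z ∈ ap G x v ∅, y t (x, v, z) +
        u / D * ∑ z ∈ ap G x v ∅, Real.exp (α x z + α v z + η x v z) := by
      rw [mul_sum, ← sum_add_distrib]
      exact sum_congr rfl fun z hz => (hη x v z ⟨adj_eq_one.1 h, (mem_ap.1 hz).1, (mem_ap.1 hz).2.1⟩).2.2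
    have a2 := hδ x
    have a3 := hδ v
    simp only [ci, a1, e]
    linear_combination -a2 - a3 - hud
  have sq : ∀ X Y : ℝ, |Y| ≤ 9 → X = u * Y → |X| ≤ E ∧ X ^ 2 ≤ u * E ^ 2 := fun X Y hY hX => by
    have b1 : X ^ 2 ≤ u * (81 * u) := by
      have := mul_le_mul_of_nonneg_left (pow_le_pow_left₀ (abs_nonneg _) hY 2) (sq_nonneg u)
      rw [sq_abs] at this
      rw [hX]; nlinarith
    have b2 := b1.trans (mul_le_mul_of_nonneg_left hE3 hu)
    exact ⟨abs_le_of_sq_le_sq' (by nlinarith [sq_nonneg E]) hE |> abs_le.2, b2⟩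
  have hα' : ∀ x z, adj G x z = 1 → |α x z| ≤ β := fun x z h => hα x z (adj_eq_one.1 h)
  have c1 : ∀ x v, adj G x v = 1 → |ci G Δ θ y (t + 1) x v - ci G Δ θ y t x v| ≤ E ∧
      (ci G Δ θ y (t + 1) x v - ci G Δ θ y t x v) ^ 2 ≤ u * E ^ 2 := fun x v h => by
    refine sq _ _ ?_ (hχ x v h)
    have b1 := abs_le.1 (Rop_inf (adj01 G) hR hD hΔ hζ x (α x) β (hα' x) v h)
    have b2 := abs_le.1 (Rop_inf (adj01 G) hR hD hΔ hζ v (α v) β (hα' v) x (by rw [(adj01 G).sym, h]))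
    have b3 := abs_le.1 (he x v h)
    rw [abs_le]; constructor <;> linarith
  have c2 : ∀ x, |dl G Δ θ y (t + 1) x - dl G Δ θ y t x| ≤ E ∧
      (dl G Δ θ y (t + 1) x - dl G Δ θ y t x) ^ 2 ≤ u * E ^ 2 := fun x => by
    refine sq _ _ ?_ (hδ x)
    have b1 := abs_wsum_le (fun z => adj G x z) (α x) (fun z => (adj01 G).nn _ _) β
      fun z hz => hα x z (of_ind_ne hz)
    have b2 := mul_le_mul_of_nonneg_right (hR.dg_le hΔ hζ x) hβ
    rw [abs_div, abs_neg, abs_of_pos hΔ, div_le_iff₀ hΔ]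
    unfold dg at b2
    nlinarith
  have := pot_step (adj01 G) hΔ hΔ (hR.dg_le hΔ hζ) m hm hs hs1 hM hΓ α (ci G Δ θ y t)
    (fun x v => α x v - ci G Δ θ y t x v - dl G Δ θ y t x - dl G Δ θ y t v) e (dl G Δ θ y t)
    (fun x v _ => by ring)
    (fun x v h => (al_split hR hD hζ θ y t (by linarith) hy (adj_eq_one.1 h)).trans hE2) he hE hu hu1 hu
    (by rw [mul_div_assoc, div_self hΔ.ne']; linarith) hu (by linarith) (by rw [div_self hΔ.ne']; linarith)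
    (Ω := Unit) (fun _ => 1) (fun _ => zero_le_one) (by simp) (fun _ => adj G)
    (fun _ => ci G Δ θ y (t + 1)) (fun _ => dl G Δ θ y (t + 1)) (fun _ _ _ => le_rfl)
    (fun x v h _ _ => (c1 x v h).1) (fun x v h => by simpa using (c1 x v h).2)
    (fun x v h => by simpa using hχ x v h) (fun x _ _ => (c2 x).1) (fun x => by simpa using (c2 x).2)
    (fun x => by simpa using hδ x)
  simpa using this

/-- Numerical hypotheses for the second phase. -/
structure BPar (N D Δ ζ s E β γ T wb : ℝ) (m : ℕ) : Prop where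
  D1 : 1 ≤ D
  d0 : 0 < Δ
  dN : Δ ≤ N
  N1 : 1 ≤ N
  z1 : ζ ≤ 1
  ev : Even m
  s0 : 0 < s
  s1 : s ≤ 1
  wD : wb * D ≤ 1 / 2
  T5 : 5 * D ≤ Real.exp (2 * T)
  gT : 4 * T / D ≤ γ
  bg : 2 * β + 4 * γ ≤ 1
  E1 : ζ + 2 * (4 * γ + (2 * β + 4 * γ) ^ 2) ≤ E
  E2 : 4 * D * γ ^ 2 ≤ E
  E3 : 81 * (wb * D) ≤ E ^ 2
  E4 : E ≤ β / 4
  psi : N * (cP m s * N * E ^ (m + 2) * Real.exp ((4 + 24 * (m + 2) * s) * T)) < s ^ (m + 2) * (β / 4) ^ (m + 2)

lemma Th_le (hw : Pw w) {N D Δ ζ s E β γ T wb : ℝ} {m k : ℕ} (P : BPar N D Δ ζ s E β γ T wb m)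
    (hwb : ∀ t < k, Wt w tv t ≤ wb) (t : ℕ) (ht : t ≤ k) : Th (Wt w tv) D t ≤ T := by
  have hD := P.D1
  have h1 := Th_upper (Wt_nn hw) (by linarith) hwb P.wD t ht
  have h2 := sum_Wt_le (tv := tv) hw t
  have h3 : 0 ≤ ∑ s ∈ range t, Wt w tv s := sum_nonneg fun _ _ => Wt_nn hw _
  have h4 : (1 + 2 * (wb * D)) * ∑ s ∈ range t, Wt w tv s ≤ 2 := by nlinarith [P.wD]
  have h5 := mul_le_mul_of_nonneg_left h4 (by linarith : 0 ≤ 2 * D)
  have h6 : Real.exp (2 * Th (Wt w tv) D t) ≤ Real.exp (2 * T) := by linarith [P.T5]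
  linarith [Real.exp_le_exp.1 h6]

theorem bp_main (hw : Pw w) {G : SimpleGraph V} {D Δ ζ Γ s E β γ T wb : ℝ} {m k : ℕ}
    (P : BPar (Fintype.card V) D Δ ζ s E β γ T wb m) (hR : Reg (adj G) D Δ ζ)
    (hM : LinkP (adj G) D Δ Γ (m + 2)) (hΓ : Γ ≤ (s ^ 2 / 4) ^ (m + 2))
    (hwb : ∀ t < k, Wt w tv t ≤ wb) (t : ℕ) (ht : t ≤ k) :
    (∀ a, VdG G a → 0 ≤ yy w lineG (chG G) tv t a ∧ yy w lineG (chG G) tv t a ≤ 4 * Th (Wt w tv) D t / D) ∧
    (∀ x u, G.Adj x u → |al G (yy w lineG (chG G) tv t) (Th (Wt w tv) D t) x u| ≤ β) ∧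
    Psi (adj G) Δ (s ^ (m + 2)) (m + 2) (ci G Δ (Th (Wt w tv) D) (yy w lineG (chG G) tv) t)
      (dl G Δ (Th (Wt w tv) D) (yy w lineG (chG G) tv) t) + cP m s * Fintype.card V * E ^ (m + 2) ≤
      cP m s * Fintype.card V * E ^ (m + 2) * Real.exp ((4 + 24 * (m + 2) * s) * Th (Wt w tv) D t) := by
  have hD : 0 < D := by linarith [P.D1]
  have hT0 : 0 ≤ T := (Th_le hw P hwb 0 (Nat.zero_le _))
  have hγ : 0 ≤ γ := le_trans (by positivity) P.gT
  have hE : 0 ≤ E := le_trans (by positivity) P.E2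
  have hβ : 0 ≤ β := by linarith [P.E4]
  have hev : Even (m + 2) := P.ev.add even_two
  have hbg := P.bg
  have hs := P.s0
  have hg : ∀ t ≤ k, 4 * Th (Wt w tv) D t / D ≤ γ := fun t ht =>
    le_trans (div_le_div_of_nonneg_right (by linarith [Th_le hw P hwb t ht]) hD.le) P.gT
  induction t with
  | zero =>
    refine ⟨fun a _ => by simp [yy_zero, Th], fun x u _ => by simp [al, yy_zero, Th, hβ], ?_⟩
    simp [Psi, ci, dl, yy_zero, Th]
  | succ t ih =>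
    obtain ⟨i1, i2, i3⟩ := ih (by omega)
    have i1' : ∀ a, VdG G a → 0 ≤ yy w lineG (chG G) tv t a ∧ yy w lineG (chG G) tv t a ≤ γ :=
      fun a ha => ⟨(i1 a ha).1, (i1 a ha).2.trans (hg t (by omega))⟩
    have hd := dth_le (Wt_nn (tv := tv) hw) hD.le t
    have hd2 := hd.2.trans (mul_le_mul_of_nonneg_right (hwb t (by omega)) hD.le)
    have e : Th (Wt w tv) D (t + 1) - Th (Wt w tv) D t =
      Wt w tv t * D * Real.exp (-2 * Th (Wt w tv) D t) := by simp only [Th]; ring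
    have hv : ∀ x u z, VdG G (x, u, z) → ∃ η, 0 ≤ η ∧ η ≤ 4 * γ ∧ yy w lineG (chG G) tv (t + 1) (x, u, z) =
        yy w lineG (chG G) tv t (x, u, z) + (Th (Wt w tv) D (t + 1) - Th (Wt w tv) D t) / D *
          Real.exp (al G (yy w lineG (chG G) tv t) (Th (Wt w tv) D t) x z +
            al G (yy w lineG (chG G) tv t) (Th (Wt w tv) D t) u z + η) := fun x u z ha => by
      obtain ⟨η, h1, h2, h3⟩ := vv_ch hw G t (Th (Wt w tv) D t) (by linarith) i1' ha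
      refine ⟨η, h1, h2, ?_⟩
      rw [yy_succ, h3, e]; field_simp
    have j1 : ∀ a, VdG G a → 0 ≤ yy w lineG (chG G) tv (t + 1) a ∧
        yy w lineG (chG G) tv (t + 1) a ≤ 4 * Th (Wt w tv) D (t + 1) / D := by
      rintro ⟨x, u, z⟩ ha
      obtain ⟨η, h1, h2, h3⟩ := hv x u z ha
      have b1 := abs_le.1 (i2 x z ha.2.1)
      have b2 := abs_le.1 (i2 u z ha.2.2)
      have b3 : Real.exp (al G (yy w lineG (chG G) tv t) (Th (Wt w tv) D t) x z +
            al G (yy w lineG (chG G) tv t) (Th (Wt w tv) D t) u z + η) ≤ 4 :=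
        (Real.exp_le_exp.2 (by linarith)).trans (Real.exp_one_lt_d9.le.trans (by norm_num))
      have b4 : 0 ≤ (Th (Wt w tv) D (t + 1) - Th (Wt w tv) D t) / D := div_nonneg (e ▸ hd.1) hD.le
      have b5 := mul_le_mul_of_nonneg_left b3 b4
      have b6 := i1 _ ha
      rw [h3]
      refine ⟨add_nonneg b6.1 (mul_nonneg b4 (Real.exp_pos _).le), ?_⟩
      have : 4 * Th (Wt w tv) D (t + 1) / D = 4 * Th (Wt w tv) D t / D +
        (Th (Wt w tv) D (t + 1) - Th (Wt w tv) D t) / D * 4 := by ring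
      linarith
    have j2 := psi_step hR hD P.d0 P.z1 P.ev P.s0 P.s1 hM hΓ P.bg hγ hβ P.E1 P.E2 (by linarith [P.E4])
      (Th (Wt w tv) D) (yy w lineG (chG G) tv) t (e ▸ hd.1) (by linarith [P.wD]) (by linarith [P.E3]) i1' i2 hv
    set K := cP m s * Fintype.card V * E ^ (m + 2) with hK
    set lam := 4 + 24 * ((m : ℝ) + 2) * s with hlam
    have hK0 : 0 ≤ K := by
      have : 0 ≤ cP m s := by unfold cP; have := one_le_kT m; positivity
      positivity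
    have hl : 1 ≤ lam := by
      have : 0 ≤ 24 * ((m : ℝ) + 2) * s := by positivity
      linarith
    have j3 : Psi (adj G) Δ (s ^ (m + 2)) (m + 2) (ci G Δ (Th (Wt w tv) D) (yy w lineG (chG G) tv) (t + 1))
        (dl G Δ (Th (Wt w tv) D) (yy w lineG (chG G) tv) (t + 1)) + K ≤
        K * Real.exp (lam * Th (Wt w tv) D (t + 1)) := by
      set u := Th (Wt w tv) D (t + 1) - Th (Wt w tv) D t with hu
      have hu0 : 0 ≤ u := e ▸ hd.1
      have b1 := mul_le_mul_of_nonneg_left i3 (by positivity : 0 ≤ 1 + u * lam)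
      have b2 := mul_le_mul_of_nonneg_right (Real.add_one_le_exp (u * lam))
        (by positivity : 0 ≤ K * Real.exp (lam * Th (Wt w tv) D t))
      have b3 : Real.exp (lam * Th (Wt w tv) D (t + 1)) =
          Real.exp (u * lam) * Real.exp (lam * Th (Wt w tv) D t) := by
        rw [← Real.exp_add, hu]; congr 1; ring
      have b4 := mul_le_mul_of_nonneg_left hl (mul_nonneg hu0 hK0)
      have b5 : u * cP m s * Fintype.card V * E ^ (m + 2) = u * K := by rw [hK]; ring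
      rw [b3]; nlinarith
    refine ⟨j1, fun x u h => ?_, j3⟩
    have b1 : K * Real.exp (lam * Th (Wt w tv) D (t + 1)) ≤ K * Real.exp (lam * T) :=
      mul_le_mul_of_nonneg_left (Real.exp_le_exp.2
        (mul_le_mul_of_nonneg_left (Th_le hw P hwb _ ht) (by linarith))) hK0
    have b2 : ¬((∃ x, β / 4 ≤ |dl G Δ (Th (Wt w tv) D) (yy w lineG (chG G) tv) (t + 1) x|) ∨
        ∃ x u, adj G x u = 1 ∧ β / 4 ≤ |ci G Δ (Th (Wt w tv) D) (yy w lineG (chG G) tv) (t + 1) x u|) := by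
      intro H
      have c1 := le_Psi (adj01 G) P.d0 P.dN P.N1 (κ := s ^ (m + 2)) (by positivity)
        (pow_le_one₀ hs.le P.s1) hev _ _ (by linarith) H
      rw [div_le_iff₀ (by linarith [P.N1])] at c1
      have c2 := P.psi
      have c3 := mul_le_mul_of_nonneg_left ((le_add_of_nonneg_right hK0).trans (j3.trans b1))
        (by linarith [P.N1] : (0 : ℝ) ≤ Fintype.card V)
      linarith
    push Not at b2
    have c1 := abs_lt.1 (b2.1 x)
    have c2 := abs_lt.1 (b2.1 u)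
    have c3 := abs_lt.1 (b2.2 x u (adj_one h))
    have c4 := abs_le.1 ((al_split hR hD P.z1 (Th (Wt w tv) D) (yy w lineG (chG G) tv) (t + 1)
      (by linarith) (fun a ha => ⟨(j1 a ha).1, (j1 a ha).2.trans (hg _ ht)⟩) h).trans P.E2)
    rw [abs_le]; constructor <;> linarith [P.E4]

theorem bp_ctl (hw : Pw w) {G : SimpleGraph V} {D Δ ζ Γ s E β γ T wb : ℝ} {m k : ℕ}
    (P : BPar (Fintype.card V) D Δ ζ s E β γ T wb m) (hR : Reg (adj G) D Δ ζ)
    (hM : LinkP (adj G) D Δ Γ (m + 2)) (hΓ : Γ ≤ (s ^ 2 / 4) ^ (m + 2))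
    (hwb : ∀ t < k, Wt w tv t ≤ wb) :
    Ctl w lineG (chG G) tv (VdG G) k (1 / (8 * D)) (fun t => Real.exp (64 * Th (Wt w tv) D t)) ∧
    ∀ x u, G.Adj x u → ∃ α, |α| ≤ β ∧
      vv w lineG (chG G) tv k (fanL G x u ∅) = Real.exp (-Th (Wt w tv) D k) * Real.exp α := by
  have hD : 0 < D := by linarith [P.D1]
  have hT0 : 0 ≤ T := (Th_le hw P hwb 0 (Nat.zero_le _))
  have hγ : 0 ≤ γ := le_trans (by positivity) P.gT
  have hE : 0 ≤ E := le_trans (by positivity) P.E2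
  have hβ : 0 ≤ β := by linarith [P.E4]
  have hbg := P.bg
  have H := bp_main hw P hR hM hΓ hwb
  have hy : ∀ t ≤ k, ∀ a, VdG G a → 0 ≤ yy w lineG (chG G) tv t a ∧ yy w lineG (chG G) tv t a ≤ γ :=
    fun t ht a ha => ⟨((H t ht).1 a ha).1, ((H t ht).1 a ha).2.trans (le_trans
      (div_le_div_of_nonneg_right (by linarith [Th_le hw P hwb t ht]) hD.le) P.gT)⟩
  refine ⟨⟨ch_vd, fun a ha t ht => by linarith [(hy t ht a ha).2], ?_,
    fun t => Real.one_le_exp (by linarith [Th_nn (Wt_nn (tv := tv) hw) hD.le t]),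
    fun a b hab => Real.exp_le_exp.2 (by linarith [Th_mono (Wt_nn (tv := tv) hw) hD.le hab]),
    by positivity⟩, fun x u h => ⟨_, (H k le_rfl).2.1 x u h,
      vv_root hw G k _ (fun a ha => by linarith [(hy k le_rfl a ha).2]) h⟩⟩
  rintro ⟨x, u, z⟩ ha t ht
  obtain ⟨η, h1, h2, h3⟩ := vv_ch hw G t (Th (Wt w tv) D t) (by linarith) (hy t ht.le) ha
  have b1 := abs_le.1 ((H t ht.le).2.1 x z ha.2.1)
  have b2 := abs_le.1 ((H t ht.le).2.1 u z ha.2.2)
  have b3 : Real.exp (al G (yy w lineG (chG G) tv t) (Th (Wt w tv) D t) x z +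
        al G (yy w lineG (chG G) tv t) (Th (Wt w tv) D t) u z + η) ≤ 4 :=
    (Real.exp_le_exp.2 (by linarith)).trans (Real.exp_one_lt_d9.le.trans (by norm_num))
  have b4 := Real.add_one_le_exp (64 * (Wt w tv t * D * Real.exp (-2 * Th (Wt w tv) D t)))
  have b0 := Wt_nn (tv := tv) hw t
  have b5 := mul_le_mul_of_nonneg_left b3 (by positivity :
    0 ≤ 2 * Real.exp (-2 * Th (Wt w tv) D t) * Wt w tv t * Real.exp (64 * Th (Wt w tv) D t))
  have b6 := mul_le_mul_of_nonneg_left b4 (by positivity : 0 ≤ 1 / (8 * D) * Real.exp (64 * Th (Wt w tv) D t))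
  have e : 1 / (8 * D) * Real.exp (64 * Th (Wt w tv) D t) *
      (64 * (Wt w tv t * D * Real.exp (-2 * Th (Wt w tv) D t)) + 1) =
      2 * Real.exp (-2 * Th (Wt w tv) D t) * Wt w tv t * Real.exp (64 * Th (Wt w tv) D t) * 4 +
        1 / (8 * D) * Real.exp (64 * Th (Wt w tv) D t) := by field_simp; ring
  rw [h3]
  simp only [Th]
  rw [mul_add 64, Real.exp_add (64 * _)]
  linarith

end Vale.Agent.P046
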