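import Vale.Agent.P046.Defs
import Vale.Agent.P046.Link
import Vale.Agent.P044.Prob

/-! The lazy chain, killed expectations and joint survival of edge sets. -/

set_option linter.unusedSectionVars false

open Finset Vale.Agent.P044

namespace Vale.Agent.P046

variable {V : Type*} [Fintype V] [DecidableEq V]

noncomputable def adj (G : SimpleGraph V) (x y : V) : ℝ := ind (G.Adj x y)

omit [Fintype V] [DecidableEq V] in
lemma adj01 (G : SimpleGraph V) : Adj01 (adj G) :=
  ⟨fun x y => by unfold adj ind; split_ifs <;> simp, fun x y => ind_congr (G.adj_comm x y)⟩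

omit [Fintype V] [DecidableEq V] in
lemma adj_eq_one {G : SimpleGraph V} {x y : V} : adj G x y = 1 ↔ G.Adj x y := by
  unfold adj ind; split_ifs with h <;> simp [h]

omit [Fintype V] [DecidableEq V] in
lemma adj_zero {G : SimpleGraph V} {x y : V} (h : ¬G.Adj x y) : adj G x y = 0 := ind_neg h

omit [Fintype V] [DecidableEq V] in
lemma adj_one {G : SimpleGraph V} {x y : V} (h : G.Adj x y) : adj G x y = 1 := ind_pos h

omit [DecidableEq V] in
lemma mem_tri {G : SimpleGraph V} {T : Finset V} : T ∈ triangles G ↔ G.IsNClique 3 T := by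
  unfold triangles; simp

omit [Fintype V] [DecidableEq V] in
lemma rem_adj {G : SimpleGraph V} {T : Finset V} {u v : V} :
    (removeTri G T).Adj u v ↔ G.Adj u v ∧ ¬(u ∈ T ∧ v ∈ T) := by
  unfold removeTri; simp

omit [Fintype V] [DecidableEq V] in
lemma rem_le (G : SimpleGraph V) (T : Finset V) : removeTri G T ≤ G := fun _ _ h => (rem_adj.1 h).1

omit [Fintype V] [DecidableEq V] in
lemma adj_rem (G : SimpleGraph V) (T : Finset V) (u v : V) :
    adj (removeTri G T) u v = adj G u v * (1 - ind (u ∈ T ∧ v ∈ T)) := by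
  unfold adj
  by_cases h1 : G.Adj u v <;> by_cases h2 : u ∈ T ∧ v ∈ T <;> simp [ind, rem_adj, h1, h2]

lemma triple_mem {G : SimpleGraph V} {x y z : V} (h1 : G.Adj x y) (h2 : G.Adj x z) (h3 : G.Adj y z) :
    ({x, y, z} : Finset V) ∈ triangles G :=
  mem_tri.2 (SimpleGraph.is3Clique_triple_iff.2 ⟨h1, h2, h3⟩)

lemma tri_eq {G : SimpleGraph V} {T : Finset V} (hT : T ∈ triangles G) {x y z : V} (hx : x ∈ T)
    (hy : y ∈ T) (hz : z ∈ T) (h1 : x ≠ y) (h2 : x ≠ z) (h3 : y ≠ z) : T = {x, y, z} := by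
  symm
  refine eq_of_subset_of_card_le (fun w hw => ?_) ?_
  · simp only [mem_insert, mem_singleton] at hw
    rcases hw with rfl | rfl | rfl <;> assumption
  · rw [(mem_tri.1 hT).card_eq, card_eq_three.2 ⟨x, y, z, h1, h2, h3, rfl⟩]

omit [DecidableEq V] in
lemma tri_adj {G : SimpleGraph V} {T : Finset V} (hT : T ∈ triangles G) {x y : V} (hx : x ∈ T)
    (hy : y ∈ T) (h : x ≠ y) : G.Adj x y := (mem_tri.1 hT).isClique hx hy h

lemma tri_third {G : SimpleGraph V} {T : Finset V} (hT : T ∈ triangles G) {x y : V} (hx : x ∈ T)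
    (hy : y ∈ T) (h : x ≠ y) : ∃ z, G.Adj x z ∧ G.Adj y z ∧ T = {x, y, z} := by
  have hc : ({x, y} : Finset V).card < T.card := by
    rw [(mem_tri.1 hT).card_eq, card_pair h]; norm_num
  obtain ⟨z, hz, hz'⟩ := exists_mem_notMem_of_card_lt_card hc
  simp only [mem_insert, mem_singleton, not_or] at hz'
  exact ⟨z, tri_adj hT hx hz (Ne.symm hz'.1), tri_adj hT hy hz (Ne.symm hz'.2),
    tri_eq hT hx hy hz h (Ne.symm hz'.1) (Ne.symm hz'.2)⟩

lemma sum_tri_edge {G : SimpleGraph V} {x y : V} (hxy : G.Adj x y) :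
    ∑ T ∈ triangles G, ind (x ∈ T ∧ y ∈ T) = cod (adj G) x y := by
  classical
  rw [← card_filter_eq_ind]
  have : cod (adj G) x y = ((univ.filter fun z => G.Adj x z ∧ G.Adj y z).card : ℝ) := by
    rw [card_filter_eq_ind]
    refine sum_congr rfl fun z _ => ?_
    unfold adj
    by_cases h1 : G.Adj x z <;> by_cases h2 : G.Adj y z <;> simp [ind, h1, h2]
  rw [this]
  congr 1
  symm
  refine card_bij (fun z _ => ({x, y, z} : Finset V)) (fun z hz => ?_) (fun z hz w hw h => ?_)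
    (fun T hT => ?_)
  · simp only [mem_filter, mem_univ, true_and] at hz
    simp [triple_mem hxy hz.1 hz.2]
  · simp only [mem_filter, mem_univ, true_and] at hz hw
    have : z ∈ ({x, y, w} : Finset V) := by rw [← h]; simp
    simp only [mem_insert, mem_singleton] at this
    rcases this with rfl | rfl | rfl
    · exact absurd hz.1 G.irrefl
    · exact absurd hz.2 G.irrefl
    · rfl
  · simp only [mem_filter] at hT
    obtain ⟨z, h1, h2, h3⟩ := tri_third hT.1 hT.2.1 hT.2.2 hxy.ne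
    exact ⟨z, by simp [h1, h2], h3.symm⟩

lemma sum_tri_three (G : SimpleGraph V) {x y z : V} (h1 : x ≠ y) (h2 : x ≠ z) (h3 : y ≠ z) :
    ∑ T ∈ triangles G, ind (x ∈ T ∧ y ∈ T ∧ z ∈ T) ≤ 1 := by
  classical
  rw [← card_filter_eq_ind]
  have : ((triangles G).filter fun T => x ∈ T ∧ y ∈ T ∧ z ∈ T).card ≤ 1 := by
    refine card_le_one.2 fun T hT T' hT' => ?_
    simp only [mem_filter] at hT hT'
    rw [tri_eq hT.1 hT.2.1 hT.2.2.1 hT.2.2.2 h1 h2 h3, tri_eq hT'.1 hT'.2.1 hT'.2.2.1 hT'.2.2.2 h1 h2 h3]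
  exact_mod_cast this

lemma card_tri_le (G : SimpleGraph V) : ((triangles G).card : ℝ) ≤ (Fintype.card V : ℝ) ^ 3 := by
  have h1 : triangles G ⊆ powersetCard 3 univ := fun T hT =>
    mem_powersetCard.2 ⟨subset_univ _, (mem_tri.1 hT).card_eq⟩
  have h2 := card_le_card h1
  rw [card_powersetCard, card_univ] at h2
  exact_mod_cast h2.trans (Nat.choose_le_pow _ _)

omit [DecidableEq V] in
lemma sum_ind_mem {G : SimpleGraph V} {T : Finset V} (hT : T ∈ triangles G) :
    ∑ z, ind (z ∈ T) = 3 := by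
  classical
  rw [← card_filter_eq_ind, filter_mem_eq_inter, univ_inter, (mem_tri.1 hT).card_eq]; norm_num

/-! ### The lazy chain -/

noncomputable def lw (h : ℝ) (G : SimpleGraph V) : Option (Finset V) → ℝ
  | none => 1 - h * (triangles G).card
  | some T => h * ind (T ∈ triangles G)

def nxt (G : SimpleGraph V) : Option (Finset V) → SimpleGraph V
  | none => G
  | some T => removeTri G T

noncomputable def Pop (h : ℝ) (f : SimpleGraph V → ℝ) (G : SimpleGraph V) : ℝ :=
  ∑ ω, lw h G ω * f (nxt G ω)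

lemma sum_lw (h : ℝ) (G : SimpleGraph V) (F : Option (Finset V) → ℝ) :
    ∑ ω, lw h G ω * F ω = F none + h * ∑ T ∈ triangles G, (F (some T) - F none) := by
  rw [Fintype.sum_option]
  simp only [lw]
  have : ∑ T, h * ind (T ∈ triangles G) * F (some T) = h * ∑ T ∈ triangles G, F (some T) := by
    rw [mul_sum, ← sum_subset (subset_univ (triangles G))]
    · exact sum_congr rfl fun T hT => by rw [ind_pos hT, mul_one]
    · intro T _ hT; rw [ind_neg hT]; simp
  rw [this, sum_sub_distrib, sum_const, nsmul_eq_mul]; ring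

lemma lw_sum (h : ℝ) (G : SimpleGraph V) : ∑ ω, lw h G ω = 1 := by
  simpa using sum_lw h G fun _ => 1

/-- Admissible step size. -/
def Hok (V : Type*) [Fintype V] (h : ℝ) : Prop := 0 ≤ h ∧ h * (Fintype.card V : ℝ) ^ 3 ≤ 1

lemma lw_nn {h : ℝ} (hh : Hok V h) (G : SimpleGraph V) (ω : Option (Finset V)) : 0 ≤ lw h G ω := by
  cases ω with
  | none => have := mul_le_mul_of_nonneg_left (card_tri_le G) hh.1; have := hh.2; simp only [lw]; linarith
  | some T => exact mul_nonneg hh.1 (ind_nonneg _)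

lemma Pop_mono {h : ℝ} (hh : Hok V h) {f g : SimpleGraph V → ℝ} (H : ∀ G, f G ≤ g G) (G : SimpleGraph V) :
    Pop h f G ≤ Pop h g G :=
  sum_le_sum fun ω _ => mul_le_mul_of_nonneg_left (H _) (lw_nn hh G ω)

lemma Pop_add (h : ℝ) (f g : SimpleGraph V → ℝ) :
    Pop h (fun G => f G + g G) = fun G => Pop h f G + Pop h g G := by
  funext G; simp only [Pop, mul_add, sum_add_distrib]

lemma Pop_mul (h c : ℝ) (f : SimpleGraph V → ℝ) :
    Pop h (fun G => c * f G) = fun G => c * Pop h f G := by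
  funext G; simp only [Pop, mul_sum]; exact sum_congr rfl fun _ _ => by ring

lemma Pop_const (h c : ℝ) : Pop h (fun _ : SimpleGraph V => c) = fun _ => c := by
  funext G; simp only [Pop, ← sum_mul, lw_sum, one_mul]

/-- A positive linear functional of mass at most one living on `A`. -/
structure Fn (A : SimpleGraph V → Prop) (ν : (SimpleGraph V → ℝ) → ℝ) : Prop where
  add : ∀ f g, ν (fun G => f G + g G) = ν f + ν g
  mul : ∀ c f, ν (fun G => c * f G) = c * ν f
  mono : ∀ f g, (∀ G, A G → f G ≤ g G) → ν f ≤ ν g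
  one : ν (fun _ => 1) ≤ 1

omit [Fintype V] [DecidableEq V] in
lemma Fn.zero {A : SimpleGraph V → Prop} {ν : (SimpleGraph V → ℝ) → ℝ} (H : Fn A ν) :
    ν (fun _ => 0) = 0 := by simpa using H.mul 0 fun _ => 0

omit [Fintype V] [DecidableEq V] in
lemma Fn.sum {A : SimpleGraph V → Prop} {ν : (SimpleGraph V → ℝ) → ℝ} (H : Fn A ν) {β : Type*}
    (s : Finset β) (f : β → SimpleGraph V → ℝ) :
    ν (fun G => ∑ b ∈ s, f b G) = ∑ b ∈ s, ν (f b) := by
  classical
  induction s using Finset.induction_on with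
  | empty => simpa using H.zero
  | insert b s hb ih => simp only [sum_insert hb]; rw [H.add, ih]

omit [Fintype V] [DecidableEq V] in
lemma Fn.nn {A : SimpleGraph V → Prop} {ν : (SimpleGraph V → ℝ) → ℝ} (H : Fn A ν) {f}
    (hf : ∀ G, A G → 0 ≤ f G) : 0 ≤ ν f := H.zero ▸ H.mono _ _ hf

omit [Fintype V] [DecidableEq V] in
lemma Fn.const {A : SimpleGraph V → Prop} {ν : (SimpleGraph V → ℝ) → ℝ} (H : Fn A ν) {c : ℝ}
    (hc : 0 ≤ c) : ν (fun _ => c) ≤ c := by
  have := H.mul c fun _ => 1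
  simp only [mul_one] at this
  rw [this]; exact mul_le_of_le_one_right hc H.one

noncomputable def mu (h : ℝ) (Gd : ℕ → SimpleGraph V → Prop) : ℕ → (SimpleGraph V → ℝ) → ℝ
  | 0, f => f ⊤
  | i + 1, f => mu h Gd i (Pop h fun G => ind (Gd (i + 1) G) * f G)

lemma Fn.pop {h : ℝ} (hh : Hok V h) {A : SimpleGraph V → Prop} {ν : (SimpleGraph V → ℝ) → ℝ}
    (H : Fn A ν) : Fn (fun _ => True) fun f => ν (Pop h f) :=
  ⟨fun f g => by rw [Pop_add, H.add], fun c f => by rw [Pop_mul, H.mul],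
    fun f g hfg => H.mono _ _ fun G _ => Pop_mono hh (fun G => hfg G trivial) G,
    by rw [Pop_const]; exact H.one⟩

lemma mu_fn {h : ℝ} (hh : Hok V h) {Gd : ℕ → SimpleGraph V → Prop} (h0 : Gd 0 ⊤) (i : ℕ) :
    Fn (Gd i) (mu h Gd i) := by
  induction i with
  | zero => exact ⟨fun _ _ => rfl, fun _ _ => rfl, fun f g H => H _ h0, le_rfl⟩
  | succ i ih =>
    have H := ih.pop hh
    refine ⟨fun f g => ?_, fun c f => ?_, fun f g hfg => ?_, ?_⟩
    · simp only [mu, mul_add]; exact H.add _ _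
    · simp only [mu]
      rw [← H.mul]; congr 2; funext G; ring
    · refine H.mono _ _ fun G _ => ?_
      by_cases hG : Gd (i + 1) G
      · rw [ind_pos hG, one_mul, one_mul]; exact hfg G hG
      · simp [ind_neg hG]
    · refine le_trans (H.mono _ (fun _ => 1) fun G _ => ?_) H.one
      simpa using ind_le_one _

lemma mu_succ_le {h : ℝ} (hh : Hok V h) {Gd : ℕ → SimpleGraph V → Prop} (h0 : Gd 0 ⊤) (i : ℕ)
    {f : SimpleGraph V → ℝ} (hf : ∀ G, 0 ≤ f G) : mu h Gd (i + 1) f ≤ mu h Gd i (Pop h f) :=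
  ((mu_fn hh h0 i).pop hh).mono _ _ fun G _ => mul_le_of_le_one_left (hf G) (ind_le_one _)

lemma harm_le {h : ℝ} (hh : Hok V h) {Gd : ℕ → SimpleGraph V → Prop} (h0 : Gd 0 ⊤)
    {f : SimpleGraph V → ℝ} (hf : Pop h f = f) {M : ℝ} (hM : ∀ G, f G ≤ M) (i : ℕ) :
    f ⊤ ≤ mu h Gd i f + M * ∑ j ∈ range i, mu h Gd j (Pop h fun G => ind (¬Gd (j + 1) G)) := by
  induction i with
  | zero => simp [mu]
  | succ i ih =>
    have H := (mu_fn hh h0 i).pop hh
    have h1 := H.mono f (fun G => ind (Gd (i + 1) G) * f G + M * ind (¬Gd (i + 1) G)) fun G _ => by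
      by_cases hG : Gd (i + 1) G
      · rw [ind_pos hG, ind_neg (not_not.2 hG)]; simp
      · rw [ind_neg hG, ind_pos hG]; simpa using hM G
    rw [H.add, H.mul] at h1
    simp only [hf] at h1
    rw [sum_range_succ, mul_add]
    simp only [mu]
    linarith

/-! ### Joint survival -/

noncomputable def sub (S : Finset (Sym2 V)) (G : SimpleGraph V) : ℝ := ind (∀ e ∈ S, e ∈ G.edgeSet)

lemma pair_le_one (G : SimpleGraph V) {e e' : Sym2 V} (he : e ∈ G.edgeSet) (he' : e' ∈ G.edgeSet)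
    (hne : e ≠ e') : ∑ T ∈ triangles G, ind ((∀ v ∈ e, v ∈ T) ∧ ∀ v ∈ e', v ∈ T) ≤ 1 := by
  induction e using Sym2.ind with | h x y => ?_
  induction e' using Sym2.ind with | h u v => ?_
  have hxy : x ≠ y := G.ne_of_adj he
  have huv : u ≠ v := G.ne_of_adj he'
  obtain ⟨w, hw, h1, h2⟩ : ∃ w, w ∈ s(u, v) ∧ x ≠ w ∧ y ≠ w := by
    by_contra hc
    push Not at hc
    have a1 := hc u (by simp)
    have a2 := hc v (by simp)
    apply hne
    by_cases b1 : x = u
    · by_cases b2 : x = v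
      · exact absurd (b1.symm.trans b2) huv
      · rw [b1, a2 b2]
    · by_cases b2 : x = v
      · rw [b2, a1 b1, Sym2.eq_swap]
      · exact absurd ((a1 b1).symm.trans (a2 b2)) huv
  refine le_trans (sum_le_sum fun T _ => ind_mono fun h => ?_) (sum_tri_three G hxy h1 h2)
  exact ⟨h.1 x (by simp), h.1 y (by simp), h.2 w hw⟩

lemma Pop_sub {h D Δ ζ : ℝ} (hh : Hok V h) (hD : 0 < D) {G : SimpleGraph V} (hR : Reg (adj G) D Δ ζ)
    (S : Finset (Sym2 V)) :
    Pop h (sub S) G ≤ (1 - h * S.card * ((1 - ζ) * D - S.card)) * sub S G := by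
  unfold Pop
  rw [sum_lw]
  simp only [nxt]
  by_cases hS : ∀ e ∈ S, e ∈ G.edgeSet
  · have h1 : sub S G = 1 := ind_pos hS
    rw [h1, mul_one]
    have h2 : ∀ T, sub S (removeTri G T) - 1 ≤ -∑ e ∈ S, ind (∀ v ∈ e, v ∈ T) +
        ∑ e ∈ S, ∑ e' ∈ S.erase e, ind ((∀ v ∈ e, v ∈ T) ∧ ∀ v ∈ e', v ∈ T) := by
      intro T
      by_cases hT : ∃ e ∈ S, ∀ v ∈ e, v ∈ T
      · obtain ⟨e, he, heT⟩ := hT
        have h3 : sub S (removeTri G T) = 0 := ind_neg fun H => by
          have := H e he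
          unfold removeTri at this
          rw [SimpleGraph.edgeSet_deleteEdges] at this
          exact this.2 heT
        rw [h3, ← add_sum_erase _ _ he, ← add_sum_erase _ _ he, ind_pos heT]
        have h4 : ∑ e' ∈ S.erase e, ind (∀ v ∈ e', v ∈ T) =
            ∑ e' ∈ S.erase e, ind ((∀ v ∈ e, v ∈ T) ∧ ∀ v ∈ e', v ∈ T) :=
          sum_congr rfl fun e' _ => ind_congr (by tauto)
        have h5 : 0 ≤ ∑ x ∈ S.erase e, ∑ e' ∈ S.erase x, ind ((∀ v ∈ x, v ∈ T) ∧ ∀ v ∈ e', v ∈ T) :=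
          sum_nonneg fun _ _ => sum_nonneg fun _ _ => ind_nonneg _
        linarith
      · have h4 : ∑ e ∈ S, ind (∀ v ∈ e, v ∈ T) = 0 :=
          sum_eq_zero fun e he => ind_neg fun H => hT ⟨e, he, H⟩
        have h5 : 0 ≤ ∑ x ∈ S, ∑ e' ∈ S.erase x, ind ((∀ v ∈ x, v ∈ T) ∧ ∀ v ∈ e', v ∈ T) :=
          sum_nonneg fun _ _ => sum_nonneg fun _ _ => ind_nonneg _
        have h6 : sub S (removeTri G T) ≤ 1 := ind_le_one _
        linarith
    have h3 : ∑ T ∈ triangles G, (sub S (removeTri G T) - 1) ≤ -(S.card * ((1 - ζ) * D - S.card)) := by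
      refine (sum_le_sum fun T _ => h2 T).trans ?_
      rw [sum_add_distrib, sum_neg_distrib, sum_comm, sum_comm (s := triangles G)]
      have h4 : ∑ _e ∈ S, (1 - ζ) * D ≤ ∑ e ∈ S, ∑ T ∈ triangles G, ind (∀ v ∈ e, v ∈ T) := by
        refine sum_le_sum fun e he => ?_
        have he' := hS e he
        induction e using Sym2.ind with | h x y => ?_
        have := sum_tri_edge (G := G) (x := x) (y := y) he'
        simp only [Sym2.mem_iff, forall_eq_or_imp, forall_eq]
        rw [this]; exact hR.le_cod hD (adj_one he')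
      have h5 : ∑ e ∈ S, ∑ T ∈ triangles G, ∑ e' ∈ S.erase e,
          ind ((∀ v ∈ e, v ∈ T) ∧ ∀ v ∈ e', v ∈ T) ≤ ∑ _e ∈ S, (S.card : ℝ) := by
        refine sum_le_sum fun e he => ?_
        rw [sum_comm]
        calc _ ≤ ∑ _e' ∈ S.erase e, (1 : ℝ) := sum_le_sum fun e' he' =>
              pair_le_one G (hS e he) (hS e' (mem_of_mem_erase he')) (ne_of_mem_erase he').symm
          _ ≤ _ := by
              rw [sum_const, nsmul_eq_mul, mul_one]; exact_mod_cast card_erase_le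
      rw [sum_const, nsmul_eq_mul] at h4 h5
      linarith
    have := mul_le_mul_of_nonneg_left h3 hh.1
    linarith
  · have h1 : sub S G = 0 := ind_neg hS
    have h2 : ∀ T, sub S (removeTri G T) = 0 := fun T => ind_neg fun H =>
      hS fun e he => SimpleGraph.edgeSet_mono (rem_le G T) (H e he)
    simp [h1, h2]

/-! ### The deterministic trajectory -/

noncomputable def qs (N h : ℝ) : ℕ → ℝ
  | 0 => 1
  | i + 1 => qs N h i * (1 - h * (N * qs N h i ^ 2))

lemma qs_bd {N h : ℝ} (hN : 0 ≤ N) (h0 : 0 ≤ h) (h1 : h * N ≤ 1 / 8) (i : ℕ) :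
    0 < qs N h i ∧ qs N h i ≤ 1 := by
  induction i with
  | zero => simp [qs]
  | succ i ih =>
    have a1 : qs N h i ^ 2 ≤ 1 := pow_le_one₀ ih.1.le ih.2
    have a2 : h * (N * qs N h i ^ 2) ≤ 1 / 8 := by
      rw [← mul_assoc]; exact (mul_le_of_le_one_right (mul_nonneg h0 hN) a1).trans h1
    have a3 : 0 ≤ h * (N * qs N h i ^ 2) := by positivity
    simp only [qs]
    exact ⟨mul_pos ih.1 (by linarith), by nlinarith [ih.1]⟩

lemma us_bd {N h : ℝ} (hN : 0 ≤ N) (h0 : 0 ≤ h) (h1 : h * N ≤ 1 / 8) (i : ℕ) :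
    0 ≤ h * (N * qs N h i ^ 2) ∧ h * (N * qs N h i ^ 2) ≤ h * N := by
  have ih := qs_bd hN h0 h1 i
  have a1 : qs N h i ^ 2 ≤ 1 := pow_le_one₀ ih.1.le ih.2
  exact ⟨by positivity, mul_le_mul_of_nonneg_left (mul_le_of_le_one_right hN a1) h0⟩

lemma qs_exp {N h : ℝ} (hN : 0 ≤ N) (h0 : 0 ≤ h) (h1 : h * N ≤ 1 / 8) (i : ℕ) :
    qs N h i ≤ Real.exp (-∑ j ∈ range i, h * (N * qs N h j ^ 2)) := by
  induction i with
  | zero => simp [qs]
  | succ i ih =>
    rw [sum_range_succ, neg_add, Real.exp_add]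
    simp only [qs]
    have := us_bd hN h0 h1 i
    refine mul_le_mul ih ?_ (by linarith) (Real.exp_pos _).le
    have := Real.add_one_le_exp (-(h * (N * qs N h i ^ 2)))
    linarith

lemma qs_anti {N h : ℝ} (hN : 0 ≤ N) (h0 : 0 ≤ h) (h1 : h * N ≤ 1 / 8) : Antitone (qs N h) :=
  antitone_nat_of_succ_le fun i => by
    have := us_bd hN h0 h1 i
    have := qs_bd hN h0 h1 i
    simp only [qs]; nlinarith

lemma surv {h ζ D0 : ℝ} (hh : Hok V h) (h1 : h * Fintype.card V ≤ 1 / 8)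
    {Gd : ℕ → SimpleGraph V → Prop} (h0 : Gd 0 ⊤) (s0 : ℕ) (hs0 : s0 * (h * Fintype.card V) ≤ 1 / 2)
    (hζ : 0 ≤ ζ) (hD0 : 0 < D0) (I : ℕ)
    (hG : ∀ i G, Gd i G → Reg (adj G) (Fintype.card V * qs (Fintype.card V) h i ^ 2)
      (Fintype.card V * qs (Fintype.card V) h i) ζ)
    (hI : D0 ≤ Fintype.card V * qs (Fintype.card V) h I ^ 2) (S : Finset (Sym2 V)) (hS : S.card ≤ s0)
    (i : ℕ) (hi : i < I) :
    mu h Gd i (Pop h (sub S)) ≤ Real.exp (2 * s0 * (ζ + s0 / D0) *
      ∑ j ∈ range (i + 1), h * (Fintype.card V * qs (Fintype.card V) h j ^ 2)) *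
        qs (Fintype.card V) h (i + 1) ^ S.card := by
  set N : ℝ := (Fintype.card V : ℝ) with hN
  have hN0 : 0 ≤ N := Nat.cast_nonneg _
  set g := ζ + s0 / D0 with hg
  have hg0 : 0 ≤ g := by positivity
  have step : ∀ i, i < I → ∀ B : ℝ, 0 ≤ B → mu h Gd i (sub S) ≤ B * qs N h i ^ S.card →
      mu h Gd i (Pop h (sub S)) ≤ B * Real.exp (2 * s0 * g * (h * (N * qs N h i ^ 2))) *
        qs N h (i + 1) ^ S.card := by
    intro i hi B hB H
    have hq := qs_bd hN0 hh.1 h1 i
    have hu := us_bd hN0 hh.1 h1 i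
    have hDi : D0 ≤ N * qs N h i ^ 2 := hI.trans (mul_le_mul_of_nonneg_left
      (pow_le_pow_left₀ (qs_bd hN0 hh.1 h1 I).1.le (qs_anti hN0 hh.1 h1 hi.le) 2) hN0)
    set D := N * qs N h i ^ 2 with hD
    have hDp : 0 < D := hD0.trans_le hDi
    have F := mu_fn hh h0 i
    have a1 := F.mono _ _ fun G hG' => Pop_sub hh hDp (hG i G hG') S
    rw [F.mul] at a1
    have hm : (S.card : ℝ) ≤ s0 := by exact_mod_cast hS
    have hm0 : (0 : ℝ) ≤ S.card := Nat.cast_nonneg _
    have a2 : (S.card : ℝ) ≤ s0 / D0 * D := by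
      rw [div_mul_eq_mul_div, le_div_iff₀ hD0]; nlinarith
    have a3 : 1 - h * S.card * ((1 - ζ) * D - S.card) ≤ 1 - S.card * (h * D) + s0 * g * (h * D) := by
      have b1 : h * S.card * S.card ≤ h * S.card * (s0 / D0 * D) :=
        mul_le_mul_of_nonneg_left a2 (mul_nonneg hh.1 hm0)
      have b2 : S.card * g * (h * D) ≤ s0 * g * (h * D) := by gcongr; exact hu.1
      rw [hg] at b2 ⊢; nlinarith
    have a4 : S.card * (h * D) ≤ 1 / 2 := by
      exact le_trans (mul_le_mul hm hu.2 hu.1 (Nat.cast_nonneg _)) hs0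
    have a5 : 1 - S.card * (h * D) ≤ (1 - h * D) ^ S.card := by
      have := one_add_mul_le_pow (a := -(h * D)) (by linarith [hu.2]) S.card
      rw [sub_eq_add_neg 1 (h * D)]; linarith
    have a6 := Real.add_one_le_exp (2 * s0 * g * (h * D))
    have a7 : 0 ≤ s0 * g * (h * D) := mul_nonneg (by positivity) hu.1
    have a8 : 1 - h * S.card * ((1 - ζ) * D - S.card) ≤
        Real.exp (2 * s0 * g * (h * D)) * (1 - h * D) ^ S.card := by
      calc _ ≤ (2 * s0 * g * (h * D) + 1) * (1 - S.card * (h * D)) := by nlinarith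
        _ ≤ _ := mul_le_mul a6 a5 (by linarith) (Real.exp_pos _).le
    have a9 : 0 ≤ mu h Gd i (sub S) := F.nn fun _ _ => ind_nonneg _
    calc _ ≤ _ := a1
      _ ≤ Real.exp (2 * s0 * g * (h * D)) * (1 - h * D) ^ S.card * mu h Gd i (sub S) :=
          mul_le_mul_of_nonneg_right a8 a9
      _ ≤ Real.exp (2 * s0 * g * (h * D)) * (1 - h * D) ^ S.card * (B * qs N h i ^ S.card) :=
          mul_le_mul_of_nonneg_left H (mul_nonneg (Real.exp_pos _).le (pow_nonneg (by linarith [hu.2]) _))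
      _ = _ := by simp only [qs, ← hD, mul_pow]; ring
  induction i with
  | zero =>
    have := step 0 hi 1 zero_le_one (by simpa [mu, qs, sub] using ind_le_one _)
    simpa using this
  | succ i ih =>
    have h2 := (mu_succ_le hh h0 i (f := sub S) fun _ => ind_nonneg _).trans (ih (by omega))
    have := step (i + 1) hi _ (Real.exp_pos _).le h2
    rw [sum_range_succ _ (i + 1), mul_add, Real.exp_add]
    exact this

end Vale.Agent.P046
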