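import Vale.Agent.P046.Basic

/-! Moments of the number of closed walks in a link. -/

set_option linter.unusedSectionVars false

open Finset Vale.Agent.P044

namespace Vale.Agent.P046

variable {V : Type*} [Fintype V] [DecidableEq V]

lemma pow_apply_eq (B : Matrix V V ℝ) (l : ℕ) (u v : V) :
    (B ^ l) u v = ∑ z : Fin (l + 1) → V,
      ind (z 0 = u ∧ z (Fin.last l) = v) * ∏ i : Fin l, B (z i.castSucc) (z i.succ) := by
  induction l generalizing u with
  | zero =>
    rw [pow_zero, ← (Equiv.funUnique (Fin 1) V).symm.sum_comp]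
    simp only [Matrix.one_apply, univ_eq_empty, prod_empty, mul_one]
    rw [sum_eq_single u]
    · by_cases h : u = v <;> simp [ind, h]
    · intro b _ hb; simp [ind, hb]
    · simp
  | succ l ih =>
    rw [pow_succ', Matrix.mul_apply]
    symm
    rw [← (Fin.consEquiv fun _ : Fin (l + 1 + 1) => V).sum_comp, Fintype.sum_prod_type,
      sum_eq_single u]
    · symm
      simp only [ih, mul_sum]
      rw [sum_comm]
      refine sum_congr rfl fun z _ => ?_
      rw [sum_eq_single (z 0)]
      · rw [Fin.prod_univ_succ]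
        simp only [Fin.consEquiv_apply, Fin.cons_zero, true_and, ← Fin.succ_last, Fin.cons_succ,
          Fin.castSucc_zero, ← Fin.succ_castSucc]
        ring
      · intro b _ hb; simp [ind, hb.symm]
      · simp
    · intro b _ hb
      exact sum_eq_zero fun z _ => by simp [ind, hb]
    · simp

lemma trace_pow_eq (B : Matrix V V ℝ) (l : ℕ) :
    (B ^ (l + 1)).trace = ∑ z : Fin (l + 1) → V, ∏ i, B (z i) (z (i + 1)) := by
  unfold Matrix.trace
  simp only [Matrix.diag_apply, pow_succ, Matrix.mul_apply, pow_apply_eq, sum_mul]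
  rw [sum_congr rfl fun u _ => sum_comm, sum_comm]
  refine sum_congr rfl fun z _ => ?_
  rw [sum_eq_single (z 0), sum_eq_single (z (Fin.last l)), Fin.prod_univ_castSucc]
  · simp [ind, Fin.coeSucc_eq_succ]
  · intro b _ hb; simp [ind, hb.symm]
  · simp
  · intro b _ hb; exact sum_eq_zero fun v _ => by simp [ind, hb.symm]
  · simp

def rim {l : ℕ} (z : Fin (l + 1) → V) : Finset (Sym2 V) := univ.image fun i => s(z i, z (i + 1))

def wset {l : ℕ} (x : V) (z : Fin (l + 1) → V) : Finset (Sym2 V) :=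
  (univ.image fun i => s(x, z i)) ∪ rim z

noncomputable def Wh (l : ℕ) (x : V) (G : SimpleGraph V) : ℝ :=
  ∑ z ∈ univ.filter fun z : Fin (l + 1) → V => ∀ i, z i ≠ x, sub (wset x z) G

lemma Wh_nn (l : ℕ) (x : V) (G : SimpleGraph V) : 0 ≤ Wh l x G := sum_nonneg fun _ _ => ind_nonneg _

lemma trace_le_Wh (l : ℕ) (x : V) (G : SimpleGraph V) :
    (Blk (adj G) x ^ (l + 1)).trace ≤ Wh l x G := by
  rw [trace_pow_eq, Wh, sum_filter]
  refine sum_le_sum fun z _ => ?_
  by_cases h : ∀ i, G.Adj x (z i) ∧ G.Adj (z i) (z (i + 1))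
  · rw [if_pos fun i => (h i).1.ne', prod_eq_one fun i _ => by
      simp [Blk, adj_one (h i).1, adj_one (h (i + 1)).1, adj_one (h i).2]]
    refine (ind_pos fun e he => ?_).ge
    simp only [wset, rim, mem_union, mem_image, mem_univ, true_and] at he
    rcases he with ⟨i, rfl⟩ | ⟨i, rfl⟩
    · exact (h i).1
    · exact (h i).2
  · obtain ⟨i, hi⟩ := not_forall.1 h
    rw [prod_eq_zero (mem_univ i)]
    · split_ifs
      · exact ind_nonneg _
      · exact le_rfl
    · rcases not_and_or.1 hi with h1 | h1 <;> simp [Blk, adj_zero h1]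

lemma card_wset_le {l : ℕ} (x : V) (z : Fin (l + 1) → V) : (wset x z).card ≤ 2 * (l + 1) := by
  refine (card_union_le _ _).trans ?_
  have h1 := card_image_le (s := (univ : Finset (Fin (l + 1)))) (f := fun i => s(x, z i))
  have h2 := card_image_le (s := (univ : Finset (Fin (l + 1)))) (f := fun i => s(z i, z (i + 1)))
  rw [card_univ, Fintype.card_fin] at h1 h2
  unfold rim; omega

lemma first_visit {l : ℕ} (w : Fin (l + 1) → V) (V0 : Finset V) (E0 : Finset (Sym2 V))
    (hE : ∀ e ∈ E0, ∀ v ∈ e, v ∈ V0) :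
    ((univ.image w \ V0).erase (w 0)).card ≤
      ((univ.image fun j : Fin l => s(w j.castSucc, w j.succ)) \ E0).card := by
  have h : ∀ u ∈ (univ.image w \ V0).erase (w 0),
      ∃ j : Fin l, w j.succ = u ∧ ∀ i, w i = u → j.succ ≤ i := by
    intro u hu
    simp only [mem_erase, mem_sdiff, mem_image, mem_univ, true_and] at hu
    obtain ⟨i, hi, hmin⟩ := exists_min_image (univ.filter fun i => w i = u) id
      (by obtain ⟨i, hi⟩ := hu.2.1; exact ⟨i, by simp [hi]⟩)
    simp only [mem_filter, mem_univ, true_and, id] at hi hmin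
    have h0 : i ≠ 0 := fun h => hu.1 (by rw [← hi, h])
    obtain ⟨j, rfl⟩ := Fin.exists_succ_eq.2 h0
    exact ⟨j, hi, hmin⟩
  rcases Nat.eq_zero_or_pos l with rfl | hl
  · rw [card_eq_zero.2 (eq_empty_of_forall_notMem fun u hu => ?_)]
    · exact Nat.zero_le _
    · obtain ⟨j, -⟩ := h u hu; exact j.elim0
  haveI : Nonempty (Fin l) := ⟨⟨0, hl⟩⟩
  choose! j hj using h
  refine card_le_card_of_injOn (fun u => s(w (j u).castSucc, w (j u).succ)) (fun u hu => ?_)
    fun u hu u' hu' huu => ?_
  · have hu' := mem_coe.1 hu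
    simp only [coe_sdiff, coe_image, coe_univ, Set.image_univ, Set.mem_diff, Set.mem_range,
      exists_apply_eq_apply, mem_coe, true_and]
    intro he
    have := hE _ he u (by rw [(hj u hu').1]; simp)
    exact (mem_sdiff.1 (mem_of_mem_erase hu')).2 this
  · have a1 := hj u (mem_coe.1 hu)
    have a2 := hj u' (mem_coe.1 hu')
    simp only [a1.1, a2.1, Sym2.eq_iff] at huu
    rcases huu with h | h
    · exact h.2
    · have b1 := a2.2 _ h.1
      have b2 := a1.2 _ h.2.symm
      rw [Fin.le_def] at b1 b2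
      simp only [Fin.val_succ, Fin.val_castSucc] at b1 b2
      omega

lemma rot_bound {l : ℕ} (z : Fin (l + 1) → V) (s : Fin (l + 1)) (V0 : Finset V) (E0 : Finset (Sym2 V))
    (hE : ∀ e ∈ E0, ∀ v ∈ e, v ∈ V0) :
    ((univ.image z \ V0).erase (z s)).card ≤
      ((univ.image fun j : Fin l => s(z (j.castSucc + s), z (j.castSucc + s + 1))) \ E0).card := by
  have h := first_visit (fun i => z (i + s)) V0 E0 hE
  have e1 : univ.image (fun i => z (i + s)) = univ.image z := by
    ext u; simp only [mem_image, mem_univ, true_and]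
    exact ⟨fun ⟨i, hi⟩ => ⟨_, hi⟩, fun ⟨i, hi⟩ => ⟨i - s, by simpa using hi⟩⟩
  have e2 : ∀ j : Fin l, j.succ + s = j.castSucc + s + 1 := fun j => by
    rw [← Fin.coeSucc_eq_succ, add_right_comm]
  simpa only [e1, e2, zero_add] using h

lemma expo {l : ℕ} (x : V) (z : Fin (l + 1) → V) (hz : ∀ i, z i ≠ x) (V0 : Finset V)
    (E0 : Finset (Sym2 V)) (hE : ∀ e ∈ E0, ∀ v ∈ e, v ∈ V0) :
    2 * (univ.image z \ V0).card ≤ (wset x z \ E0).card ∨
      (2 * (univ.image z \ V0).card ≤ l + 3 ∧ 2 * (univ.image z \ V0).card ≤ (wset x z \ E0).card + 1) := by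
  set U := univ.image z \ V0 with hU
  have h1 : U.card + (rim z \ E0).card ≤ (wset x z \ E0).card := by
    have a1 : (U.image fun u => s(x, u)).card = U.card :=
      card_image_of_injective _ fun u u' h => by simpa using Sym2.congr_right.1 h
    rw [← a1, ← card_union_of_disjoint]
    · refine card_le_card fun e he => ?_
      rcases mem_union.1 he with he | he
      · obtain ⟨u, hu, rfl⟩ := mem_image.1 he
        obtain ⟨hu1, hu2⟩ := mem_sdiff.1 hu
        obtain ⟨i, -, rfl⟩ := mem_image.1 hu1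
        exact mem_sdiff.2 ⟨mem_union_left _ (mem_image.2 ⟨i, mem_univ _, rfl⟩),
          fun h => hu2 (hE _ h _ (by simp))⟩
      · exact mem_sdiff.2 ⟨mem_union_right _ (mem_sdiff.1 he).1, (mem_sdiff.1 he).2⟩
    · refine disjoint_left.2 fun e he he' => ?_
      obtain ⟨u, -, rfl⟩ := mem_image.1 he
      obtain ⟨i, -, hi⟩ := mem_image.1 (mem_sdiff.1 he').1
      have : x ∈ s(z i, z (i + 1)) := by rw [hi]; simp
      simp only [Sym2.mem_iff] at this
      rcases this with h | h
      · exact hz _ h.symm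
      · exact hz _ h.symm
  have h2 : ∀ s : Fin (l + 1), (univ.image fun j : Fin l =>
      s(z (j.castSucc + s), z (j.castSucc + s + 1))) \ E0 ⊆ rim z \ E0 := fun s =>
    sdiff_subset_sdiff (fun e he => by
      obtain ⟨j, -, rfl⟩ := mem_image.1 he
      exact mem_image.2 ⟨_, mem_univ _, rfl⟩) subset_rfl
  have h3 : ∀ s, U.card ≤ (U.erase (z s)).card + 1 := fun s => by
    have := pred_card_le_card_erase (s := U) (a := z s); omega
  by_cases hA : ∃ s, z s ∈ V0
  · obtain ⟨s, hs⟩ := hA
    have a1 := (rot_bound z s V0 E0 hE).trans (card_le_card (h2 s))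
    rw [erase_eq_of_notMem fun h => (mem_sdiff.1 h).2 hs] at a1
    left; rw [← hU] at a1; omega
  by_cases hB : ∃ t, ∀ i, s(z i, z (i + 1)) = s(z t, z (t + 1)) → i = t
  · obtain ⟨t, ht⟩ := hB
    have a1 := rot_bound z (t + 1) V0 E0 hE
    have a2 : insert s(z t, z (t + 1)) ((univ.image fun j : Fin l =>
        s(z (j.castSucc + (t + 1)), z (j.castSucc + (t + 1) + 1))) \ E0) ⊆ rim z \ E0 :=
      insert_subset (mem_sdiff.2 ⟨mem_image.2 ⟨t, mem_univ _, rfl⟩,
        fun h => hA ⟨t, hE _ h _ (by simp)⟩⟩) (h2 _)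
    have a3 := card_le_card a2
    rw [card_insert_of_notMem] at a3
    · have := h3 (t + 1)
      left; rw [← hU] at a1; omega
    · intro h
      obtain ⟨j, -, hj⟩ := mem_image.1 (mem_sdiff.1 h).1
      have b1 := ht _ hj
      rw [add_comm t 1, ← add_assoc, add_eq_right, Fin.coeSucc_eq_succ] at b1
      exact Fin.succ_ne_zero _ b1
  · push Not at hB
    have a1 := (rot_bound z 0 V0 E0 hE).trans (card_le_card (h2 0))
    have a2 : 2 * (rim z).card ≤ l + 1 := by
      have := mul_card_image_le_card (f := fun i => s(z i, z (i + 1))) (univ : Finset (Fin (l + 1))) 2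
        fun e he => by
          obtain ⟨t, -, rfl⟩ := mem_image.1 he
          obtain ⟨i, hi, hne⟩ := hB t
          exact one_lt_card.2 ⟨i, mem_filter.2 ⟨mem_univ _, hi⟩, t, mem_filter.2 ⟨mem_univ _, rfl⟩, hne⟩
      rwa [card_univ, Fintype.card_fin] at this
    have a3 : (rim z \ E0).card ≤ (rim z).card := card_le_card sdiff_subset
    have := h3 0
    right; rw [← hU] at a1; omega

lemma count_new (l a : ℕ) (V0 : Finset V) :
    ((univ.filter fun z : Fin (l + 1) → V => (univ.image z \ V0).card = a).card : ℝ) ≤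
      (Fintype.card V : ℝ) ^ a * ((a : ℝ) + V0.card) ^ (l + 1) := by
  have h1 : (univ.filter fun z : Fin (l + 1) → V => (univ.image z \ V0).card = a) ⊆
      (powersetCard a (univ : Finset V)).biUnion fun U => Fintype.piFinset fun _ => U ∪ V0 := by
    intro z hz
    refine mem_biUnion.2 ⟨univ.image z \ V0, mem_powersetCard.2 ⟨subset_univ _, (mem_filter.1 hz).2⟩,
      Fintype.mem_piFinset.2 fun i => ?_⟩
    by_cases h : z i ∈ V0 <;> simp [h]
  have h2 := (card_le_card h1).trans (card_biUnion_le_card_mul _ _ ((a + V0.card) ^ (l + 1)) fun U hU => by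
    rw [Fintype.card_piFinset_const]
    refine Nat.pow_le_pow_left ((card_union_le _ _).trans ?_) _
    rw [(mem_powersetCard.1 hU).2])
  rw [card_powersetCard, card_univ] at h2
  have h3 := h2.trans (Nat.mul_le_mul_right _ (Nat.choose_le_pow _ _))
  exact_mod_cast h3

lemma wheel_sum {l k : ℕ} (hL : l + 1 = 2 * k) (hk : 2 ≤ k) (x : V) (E0 : Finset (Sym2 V)) {q : ℝ}
    (hq : 0 < q) (hq1 : q ≤ 1) (hD : 1 ≤ Fintype.card V * q ^ 2) :
    ∑ z ∈ univ.filter fun z : Fin (l + 1) → V => ∀ i, z i ≠ x, q ^ (wset x z \ E0).card ≤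
      (Fintype.card V * q ^ 2) ^ (l + 1) + (l + 1) * ((l + 1 : ℝ) + 2 * E0.card) ^ (l + 1) *
        ((Fintype.card V * q ^ 2) ^ l + (Fintype.card V * q ^ 2) ^ (k + 1) / q) := by
  set N : ℝ := (Fintype.card V : ℝ) with hN
  set V0 := E0.biUnion Sym2.toFinset with hV0
  have hE : ∀ e ∈ E0, ∀ v ∈ e, v ∈ V0 := fun e he v hv =>
    mem_biUnion.2 ⟨e, he, Sym2.mem_toFinset.2 hv⟩
  have hV : (V0.card : ℝ) ≤ 2 * E0.card := by
    have := card_biUnion_le_card_mul E0 Sym2.toFinset 2 fun e _ => by
      rw [Sym2.card_toFinset]; split_ifs <;> omega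
    rw [mul_comm] at this; exact_mod_cast this
  let f : ℕ → ℝ := fun a => if 2 * a ≤ l + 3 then q ^ (2 * a) / q else q ^ (2 * a)
  have hf0 : ∀ a, 0 ≤ f a := fun a => by simp only [f]; split_ifs <;> positivity
  have h1 : ∑ z ∈ univ.filter fun z : Fin (l + 1) → V => ∀ i, z i ≠ x, q ^ (wset x z \ E0).card ≤
      ∑ z : Fin (l + 1) → V, f (univ.image z \ V0).card := by
    refine le_trans (sum_le_sum fun z hz => ?_)
      (sum_le_sum_of_subset_of_nonneg (filter_subset _ _) fun _ _ _ => hf0 _)
    rcases expo x z (mem_filter.1 hz).2 V0 E0 hE with h | h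
    · refine (pow_le_pow_of_le_one hq.le hq1 h).trans ?_
      simp only [f]; split_ifs
      · exact le_div_self (by positivity) hq hq1
      · exact le_rfl
    · simp only [f]; rw [if_pos h.1, le_div_iff₀ hq, ← pow_succ]
      exact pow_le_pow_of_le_one hq.le hq1 h.2
  refine h1.trans ?_
  rw [← sum_fiberwise_of_maps_to (t := range (l + 1 + 1)) (g := fun z => (univ.image z \ V0).card)
    fun z _ => mem_range.2 (by
      have := (card_le_card (sdiff_subset (s := univ.image z) (t := V0))).trans card_image_le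
      rw [card_univ, Fintype.card_fin] at this; omega), sum_range_succ, add_comm]
  have h2 : ∀ a, ∑ z ∈ univ.filter fun z : Fin (l + 1) → V => (univ.image z \ V0).card = a,
      f (univ.image z \ V0).card =
      (univ.filter fun z : Fin (l + 1) → V => (univ.image z \ V0).card = a).card * f a := fun a => by
    rw [sum_congr rfl fun z hz => by rw [(mem_filter.1 hz).2], sum_const, nsmul_eq_mul]
  simp only [h2]
  refine add_le_add ?_ ?_
  · have a1 : ((univ.filter fun z : Fin (l + 1) → V => (univ.image z \ V0).card = l + 1).card : ℝ) ≤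
        N ^ (l + 1) := by
      have := card_le_univ (univ.filter fun z : Fin (l + 1) → V => (univ.image z \ V0).card = l + 1)
      rw [Fintype.card_fun, Fintype.card_fin] at this
      rw [hN]; exact_mod_cast this
    refine (mul_le_mul_of_nonneg_right a1 (hf0 _)).trans (le_of_eq ?_)
    simp only [f]; rw [if_neg (by omega), mul_pow, ← pow_mul]
  · calc _ ≤ ∑ _a ∈ range (l + 1), ((l + 1 : ℝ) + 2 * E0.card) ^ (l + 1) *
          ((N * q ^ 2) ^ l + (N * q ^ 2) ^ (k + 1) / q) := by
          refine sum_le_sum fun a ha => ?_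
          have ha' := mem_range.1 ha
          refine (mul_le_mul_of_nonneg_right (count_new l a V0) (hf0 _)).trans ?_
          rw [mul_comm (_ ^ a), mul_assoc]
          have b1 : (a : ℝ) ≤ l + 1 := by exact_mod_cast ha'.le
          refine mul_le_mul (pow_le_pow_left₀ (by positivity) (by linarith) _) ?_
            (mul_nonneg (by positivity) (hf0 _)) (by positivity)
          have b2 : 0 ≤ (N * q ^ 2) ^ l := by positivity
          have b3 : 0 ≤ (N * q ^ 2) ^ (k + 1) / q := by positivity
          simp only [f]; split_ifs with hc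
          · have : (N * q ^ 2) ^ a ≤ (N * q ^ 2) ^ (k + 1) := pow_le_pow_right₀ hD (by omega)
            have b4 := div_le_div_of_nonneg_right this hq.le
            rw [mul_pow, ← pow_mul] at b4
            rw [← mul_div_assoc]; linarith
          · have : (N * q ^ 2) ^ a ≤ (N * q ^ 2) ^ l := pow_le_pow_right₀ hD (by omega)
            rw [mul_pow, ← pow_mul] at this
            linarith
      _ = _ := by rw [sum_const, card_range, nsmul_eq_mul]; push_cast; ring

/-- Joint survival bound for a functional. -/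
def Surv (ν : (SimpleGraph V → ℝ) → ℝ) (q Λ : ℝ) (s0 : ℕ) : Prop :=
  ∀ S : Finset (Sym2 V), S.card ≤ s0 → ν (sub S) ≤ Λ * q ^ S.card

lemma sub_union (S S' : Finset (Sym2 V)) (G : SimpleGraph V) : sub (S ∪ S') G = sub S G * sub S' G := by
  unfold sub
  by_cases h1 : ∀ e ∈ S, e ∈ G.edgeSet <;> by_cases h2 : ∀ e ∈ S', e ∈ G.edgeSet
  · rw [ind_pos h1, ind_pos h2, ind_pos fun e he => (mem_union.1 he).elim (h1 e) (h2 e), one_mul]
  · rw [ind_neg h2, ind_neg fun h => h2 fun e he => h e (mem_union_right _ he), mul_zero]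
  · rw [ind_neg h1, ind_neg fun h => h1 fun e he => h e (mem_union_left _ he), zero_mul]
  · rw [ind_neg h1, ind_neg fun h => h1 fun e he => h e (mem_union_left _ he), zero_mul]

lemma wheel_mom {A : SimpleGraph V → Prop} {ν : (SimpleGraph V → ℝ) → ℝ} (H : Fn A ν) {q Λ Q : ℝ}
    {s0 l : ℕ} (hS : Surv ν q Λ s0) (hq : 0 ≤ q) (hΛ : 0 ≤ Λ) (hQ0 : 0 ≤ Q) (x : V)
    (hQ : ∀ E0 : Finset (Sym2 V), E0.card ≤ s0 →
      ∑ z ∈ univ.filter fun z : Fin (l + 1) → V => ∀ i, z i ≠ x, q ^ (wset x z \ E0).card ≤ Q)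
    (j : ℕ) (E0 : Finset (Sym2 V)) (hE : E0.card + 2 * (l + 1) * j ≤ s0) :
    ν (fun G => sub E0 G * Wh l x G ^ j) ≤ Λ * q ^ E0.card * Q ^ j := by
  induction j generalizing E0 with
  | zero => simpa using hS E0 (by omega)
  | succ j ih =>
    have e : (fun G => sub E0 G * Wh l x G ^ (j + 1)) = fun G =>
        ∑ z ∈ univ.filter fun z : Fin (l + 1) → V => ∀ i, z i ≠ x,
          sub (E0 ∪ wset x z) G * Wh l x G ^ j := by
      funext G
      rw [pow_succ', ← mul_assoc, ← sum_mul]
      congr 1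
      rw [Wh, mul_sum]
      exact sum_congr rfl fun z _ => (sub_union _ _ _).symm
    rw [e, H.sum]
    calc _ ≤ ∑ z ∈ univ.filter fun z : Fin (l + 1) → V => ∀ i, z i ≠ x,
          Λ * q ^ E0.card * Q ^ j * q ^ (wset x z \ E0).card := by
          refine sum_le_sum fun z _ => (ih _ ?_).trans (le_of_eq ?_)
          · have := (card_union_le E0 (wset x z)).trans (Nat.add_le_add_left (card_wset_le x z) _)
            rw [mul_add] at hE; omega
          · rw [union_comm, ← card_sdiff_add_card, pow_add]; ring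
      _ ≤ Λ * q ^ E0.card * Q ^ j * Q := by
          rw [← mul_sum]
          exact mul_le_mul_of_nonneg_left (hQ E0 (by omega)) (by positivity)
      _ = _ := by ring

end Vale.Agent.P046
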