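import Vale.Agent.P046.Real
import Vale.Agent.P046.Wheel

/-! Expected collision weights. -/

set_option linter.unusedSectionVars false

open Finset Vale.Agent.P044

namespace Vale.Agent.P046

section Gen
variable {ι σ : Type} [Fintype ι] [DecidableEq ι] {line : σ → ι} {ch : σ → List σ}

noncomputable def JJ (line : σ → ι) (ch : σ → List σ) (μ : ℝ) (d : ℕ) (c : σ) (j : ι) : ℝ :=
  HH ch μ (fun c => ind (line c = j)) d c

lemma JJ_nn {μ : ℝ} (hμ : 0 ≤ μ) (d : ℕ) (c : σ) (j : ι) : 0 ≤ JJ line ch μ d c j :=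
  HH_nn hμ (fun _ => ind_nonneg _) d c

lemma lsum_comm (l : List σ) (f : σ → ι → ℝ) : ∑ j, (l.map fun c => f c j).sum = (l.map fun c => ∑ j, f c j).sum := by
  induction l with
  | nil => simp
  | cons a l ih => simp only [List.map_cons, List.sum_cons, sum_add_distrib, ih]

lemma JJ_ip (μ : ℝ) (g : ι → ℝ) (d : ℕ) (c : σ) :
    ∑ j, JJ line ch μ d c j * g j = HH ch μ (fun c => g (line c)) d c := by
  induction d generalizing c with
  | zero => exact sum_ind_mul _ _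
  | succ d ih =>
    simp only [JJ, HH, add_mul, sum_add_distrib, sum_ind_mul, mul_assoc, ← mul_sum,
      ← List.sum_map_mul_right, lsum_comm] at ih ⊢
    simp only [ih]

lemma GG_eq (μ : ℝ) (d : ℕ) (a : σ) (j : ι) :
    GG line ch μ d a j = ((ch a).map fun c => JJ line ch μ d c j).sum := by
  induction d generalizing a with
  | zero => simp only [GG, JJ, HH, cnt, List.map_map]; rfl
  | succ d ih =>
    simp only [GG, JJ, HH, List.sum_map_add, List.sum_map_mul_left] at ih ⊢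
    rw [cnt, List.map_map]
    exact congrArg₂ (· + ·) rfl (congrArg (μ * ·) (congrArg List.sum (List.map_congr_left fun c _ => ih c)))

lemma JJ_succ (μ : ℝ) (d : ℕ) (a : σ) (j : ι) :
    JJ line ch μ (d + 1) a j = ind (line a = j) + μ * GG line ch μ d a j := by
  rw [GG_eq]; rfl

lemma prsAll_append (M : σ → ι → ℝ) (l l' : List σ) : prsAll M (l ++ l') = prsAll M l + prsAll M l' +
    ∑ j, (l.map fun b => M b j).sum * (l'.map fun b => M b j).sum := by
  induction l with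
  | nil => simp [prsAll]
  | cons a l ih =>
    simp only [List.cons_append, prsAll, ih, List.map_append, List.sum_append, List.map_cons,
      List.sum_cons, mul_add, add_mul, sum_add_distrib]
    ring

lemma prsAll_le {M M' : σ → ι → ℝ} {c : ℝ} (h0 : ∀ a j, 0 ≤ M a j) (h : ∀ a j, M a j ≤ c * M' a j)
    (l : List σ) : prsAll M l ≤ c ^ 2 * prsAll M' l := by
  induction l with
  | nil => simp [prsAll]
  | cons a l ih =>
    simp only [prsAll, mul_add, mul_sum]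
    refine add_le_add (sum_le_sum fun j _ => ?_) ih
    have h1 : (l.map fun b => M b j).sum ≤ c * (l.map fun b => M' b j).sum := by
      rw [← List.sum_map_mul_left]; exact List.sum_le_sum fun b _ => h b j
    exact (mul_le_mul (h a j) h1 (lsum_nn _ fun b => h0 b j) ((h0 a j).trans (h a j))).trans_eq (by ring)

lemma prsAll_nodup {β : Type} [DecidableEq β] {M : σ → ι → ℝ} (h0 : ∀ a j, 0 ≤ M a j) (f : β → σ)
    (L : List β) (hL : L.Nodup) : prsAll M (L.map f) ≤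
      ∑ v ∈ L.toFinset, ∑ j, M (f v) j * ∑ v' ∈ L.toFinset.erase v, M (f v') j := by
  induction L with
  | nil => simp [prsAll]
  | cons a L ih =>
    obtain ⟨ha, hL⟩ := List.nodup_cons.1 hL
    have ha' : a ∉ L.toFinset := by simpa using ha
    rw [List.toFinset_cons, sum_insert ha', erase_insert ha', List.map_cons, prsAll]
    refine add_le_add (le_of_eq (sum_congr rfl fun j _ => ?_)) ((ih hL).trans (sum_le_sum fun v _ =>
      sum_le_sum fun j _ => mul_le_mul_of_nonneg_left (sum_le_sum_of_subset_of_nonneg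
        (erase_subset_erase _ (subset_insert _ _)) fun _ _ _ => h0 _ _) (h0 _ _)))
    rw [List.map_map, List.sum_toFinset _ hL]; rfl

lemma locw_le {μ F : ℝ} (hμ : 0 < μ) (hμ1 : μ ≤ 1) (hF : 1 ≤ F) (k : ℕ) (l : List σ) :
    locw line (fun b j => F * GG line ch μ k b j) l ≤ (F / μ) ^ 2 * prsAll (JJ line ch μ (k + 1)) l +
      F * (l.map fun b => GG line ch μ k b (line b)).sum := by
  unfold locw
  rw [List.sum_map_mul_left]
  refine add_le_add (prsAll_le (fun a j => add_nonneg (ind_nonneg _)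
    (mul_nonneg (by linarith) (GG_nn hμ.le _ _ _))) (fun a j => ?_) l) le_rfl
  rw [JJ_succ, mul_add, ← mul_assoc, div_mul_cancel₀ _ hμ.ne']
  refine add_le_add (le_mul_of_one_le_left (ind_nonneg _) ?_) le_rfl
  rw [one_le_div hμ]; linarith

end Gen

variable {V : Type} [Fintype V] [DecidableEq V]

/-- Codegree bound. -/
def Cd (G : SimpleGraph V) (D : ℝ) : Prop := ∀ x y, G.Adj x y → ∀ X, ((ap G x y X).card : ℝ) ≤ 2 * D

lemma lsum_ch (G : SimpleGraph V) (x y z : V) (f : V × V × V → ℝ) : ((chG G (x, y, z)).map f).sum =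
    ∑ v ∈ ap G x z {y}, f (x, z, v) + ∑ v ∈ ap G y z {x}, f (y, z, v) := by
  rw [chG, List.map_append, List.sum_append, lsum_fan, lsum_fan]

lemma Cd.sum_le {G : SimpleGraph V} {D : ℝ} (h : Cd G D) {x y : V} (hxy : G.Adj x y) (X : Finset V)
    {f : V → ℝ} {c : ℝ} (hc : 0 ≤ c) (hf : ∀ v, VdG G (x, y, v) → f v ≤ c) :
    ∑ v ∈ ap G x y X, f v ≤ 2 * D * c := by
  refine (sum_le_card_nsmul _ _ c fun v hv => hf v ⟨hxy, (mem_ap.1 hv).1, (mem_ap.1 hv).2.1⟩).trans ?_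
  rw [nsmul_eq_mul]; exact mul_le_mul_of_nonneg_right (h x y hxy X) hc

lemma HH_le {G : SimpleGraph V} {D μ c : ℝ} (h : Cd G D) (hμ : 0 ≤ μ) (hμD : 8 * D * μ ≤ 1) (hc : 0 ≤ c)
    {loc : V × V × V → ℝ} (hl : ∀ a, loc a ≤ c) (d : ℕ) : ∀ a, VdG G a → HH (chG G) μ loc d a ≤ 2 * c := by
  induction d with
  | zero => intro a _; exact (hl a).trans (by linarith)
  | succ d ih =>
    rintro ⟨x, y, z⟩ ha
    rw [HH, lsum_ch]
    have h1 := h.sum_le ha.2.1 {y} (by linarith : 0 ≤ 2 * c) fun v hv => ih _ hv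
    have h2 := h.sum_le ha.2.2 {x} (by linarith : 0 ≤ 2 * c) fun v hv => ih _ hv
    have h3 := mul_le_mul_of_nonneg_left (add_le_add h1 h2) hμ
    nlinarith [hl (x, y, z)]

lemma JJ_le {G : SimpleGraph V} {D μ : ℝ} (h : Cd G D) (hμ : 0 ≤ μ) (hμD : 8 * D * μ ≤ 1) (d : ℕ)
    (a : V × V × V) (ha : VdG G a) (j : Finset V) : JJ lineG (chG G) μ d a j ≤ 2 := by
  simpa [JJ] using HH_le h hμ hμD zero_le_one (fun _ => ind_le_one _) d a ha

lemma sum_ap_ind (G : SimpleGraph V) (u t : V) (X : Finset V) (f : V → ℝ) :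
    ∑ v ∈ ap G u t X, f v = ∑ v, ind (v ∈ ap G u t X) * f v := by
  rw [← sum_subset (subset_univ (ap G u t X)) fun v _ hv => by rw [ind_neg hv, zero_mul]]
  exact sum_congr rfl fun v hv => by rw [ind_pos hv, one_mul]

lemma parents {G : SimpleGraph V} {D : ℝ} (h : Cd G D) {f : V × V × V → ℝ} (hf : ∀ a, 0 ≤ f a) :
    ∑ a, ind (VdG G a) * ((chG G a).map f).sum ≤ 4 * D * ∑ a, ind (VdG G a) * f a := by
  have key : ∀ x z, ∑ y, ind (G.Adj x y ∧ G.Adj x z ∧ G.Adj y z) * ∑ v ∈ ap G x z {y}, f (x, z, v) ≤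
      2 * D * ∑ v, ind (VdG G (x, z, v)) * f (x, z, v) := fun x z => by
    have h0 : 0 ≤ ∑ v, ind (VdG G (x, z, v)) * f (x, z, v) :=
      sum_nonneg fun v _ => mul_nonneg (ind_nonneg _) (hf _)
    by_cases hxz : G.Adj x z
    · refine le_trans ?_ (h.sum_le hxz ∅ h0 fun _ _ => le_rfl)
      rw [sum_ap_ind G x z ∅]
      refine sum_le_sum fun y _ => mul_le_mul (ind_mono fun H => mem_ap.2 ⟨H.1, H.2.2.symm, by simp⟩) ?_
        (sum_nonneg fun _ _ => hf _) (ind_nonneg _)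
      rw [sum_ap_ind]
      exact sum_le_sum fun v _ => mul_le_mul_of_nonneg_right
        (ind_mono fun H => ⟨hxz, (mem_ap.1 H).1, (mem_ap.1 H).2.1⟩) (hf _)
    · simp [ind, VdG, hxz]
  simp only [Fintype.sum_prod_type, lsum_ch, mul_add, sum_add_distrib]
  have h1 : ∑ x, ∑ y, ∑ z, ind (VdG G (x, y, z)) * ∑ v ∈ ap G x z {y}, f (x, z, v) ≤
      2 * D * ∑ x, ∑ z, ∑ v, ind (VdG G (x, z, v)) * f (x, z, v) := by
    rw [mul_sum]
    refine sum_le_sum fun x _ => ?_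
    rw [sum_comm, mul_sum]
    exact sum_le_sum fun z _ => key x z
  have h2 : ∑ x, ∑ y, ∑ z, ind (VdG G (x, y, z)) * ∑ v ∈ ap G y z {x}, f (y, z, v) ≤
      2 * D * ∑ x, ∑ z, ∑ v, ind (VdG G (x, z, v)) * f (x, z, v) := by
    rw [sum_comm]
    refine le_trans (le_of_eq ?_) h1
    refine sum_congr rfl fun y _ => sum_congr rfl fun x _ => sum_congr rfl fun z _ => ?_
    rw [ind_congr (show VdG G (x, y, z) ↔ VdG G (y, x, z) from
      ⟨fun H => ⟨H.1.symm, H.2.2, H.2.1⟩, fun H => ⟨H.1.symm, H.2.2, H.2.1⟩⟩)]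
  linarith

lemma HH_sum {G : SimpleGraph V} {D μ : ℝ} (h : Cd G D) (hμ : 0 ≤ μ) (hμD : 8 * D * μ ≤ 1)
    {loc : V × V × V → ℝ} (hl : ∀ a, 0 ≤ loc a) (d : ℕ) :
    ∑ a, ind (VdG G a) * HH (chG G) μ loc d a ≤ 2 * ∑ a, ind (VdG G a) * loc a := by
  have h0 : 0 ≤ ∑ a, ind (VdG G a) * loc a := sum_nonneg fun _ _ => mul_nonneg (ind_nonneg _) (hl _)
  induction d with
  | zero => simp only [HH]; linarith
  | succ d ih =>
    simp only [HH, mul_add, sum_add_distrib, mul_left_comm _ μ, ← mul_sum]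
    have h1 := mul_le_mul_of_nonneg_left (parents h (HH_nn (ch := chG G) hμ hl d)) hμ
    have h2 : 0 ≤ ∑ a, ind (VdG G a) * HH (chG G) μ loc d a :=
      sum_nonneg fun _ _ => mul_nonneg (ind_nonneg _) (HH_nn hμ hl d _)
    nlinarith

/-! ### Exploration with fresh vertices -/

def ext (S : Finset (Sym2 V)) (u t v : V) : Finset (Sym2 V) := insert s(u, v) (insert s(t, v) S)

def Inn (W : Finset V) (S : Finset (Sym2 V)) : Prop := ∀ x y, s(x, y) ∈ S → x ∈ W

def Port (S : Finset (Sym2 V)) (u t : V) (X : Finset V) : Prop :=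
  u ≠ t ∧ s(u, t) ∈ S ∧ ∀ w, w ≠ u → w ≠ t → s(u, w) ∈ S → s(t, w) ∈ S → w ∈ X

lemma mem_ext {S : Finset (Sym2 V)} {u t v : V} {e : Sym2 V} :
    e ∈ ext S u t v ↔ e = s(u, v) ∨ e = s(t, v) ∨ e ∈ S := by simp [ext]

lemma Inn.right {W : Finset V} {S : Finset (Sym2 V)} (h : Inn W S) {x y : V} (H : s(x, y) ∈ S) : y ∈ W :=
  h y x (by rwa [Sym2.eq_swap])

lemma Inn.ext {W : Finset V} {S : Finset (Sym2 V)} (h : Inn W S) {u t : V} (H : s(u, t) ∈ S) (v : V) :
    Inn (insert v W) (ext S u t v) := fun x y hxy => by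
  have := h _ _ H
  have := h.right H
  rcases mem_ext.1 hxy with e | e | e
  · rcases Sym2.eq_iff.1 e with ⟨rfl, -⟩ | ⟨rfl, -⟩ <;> simp [*]
  · rcases Sym2.eq_iff.1 e with ⟨rfl, -⟩ | ⟨rfl, -⟩ <;> simp [*]
  · exact mem_insert_of_mem (h _ _ e)

lemma ext_new {W : Finset V} {S : Finset (Sym2 V)} (h : Inn W S) {u t v x : V} (hv : v ∉ W)
    (hu : u ∈ W) (ht : t ∈ W) (H : s(x, v) ∈ ext S u t v) : x = u ∨ x = t := by
  rcases mem_ext.1 H with e | e | e
  · rcases Sym2.eq_iff.1 e with ⟨h1, -⟩ | ⟨-, rfl⟩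
    · exact Or.inl h1
    · exact absurd hu hv
  · rcases Sym2.eq_iff.1 e with ⟨h1, -⟩ | ⟨-, rfl⟩
    · exact Or.inr h1
    · exact absurd ht hv
  · exact absurd (h.right e) hv

lemma ext_old {S : Finset (Sym2 V)} {u t v x y : V} (hx : x ≠ v) (hy : y ≠ v)
    (H : s(x, y) ∈ ext S u t v) : s(x, y) ∈ S := by
  rcases mem_ext.1 H with e | e | e
  · rcases Sym2.eq_iff.1 e with ⟨-, h⟩ | ⟨h, -⟩ <;> contradiction
  · rcases Sym2.eq_iff.1 e with ⟨-, h⟩ | ⟨h, -⟩ <;> contradiction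
  · exact e

lemma Port.ext {W : Finset V} {S : Finset (Sym2 V)} (h : Inn W S) {u t v u' t' : V} {X X' : Finset V}
    (P : Port S u' t' X) (hX : X ⊆ X') (H : s(u, t) ∈ S) (hv : v ∉ W)
    (hc : (u' = u ∨ u' = t) → (t' = u ∨ t' = t) → v ∈ X') : Port (ext S u t v) u' t' X' := by
  refine ⟨P.1, mem_ext.2 (Or.inr (Or.inr P.2.1)), fun w h1 h2 h3 h4 => ?_⟩
  by_cases hw : w = v
  · subst hw
    exact hc (ext_new h hv (h _ _ H) (h.right H) h3) (ext_new h hv (h _ _ H) (h.right H) h4)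
  · have a1 : u' ≠ v := fun e => hv (e ▸ h _ _ P.2.1)
    have a2 : t' ≠ v := fun e => hv (e ▸ h.right P.2.1)
    exact hX (P.2.2 w h1 h2 (ext_old a1 hw h3) (ext_old a2 hw h4))

lemma port_new {W : Finset V} {S : Finset (Sym2 V)} (h : Inn W S) {u t v : V} (H : s(u, t) ∈ S)
    (hv : v ∉ W) : Port (ext S u t v) u v {t} ∧ Port (ext S u t v) t v {u} := by
  have a1 := h _ _ H
  have a2 := h.right H
  refine ⟨⟨fun e => hv (e ▸ a1), by simp [mem_ext], fun w h1 _ _ h4 => ?_⟩,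
    ⟨fun e => hv (e ▸ a2), by simp [mem_ext], fun w h1 _ _ h4 => ?_⟩⟩
  · rw [Sym2.eq_swap] at h4
    simpa [h1] using ext_new h hv a1 a2 h4
  · rw [Sym2.eq_swap] at h4
    simpa [h1] using ext_new h hv a1 a2 h4

lemma card_ext_le (S : Finset (Sym2 V)) (u t v : V) : (ext S u t v).card ≤ S.card + 2 :=
  (card_insert_le _ _).trans (Nat.succ_le_succ (card_insert_le _ _))

lemma card_ext_new {W : Finset V} {S : Finset (Sym2 V)} (h : Inn W S) {u t v : V} (hut : u ≠ t)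
    (H : s(u, t) ∈ S) (hv : v ∉ W) : (ext S u t v).card = S.card + 2 := by
  have a2 := h.right H
  rw [ext, card_insert_of_notMem, card_insert_of_notMem fun e => hv (h.right e)]
  simp only [mem_insert, not_or]
  refine ⟨fun e => ?_, fun e => hv (h.right e)⟩
  rcases Sym2.eq_iff.1 e with ⟨h1, -⟩ | ⟨-, rfl⟩
  · exact hut h1
  · exact hv a2

lemma sub_ext (S : Finset (Sym2 V)) (u t v : V) (G : SimpleGraph V) :
    sub (ext S u t v) G = ind (G.Adj u v ∧ G.Adj t v ∧ ∀ e ∈ S, e ∈ G.edgeSet) := by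
  unfold sub ext; simp

variable {A : SimpleGraph V → Prop} {ν : (SimpleGraph V → ℝ) → ℝ} {q Λ D : ℝ} {s0 : ℕ}

/-- Standing hypotheses on the law of the graph. -/
structure Law (A : SimpleGraph V → Prop) (ν : (SimpleGraph V → ℝ) → ℝ) (q Λ D : ℝ) (s0 : ℕ) : Prop where
  fn : Fn A ν
  sv : Surv ν q Λ s0
  q0 : 0 ≤ q
  q1 : q ≤ 1
  L0 : 0 ≤ Λ
  D1 : 1 ≤ D
  qD : Fintype.card V * q ^ 2 ≤ D
  cd : ∀ G, A G → Cd G D

lemma step (L : Law A ν q Λ D s0) {W : Finset V} {S : Finset (Sym2 V)} {u t : V} {X : Finset V}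
    (hin : Inn W S) (P : Port S u t X) (hc : S.card + 2 ≤ s0) (h : SimpleGraph V → V → ℝ)
    (h0 : ∀ G v, 0 ≤ h G v) {b B : ℝ} (hb0 : 0 ≤ b) (hB0 : 0 ≤ B)
    (hb : ∀ G, A G → (∀ e ∈ S, e ∈ G.edgeSet) → ∀ v, VdG G (u, t, v) → h G v ≤ b)
    (hB : ∀ v ∉ W, ν (fun G => sub (ext S u t v) G * h G v) ≤ B * (Λ * q ^ (ext S u t v).card)) :
    ν (fun G => sub S G * ∑ v ∈ ap G u t X, h G v) ≤ (W.card * q * b + D * B) * (Λ * q ^ S.card) := by
  classical
  have hq := L.q0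
  have hΛ := L.L0
  have a1 := L.fn.mono (fun G => sub S G * ∑ v ∈ ap G u t X, h G v)
    (fun G => ∑ v, (if v ∈ W then (if v ≠ u ∧ v ≠ t ∧ v ∉ X then b else 0) * sub (ext S u t v) G
      else sub (ext S u t v) G * h G v)) fun G hG => by
    rw [sum_ap_ind, mul_sum]
    refine sum_le_sum fun v _ => ?_
    have n1 : 0 ≤ sub (ext S u t v) G := ind_nonneg _
    by_cases H : v ∈ ap G u t X ∧ ∀ e ∈ S, e ∈ G.edgeSet
    · obtain ⟨b1, b2, b3⟩ := mem_ap.1 H.1
      rw [sub_ext, sub, ind_pos H.1, ind_pos H.2, ind_pos ⟨b1, b2, H.2⟩, if_pos (show v ≠ u ∧ v ≠ t ∧ v ∉ X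
        from ⟨b1.ne', b2.ne', b3⟩)]
      split_ifs
      · simpa using hb G hG H.2 v ⟨H.2 _ P.2.1, b1, b2⟩
      · simp
    · have : sub S G * (ind (v ∈ ap G u t X) * h G v) = 0 := by
        rcases not_and_or.1 H with H | H
        · rw [ind_neg H]; ring
        · rw [sub, ind_neg H]; ring
      rw [this]
      have := h0 G v
      split_ifs <;> positivity
  rw [L.fn.sum] at a1
  refine a1.trans ((sum_le_sum (g := fun v => ind (v ∈ W) * (q * b * (Λ * q ^ S.card)) +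
    q ^ 2 * B * (Λ * q ^ S.card)) fun v _ => ?_).trans ?_)
  · by_cases hv : v ∈ W
    · simp only [if_pos hv, ind_pos hv, L.fn.mul, one_mul]
      refine le_add_of_le_of_nonneg ?_ (by positivity)
      split_ifs with H
      · have c1 : S.card + 1 ≤ (ext S u t v).card := card_lt_card ⟨fun e he => mem_ext.2 (Or.inr (Or.inr he)),
          fun hs => H.2.2 (P.2.2 v H.1 H.2.1 (hs (by simp [mem_ext])) (hs (by simp [mem_ext])))⟩
        have c2 := (L.sv _ ((card_ext_le S u t v).trans hc)).trans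
          (mul_le_mul_of_nonneg_left (pow_le_pow_of_le_one hq L.q1 c1) hΛ)
        exact (mul_le_mul_of_nonneg_left c2 hb0).trans_eq (by ring)
      · rw [zero_mul]; positivity
    · simp only [if_neg hv, ind_neg hv, zero_mul, zero_add]
      refine (hB v hv).trans_eq ?_
      rw [card_ext_new hin P.1 P.2.1 hv]; ring
  · rw [sum_add_distrib, ← sum_mul, ← card_filter_eq_ind, filter_mem_eq_inter, univ_inter, sum_const,
      card_univ, nsmul_eq_mul]
    have := mul_le_mul_of_nonneg_right L.qD (by positivity : 0 ≤ B * (Λ * q ^ S.card))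
    nlinarith

lemma HH_le_succ {σ : Type} {ch : σ → List σ} {μ : ℝ} (hμ : 0 ≤ μ) {loc : σ → ℝ} (h : ∀ a, 0 ≤ loc a)
    (d : ℕ) (a : σ) : HH ch μ loc d a ≤ loc a + μ * ((ch a).map (HH ch μ loc (d - 1))).sum := by
  cases d with
  | zero => exact le_add_of_nonneg_right (mul_nonneg hμ (lsum_nn _ (HH_nn hμ h _)))
  | succ d => exact le_rfl

lemma sub_mul_le {S : Finset (Sym2 V)} {G : SimpleGraph V} {a b : ℝ}
    (h : (∀ e ∈ S, e ∈ G.edgeSet) → a ≤ b) : sub S G * a ≤ sub S G * b := by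
  by_cases H : ∀ e ∈ S, e ∈ G.edgeSet
  · exact mul_le_mul_of_nonneg_left (h H) (ind_nonneg _)
  · rw [sub, ind_neg H, zero_mul, zero_mul]

lemma ez (L : Law A ν q Λ D s0) {μ : ℝ} (hμ : 0 ≤ μ) (hμD : 8 * D * μ ≤ 1) (W0 : Finset V)
    (I : Finset (Sym2 V) → Prop)
    (hI : ∀ W S u t v, I S → Inn W S → s(u, t) ∈ S → t ∉ W0 → v ∉ W → I (ext S u t v))
    (g : SimpleGraph V → Finset V → ℝ) (g0 : ∀ G j, 0 ≤ g G j) {gb φ : ℝ} (hgb : 0 ≤ gb) (hφ0 : 0 ≤ φ)
    {wb sb : ℕ} (hsb : sb ≤ s0)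
    (hg : ∀ S, I S → ∀ G, A G → (∀ e ∈ S, e ∈ G.edgeSet) → ∀ j, g G j ≤ gb)
    (hφ : ∀ W S j, I S → Inn W S → W.card ≤ wb → S.card ≤ sb → j ⊆ W → ¬j ⊆ W0 →
      ν (fun G => sub S G * g G j) ≤ φ * (Λ * q ^ S.card)) (r : ℕ) :
    ∀ d W S u t v, I S → Inn W S → W0 ⊆ W → v ∉ W0 → s(u, t) ∈ S → Port S u v {t} → Port S t v {u} →
      W.card + r ≤ wb → S.card + 2 * r ≤ sb →
      ν (fun G => sub S G * HH (chG G) μ (fun c => g G (lineG c)) d (u, t, v)) ≤
        (2 * φ + 2 * (wb * q) * gb + 2 * gb / 2 ^ r) * (Λ * q ^ S.card) := by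
  have hq := L.q0
  have hΛ := L.L0
  have hD := L.D1
  induction r with
  | zero =>
    intro d W S u t v h1 h2 h3 h4 h5 P1 P2 c1 c2
    have a1 := L.fn.mono _ (fun G => 2 * gb * sub S G) fun G hG => (sub_mul_le (S := S) fun H =>
      HH_le (L.cd G hG) hμ hμD hgb (fun c => hg S h1 G hG H (lineG c)) d (u, t, v)
        ⟨H _ h5, H _ P1.2.1, H _ P2.2.1⟩).trans_eq (mul_comm _ _)
    rw [L.fn.mul] at a1
    have a2 := mul_le_mul_of_nonneg_left (L.sv S (by omega)) (by linarith : 0 ≤ 2 * gb)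
    refine (a1.trans a2).trans (mul_le_mul_of_nonneg_right ?_ (by positivity))
    have : 0 ≤ 2 * (wb * q) * gb := by positivity
    simp only [pow_zero, div_one]; linarith
  | succ r ih =>
    intro d W S u t v h1 h2 h3 h4 h5 P1 P2 c1 c2
    set B := 2 * φ + 2 * (wb * q) * gb + 2 * gb / 2 ^ r with hB
    have hB0 : 0 ≤ B := by positivity
    have key : ∀ x y, Port S x v {y} → ν (fun G => sub S G * ∑ w ∈ ap G x v {y},
        HH (chG G) μ (fun c => g G (lineG c)) (d - 1) (x, v, w)) ≤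
        (W.card * q * (2 * gb) + D * B) * (Λ * q ^ S.card) := fun x y P =>
      step L h2 P (by omega) (fun G w => HH (chG G) μ (fun c => g G (lineG c)) (d - 1) (x, v, w))
        (fun G w => HH_nn hμ (fun _ => g0 _ _) _ _) (by linarith) hB0
        (fun G hG H w hw => HH_le (L.cd G hG) hμ hμD hgb (fun c => hg S h1 G hG H (lineG c)) _ _ hw)
        fun w hw => ih _ (insert w W) _ x v w (hI W S x v w h1 h2 P.2.1 h4 hw) (h2.ext P.2.1 w)
          (h3.trans (subset_insert _ _)) (fun H => hw (h3 H)) (mem_ext.2 (Or.inr (Or.inr P.2.1)))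
          (port_new h2 P.2.1 hw).1 (port_new h2 P.2.1 hw).2 (by have := card_insert_le w W; omega)
          (by have := card_ext_le S x v w; omega)
    have a1 := L.fn.mono _ (fun G => sub S G * g G (lineG (u, t, v)) + μ * ((sub S G * ∑ w ∈ ap G u v {t},
        HH (chG G) μ (fun c => g G (lineG c)) (d - 1) (u, v, w)) + sub S G * ∑ w ∈ ap G t v {u},
        HH (chG G) μ (fun c => g G (lineG c)) (d - 1) (t, v, w))) fun G _ =>
      (mul_le_mul_of_nonneg_left (HH_le_succ (ch := chG G) hμ (fun c => g0 G (lineG c)) d (u, t, v))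
        (ind_nonneg (∀ e ∈ S, e ∈ G.edgeSet))).trans_eq (by rw [lsum_ch]; unfold sub; ring)
    rw [L.fn.add, L.fn.mul, L.fn.add] at a1
    have a2 := hφ W S (lineG (u, t, v)) h1 h2 (by omega) (by omega) (by
      intro w hw
      simp only [lineG, mem_insert, mem_singleton] at hw
      rcases hw with rfl | rfl | rfl
      exacts [h2 _ _ h5, h2.right h5, h2.right P1.2.1]) fun H => h4 (H (by simp [lineG]))
    have a3 := mul_le_mul_of_nonneg_left (add_le_add (key u t P1) (key t u P2)) hμ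
    refine (a1.trans (add_le_add a2 a3)).trans ?_
    rw [← add_mul, ← mul_assoc μ, ← add_mul]
    refine mul_le_mul_of_nonneg_right ?_ (by positivity)
    have b1 : (W.card : ℝ) ≤ wb := by exact_mod_cast (by omega : W.card ≤ wb)
    have b2 : W.card * q * gb ≤ wb * q * gb := by gcongr
    have b3 : 8 * μ ≤ 1 := by nlinarith
    have b4 := mul_le_mul_of_nonneg_right hμD hB0
    have b5 := mul_le_mul b3 b2 (by positivity) zero_le_one
    have b6 : 2 * gb / 2 ^ (r + 1) = 2 * gb / 2 ^ r / 2 := by rw [pow_succ, div_div]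
    have b7 : 0 ≤ 2 * gb / 2 ^ r := by positivity
    have b8 : 0 ≤ wb * q * gb := by positivity
    rw [b6]; nlinarith

lemma stage2 (L : Law A ν q Λ D s0) {μ η : ℝ} (hμ : 0 ≤ μ) (hμD : 8 * D * μ ≤ 1) {wb r : ℕ}
    (hη : wb * q + 1 / 2 ^ r ≤ η) (d : ℕ) {W : Finset V} {S : Finset (Sym2 V)} {u t : V} {X j : Finset V}
    (hin : Inn W S) (P : Port S u t X) (hj : j ⊆ W) (hW : W.card + r + 1 ≤ wb)
    (hS : S.card + 2 * r + 2 ≤ s0) :
    ν (fun G => sub S G * ∑ v ∈ ap G u t X, JJ lineG (chG G) μ d (u, t, v) j) ≤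
      4 * D * η * (Λ * q ^ S.card) := by
  have hq := L.q0
  have hΛ := L.L0
  have hD := L.D1
  refine (step L hin P (by omega) (fun G v => JJ lineG (chG G) μ d (u, t, v) j) (fun _ _ => JJ_nn hμ _ _ _)
    zero_le_two (B := 2 * 0 + 2 * (wb * q) * 1 + 2 * 1 / 2 ^ r) (by positivity)
    (fun G hG _ v hv => JJ_le (L.cd G hG) hμ hμD d _ hv j) fun v hv =>
      ez L hμ hμD W (fun _ => True) (fun _ _ _ _ _ _ _ _ _ _ => trivial) (fun _ j' => ind (j' = j))
        (fun _ _ => ind_nonneg _) zero_le_one le_rfl le_rfl (fun _ _ _ _ _ _ => ind_le_one _)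
        (fun W' S' j' _ _ _ _ _ H => ?_) r d (insert v W) _ u t v trivial (hin.ext P.2.1 v)
        (subset_insert _ _) hv (mem_ext.2 (Or.inr (Or.inr P.2.1))) (port_new hin P.2.1 hv).1
        (port_new hin P.2.1 hv).2 (by have := card_insert_le v W; omega)
        (by have := card_ext_le S u t v; omega)).trans (mul_le_mul_of_nonneg_right ?_ (by positivity))
  · simp only [ind_neg (show ¬j' = j from fun e => H (e ▸ hj)), mul_zero, zero_mul]
    exact L.fn.zero.le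
  · have b1 : (W.card : ℝ) ≤ wb := by exact_mod_cast (by omega : W.card ≤ wb)
    have b2 : W.card * q ≤ wb * q := by gcongr
    have b3 : (0 : ℝ) ≤ 1 / 2 ^ r := by positivity
    have b4 : 2 * 1 / (2 : ℝ) ^ r = 2 * (1 / 2 ^ r) := by ring
    have b5 := mul_le_mul_of_nonneg_left hη (by linarith : 0 ≤ 2 * D)
    have b6 : 0 ≤ wb * q := by positivity
    rw [b4]; nlinarith

lemma stage1 (L : Law A ν q Λ D s0) {μ η : ℝ} (hμ : 0 ≤ μ) (hμD : 8 * D * μ ≤ 1) {wb r : ℕ}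
    (hη : wb * q + 1 / 2 ^ r ≤ η) (d : ℕ) {W : Finset V} {S : Finset (Sym2 V)} {u t u' t' : V}
    {X : Finset V} (hin : Inn W S) (P : Port S u t X) (X' : V → Finset V) (h' : s(u', t') ∈ S)
    (P' : ∀ v ∉ W, Port (ext S u t v) u' t' (X' v)) (hW : W.card + 2 * r + 2 ≤ wb)
    (hS : S.card + 4 * r + 4 ≤ s0) :
    ν (fun G => sub S G * ∑ v ∈ ap G u t X, ∑ j, JJ lineG (chG G) μ d (u, t, v) j *
      ∑ v' ∈ ap G u' t' (X' v), JJ lineG (chG G) μ d (u', t', v') j) ≤ 24 * D ^ 2 * η * (Λ * q ^ S.card) := by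
  have hq := L.q0
  have hΛ := L.L0
  have hD := L.D1
  have b3 : (0 : ℝ) ≤ 1 / 2 ^ r := by positivity
  have hη0 : 0 ≤ η := le_trans (by positivity) hη
  have hg : ∀ G, A G → G.Adj u' t' → ∀ v j,
      ∑ v' ∈ ap G u' t' (X' v), JJ lineG (chG G) μ d (u', t', v') j ≤ 4 * D := fun G hG H v j =>
    ((L.cd G hG).sum_le H _ zero_le_two fun v' hv => JJ_le (L.cd G hG) hμ hμD d _ hv j).trans_eq (by ring)
  have g0 : ∀ (G : SimpleGraph V) v j, 0 ≤ ∑ v' ∈ ap G u' t' (X' v), JJ lineG (chG G) μ d (u', t', v') j :=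
    fun G v j => sum_nonneg fun _ _ => JJ_nn hμ _ _ _
  simp only [JJ_ip]
  refine (step L hin P (by omega) (fun G v => HH (chG G) μ (fun c => ∑ v' ∈ ap G u' t' (X' v),
      JJ lineG (chG G) μ d (u', t', v') (lineG c)) d (u, t, v)) (fun G v => HH_nn hμ (fun _ => g0 _ _ _) _ _)
    (b := 2 * (4 * D)) (by positivity)
    (B := 2 * (4 * D * η) + 2 * ((W.card + 1 + r : ℕ) * q) * (4 * D) + 2 * (4 * D) / 2 ^ r) (by positivity)
    (fun G hG H v hv => HH_le (L.cd G hG) hμ hμD (by positivity) (fun c => hg G hG (H _ h') v _) d _ hv)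
    fun v hv => ez L hμ hμD W (fun S => Port S u' t' (X' v)) (fun W' S' x y w h1 h2 h3 h4 h5 =>
        h1.ext h2 le_rfl h3 h5 fun e1 e2 => ?_)
      (fun G j => ∑ v' ∈ ap G u' t' (X' v), JJ lineG (chG G) μ d (u', t', v') j) (fun G => g0 G v)
      (by positivity) (by positivity) (sb := S.card + 2 + 2 * r) (by omega)
      (fun S' h1 G hG H => hg G hG (H _ h1.2.1) v)
      (fun W' S' j h1 h2 h3 h4 h5 _ => stage2 L hμ hμD hη d h2 h1 h5 (by omega) (by omega))
      r d (insert v W) _ u t v (P' v hv) (hin.ext P.2.1 v)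
      (subset_insert _ _) hv (mem_ext.2 (Or.inr (Or.inr P.2.1))) (port_new hin P.2.1 hv).1
      (port_new hin P.2.1 hv).2 (by have := card_insert_le v W; omega)
      (by have := card_ext_le S u t v; omega)).trans (mul_le_mul_of_nonneg_right ?_ (by positivity))
  · have a1 : u' = x := e1.resolve_right fun e => h4 (e ▸ hin _ _ h')
    have a2 : t' = x := e2.resolve_right fun e => h4 (e ▸ hin.right h')
    exact absurd (a1.trans a2.symm) h1.1
  · have b1 : (W.card : ℝ) ≤ wb := by exact_mod_cast (by omega : W.card ≤ wb)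
    have b2 : W.card * q ≤ η := by linarith [mul_le_mul_of_nonneg_right b1 hq]
    have c1 : ((W.card + 1 + r : ℕ) : ℝ) ≤ wb := by exact_mod_cast (by omega : W.card + 1 + r ≤ wb)
    have c2 : ((W.card + 1 + r : ℕ) : ℝ) * q + 1 / 2 ^ r ≤ η := le_trans (by gcongr) hη
    have b4 : 2 * (4 * D) / (2 : ℝ) ^ r = 8 * D * (1 / 2 ^ r) := by ring
    have b5 := mul_le_mul_of_nonneg_left c2 (by positivity : 0 ≤ 8 * D ^ 2)
    have b6 := mul_le_mul_of_nonneg_left b2 (by positivity : 0 ≤ 8 * D)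
    have b7 := mul_le_mul_of_nonneg_left hD (by positivity : 0 ≤ 8 * D * η)
    rw [b4]; nlinarith

lemma stage3 (L : Law A ν q Λ D s0) {μ η : ℝ} (hμ : 0 ≤ μ) (hμD : 8 * D * μ ≤ 1) {wb r : ℕ}
    (hη : wb * q + 1 / 2 ^ r ≤ η) (d : ℕ) {W : Finset V} {S : Finset (Sym2 V)} {u t : V}
    {X : Finset V} (hin : Inn W S) (P : Port S u t X) (hW : W.card + 2 * r + 2 ≤ wb)
    (hS : S.card + 4 * r + 4 ≤ s0) :
    ν (fun G => sub S G * ∑ v ∈ ap G u t X, GG lineG (chG G) μ d (u, t, v) (lineG (u, t, v))) ≤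
      16 * D ^ 2 * η * (Λ * q ^ S.card) := by
  have hq := L.q0
  have hΛ := L.L0
  have hD := L.D1
  have b3 : (0 : ℝ) ≤ 1 / 2 ^ r := by positivity
  have hη0 : 0 ≤ η := le_trans (by positivity) hη
  refine (step L hin P (by omega) (fun G v => GG lineG (chG G) μ d (u, t, v) (lineG (u, t, v)))
    (fun G v => GG_nn hμ _ _ _) (b := 8 * D) (by positivity) (B := 8 * D * η) (by positivity)
    (fun G hG _ v hv => ?_) fun v hv => ?_).trans (mul_le_mul_of_nonneg_right ?_ (by positivity))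
  · rw [GG_eq, lsum_ch]
    have h1 := (L.cd G hG).sum_le hv.2.1 {t} zero_le_two fun w hw =>
      JJ_le (L.cd G hG) hμ hμD d _ hw (lineG (u, t, v))
    have h2 := (L.cd G hG).sum_le hv.2.2 {u} zero_le_two fun w hw =>
      JJ_le (L.cd G hG) hμ hμD d _ hw (lineG (u, t, v))
    linarith
  · simp only [GG_eq, lsum_ch, mul_add, L.fn.add]
    have hj : lineG (u, t, v) ⊆ insert v W := by
      intro w hw
      simp only [lineG, mem_insert, mem_singleton] at hw
      rcases hw with rfl | rfl | rfl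
      exacts [mem_insert_of_mem (hin _ _ P.2.1), mem_insert_of_mem (hin.right P.2.1), mem_insert_self _ _]
    have c1 := card_insert_le v W
    have c2 := card_ext_le S u t v
    have h1 := stage2 L hμ hμD hη d (hin.ext P.2.1 v) (port_new hin P.2.1 hv).1 hj (by omega) (by omega)
    have h2 := stage2 L hμ hμD hη d (hin.ext P.2.1 v) (port_new hin P.2.1 hv).2 hj (by omega) (by omega)
    linarith
  · have b1 : (W.card : ℝ) ≤ wb := by exact_mod_cast (by omega : W.card ≤ wb)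
    have b2 : W.card * q ≤ η := by linarith [mul_le_mul_of_nonneg_right b1 hq]
    have b6 := mul_le_mul_of_nonneg_left b2 (by positivity : 0 ≤ 8 * D)
    have b7 := mul_le_mul_of_nonneg_left hD (by positivity : 0 ≤ 8 * D * η)
    nlinarith

lemma prs_fan {μ : ℝ} (hμ : 0 ≤ μ) (d : ℕ) (G : SimpleGraph V) (u t : V) (X : Finset V) :
    prsAll (JJ lineG (chG G) μ d) (fanL G u t X) ≤ ∑ v ∈ ap G u t X, ∑ j, JJ lineG (chG G) μ d (u, t, v) j *
      ∑ v' ∈ ap G u t (insert v X), JJ lineG (chG G) μ d (u, t, v') j := by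
  refine (prsAll_nodup (JJ_nn hμ d) (fun v => (u, t, v)) _ (nodup_toList _)).trans_eq ?_
  rw [toList_toFinset]
  refine sum_congr rfl fun v _ => ?_
  rw [show (ap G u t X).erase v = ap G u t (insert v X) by ext; simp [mem_ap]; tauto]

lemma stage_fan (L : Law A ν q Λ D s0) {μ η : ℝ} (hμ : 0 ≤ μ) (hμD : 8 * D * μ ≤ 1) {wb r : ℕ}
    (hη : wb * q + 1 / 2 ^ r ≤ η) (d : ℕ) {W : Finset V} {S : Finset (Sym2 V)} {u t : V}
    {X : Finset V} (hin : Inn W S) (P : Port S u t X) (hW : W.card + 2 * r + 2 ≤ wb)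
    (hS : S.card + 4 * r + 4 ≤ s0) :
    ν (fun G => sub S G * prsAll (JJ lineG (chG G) μ d) (fanL G u t X)) ≤
      24 * D ^ 2 * η * (Λ * q ^ S.card) :=
  (L.fn.mono _ _ fun G _ => mul_le_mul_of_nonneg_left (prs_fan hμ d G u t X) (ind_nonneg _)).trans
    (stage1 L hμ hμD hη d hin P (fun v => insert v X) P.2.1 (fun v hv =>
      P.ext hin (subset_insert _ _) P.2.1 hv fun _ _ => mem_insert_self _ _) hW hS)

lemma loc_root (L : Law A ν q Λ D s0) {μ η F : ℝ} (hμ : 0 < μ) (hμD : 8 * D * μ ≤ 1) (hF : 1 ≤ F)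
    {wb r : ℕ} (hη : wb * q + 1 / 2 ^ r ≤ η) (hW : 2 * r + 5 ≤ wb) (hS : 4 * r + 7 ≤ s0) (k : ℕ) (x y : V) :
    ν (fun G => adj G x y * locw lineG (fun b j => F * GG lineG (chG G) μ k b j) (fanL G x y ∅)) ≤
      104 * (F / μ) ^ 2 * D ^ 2 * η * (Λ * q) := by
  have hq := L.q0
  have hΛ := L.L0
  have hD := L.D1
  have hη0 : 0 ≤ η := le_trans (by positivity) hη
  have hμ1 : μ ≤ 1 := by nlinarith
  by_cases hxy : x = y
  · simp only [hxy, adj_zero (SimpleGraph.irrefl _), zero_mul, L.fn.zero]; positivity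
  have hin : Inn {x, y} {s(x, y)} := fun a b H => by
    rcases Sym2.eq_iff.1 (mem_singleton.1 H) with ⟨rfl, -⟩ | ⟨rfl, -⟩ <;> simp
  have P : Port {s(x, y)} x y ∅ := ⟨hxy, by simp, fun w h1 h2 h3 _ => by
    rcases Sym2.eq_iff.1 (mem_singleton.1 h3) with ⟨-, e⟩ | ⟨-, e⟩ <;> contradiction⟩
  have c1 : ({x, y} : Finset V).card ≤ 2 := card_le_two
  have h1 := stage_fan L hμ.le hμD hη (k + 1) hin P (by omega) (by rw [card_singleton]; omega)
  have h2 := stage3 L hμ.le hμD hη k hin P (by omega) (by rw [card_singleton]; omega)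
  rw [card_singleton, pow_one] at h1 h2
  have h3 := L.fn.mono (fun G => adj G x y * locw lineG (fun b j => F * GG lineG (chG G) μ k b j) (fanL G x y ∅))
    (fun G => (F / μ) ^ 2 * (sub {s(x, y)} G * prsAll (JJ lineG (chG G) μ (k + 1)) (fanL G x y ∅)) +
      F * (sub {s(x, y)} G * ∑ v ∈ ap G x y ∅, GG lineG (chG G) μ k (x, y, v) (lineG (x, y, v))))
    fun G _ => by
      rw [show sub {s(x, y)} G = adj G x y by simp [sub, adj]]
      refine (mul_le_mul_of_nonneg_left (locw_le hμ hμ1 hF k _) ((adj01 G).nn x y)).trans_eq ?_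
      rw [lsum_fan]; ring
  rw [L.fn.add, L.fn.mul, L.fn.mul] at h3
  have a1 : F ≤ (F / μ) ^ 2 := by
    have : F ≤ F / μ := by rw [le_div_iff₀ hμ]; nlinarith
    nlinarith
  have a2 := mul_le_mul_of_nonneg_left h1 (sq_nonneg (F / μ))
  have a3 := mul_le_mul_of_nonneg_left h2 (by linarith : 0 ≤ F)
  have a4 := mul_le_mul_of_nonneg_right a1 (by positivity : 0 ≤ D ^ 2 * η * (Λ * q))
  have a5 : 0 ≤ (F / μ) ^ 2 * (D ^ 2 * η * (Λ * q)) := by positivity
  nlinarith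

lemma loc_ch (L : Law A ν q Λ D s0) {μ η F : ℝ} (hμ : 0 < μ) (hμD : 8 * D * μ ≤ 1) (hF : 1 ≤ F)
    {wb r : ℕ} (hη : wb * q + 1 / 2 ^ r ≤ η) (hW : 2 * r + 5 ≤ wb) (hS : 4 * r + 7 ≤ s0) (k : ℕ)
    (a : V × V × V) :
    ν (fun G => ind (VdG G a) * locw lineG (fun b j => F * GG lineG (chG G) μ k b j) (chG G a)) ≤
      104 * (F / μ) ^ 2 * D ^ 2 * η * (Λ * q ^ 3) := by
  obtain ⟨x, y, z⟩ := a
  have hq := L.q0
  have hΛ := L.L0
  have hD := L.D1
  have hη0 : 0 ≤ η := le_trans (by positivity) hη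
  have hμ1 : μ ≤ 1 := by nlinarith
  by_cases hd : x ≠ y ∧ x ≠ z ∧ y ≠ z
  swap
  · have : ∀ G : SimpleGraph V, ind (VdG G (x, y, z)) = 0 := fun G => ind_neg fun H => hd ⟨H.1.ne, H.2.1.ne, H.2.2.ne⟩
    simp only [this, zero_mul, L.fn.zero]; positivity
  obtain ⟨hxy, hxz, hyz⟩ := hd
  have hin0 : Inn {x, y} {s(x, y)} := fun a b H => by
    rcases Sym2.eq_iff.1 (mem_singleton.1 H) with ⟨rfl, -⟩ | ⟨rfl, -⟩ <;> simp
  have hz : z ∉ ({x, y} : Finset V) := by simp [hxz.symm, hyz.symm]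
  have hin := hin0.ext (mem_singleton_self _) z
  obtain ⟨P1, P2⟩ := port_new hin0 (mem_singleton_self _) hz
  have c0 := card_ext_new hin0 hxy (mem_singleton_self _) hz
  rw [card_singleton] at c0
  have c1 : (insert z ({x, y} : Finset V)).card ≤ 3 := card_le_three
  have h1 := stage_fan L hμ.le hμD hη (k + 1) hin P1 (by omega) (by omega)
  have h2 := stage_fan L hμ.le hμD hη (k + 1) hin P2 (by omega) (by omega)
  have h3 := stage1 L hμ.le hμD hη (k + 1) hin P1 (fun _ => {x}) P2.2.1 (fun v hv =>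
    P2.ext hin le_rfl P1.2.1 hv fun H _ => (H.elim hxy.symm hyz).elim) (by omega) (by omega)
  have h4 := stage3 L hμ.le hμD hη k hin P1 (by omega) (by omega)
  have h5 := stage3 L hμ.le hμD hη k hin P2 (by omega) (by omega)
  rw [c0] at h1 h2 h3 h4 h5
  set S := ext {s(x, y)} x y z with hSd
  have h6 := L.fn.mono (fun G => ind (VdG G (x, y, z)) *
      locw lineG (fun b j => F * GG lineG (chG G) μ k b j) (chG G (x, y, z)))
    (fun G => (F / μ) ^ 2 * (sub S G * prsAll (JJ lineG (chG G) μ (k + 1)) (fanL G x z {y}) +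
      sub S G * prsAll (JJ lineG (chG G) μ (k + 1)) (fanL G y z {x}) +
      sub S G * ∑ v ∈ ap G x z {y}, ∑ j, JJ lineG (chG G) μ (k + 1) (x, z, v) j *
        ∑ v' ∈ ap G y z {x}, JJ lineG (chG G) μ (k + 1) (y, z, v') j) +
      F * (sub S G * ∑ v ∈ ap G x z {y}, GG lineG (chG G) μ k (x, z, v) (lineG (x, z, v)) +
        sub S G * ∑ v ∈ ap G y z {x}, GG lineG (chG G) μ k (y, z, v) (lineG (y, z, v))))
    fun G _ => by
      rw [show sub S G = ind (VdG G (x, y, z)) by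
        rw [hSd, sub_ext]; exact ind_congr (by simp [VdG]; tauto)]
      refine (mul_le_mul_of_nonneg_left (locw_le hμ hμ1 hF k _) (ind_nonneg _)).trans_eq ?_
      rw [lsum_ch, chG, prsAll_append, sum_comm]
      simp only [lsum_fan, sum_mul]; ring
  simp only [L.fn.add, L.fn.mul] at h6
  have a1 : F ≤ (F / μ) ^ 2 := by
    have : F ≤ F / μ := by rw [le_div_iff₀ hμ]; nlinarith
    nlinarith
  have a2 := mul_le_mul_of_nonneg_left (add_le_add (add_le_add h1 h2) h3) (sq_nonneg (F / μ))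
  have a3 := mul_le_mul_of_nonneg_left (add_le_add h4 h5) (by linarith : 0 ≤ F)
  have a4 := mul_le_mul_of_nonneg_right a1 (by positivity : 0 ≤ D ^ 2 * η * (Λ * q ^ 3))
  norm_num at a2 a3
  nlinarith

/-- Total collision weight. -/
noncomputable def CC (μ F : ℝ) (k : ℕ) (G : SimpleGraph V) : ℝ :=
  ∑ x, ∑ y, adj G x y * locw lineG (fun b j => F * GG lineG (chG G) μ k b j) (fanL G x y ∅) +
    2 * F * ∑ a, ind (VdG G a) * locw lineG (fun b j => F * GG lineG (chG G) μ k b j) (chG G a)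

theorem cc_bound (L : Law A ν q Λ D s0) {μ η F : ℝ} (hμ : 0 < μ) (hμD : 8 * D * μ ≤ 1) (hF : 1 ≤ F)
    {wb r : ℕ} (hη : wb * q + 1 / 2 ^ r ≤ η) (hW : 2 * r + 5 ≤ wb) (hS : 4 * r + 7 ≤ s0) (k : ℕ) :
    ν (CC μ F k) ≤ 312 * F * (F / μ) ^ 2 * D ^ 3 * η * Λ * ((Fintype.card V : ℝ) ^ 2 * q) := by
  have hq := L.q0
  have hΛ := L.L0
  have hD := L.D1
  have hη0 : 0 ≤ η := le_trans (by positivity) hη
  unfold CC
  simp only [L.fn.add, L.fn.mul, L.fn.sum]
  have h1 := sum_le_sum fun x (_ : x ∈ univ) => sum_le_sum fun y (_ : y ∈ univ) =>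
    loc_root L hμ hμD hF hη hW hS k x y
  have h2 := mul_le_mul_of_nonneg_left (sum_le_sum fun a (_ : a ∈ univ) => loc_ch L hμ hμD hF hη hW hS k a)
    (by linarith : 0 ≤ 2 * F)
  simp only [sum_const, card_univ, nsmul_eq_mul, Fintype.card_prod, Nat.cast_mul] at h1 h2
  set K := 104 * (F / μ) ^ 2 * D ^ 2 * η * Λ * ((Fintype.card V : ℝ) ^ 2 * q) with hK
  have hK0 : 0 ≤ K := by positivity
  have a1 := mul_le_mul_of_nonneg_left L.qD (by positivity : 0 ≤ 2 * F * K)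
  have a2 : K ≤ F * D * K := le_mul_of_one_le_left hK0 (one_le_mul_of_one_le_of_one_le hF hD)
  have e1 : (Fintype.card V : ℝ) * (Fintype.card V * (104 * (F / μ) ^ 2 * D ^ 2 * η * (Λ * q))) = K := by
    rw [hK]; ring
  have e2 : 2 * F * ((Fintype.card V : ℝ) * (Fintype.card V * Fintype.card V) *
    (104 * (F / μ) ^ 2 * D ^ 2 * η * (Λ * q ^ 3))) = 2 * F * K * (Fintype.card V * q ^ 2) := by rw [hK]; ring
  have e3 : 312 * F * (F / μ) ^ 2 * D ^ 3 * η * Λ * ((Fintype.card V : ℝ) ^ 2 * q) = 3 * (F * D * K) := by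
    rw [hK]; ring
  rw [e3]; linarith

end Vale.Agent.P046
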