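import Vale.Agent.P046.Phase2

/-! Link with the law of the process, and combination of the two phases. -/

set_option linter.unusedSectionVars false

open Finset Vale.Agent.P044 MeasureTheory

namespace Vale.Agent.P046

variable {V : Type} [Fintype V] [DecidableEq V]

lemma law_eq (k : ℕ) (G : SimpleGraph V) (m : ℕ) :
    (runLaw k G m).toReal = ex (fun j => ind (m = j)) k G := by
  have hp : ∀ j : ℕ, (PMF.pure j m).toReal = ind (m = j) := fun j => by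
    rw [PMF.pure_apply]; by_cases h : m = j <;> simp [ind, h]
  induction k generalizing G with
  | zero => exact hp _
  | succ k ih =>
    rw [runLaw, ex_succ]
    split_ifs with h
    · rw [PMF.bind_apply, tsum_fintype, ENNReal.toReal_sum fun T _ =>
        ENNReal.mul_ne_top (PMF.apply_ne_top _ _) (PMF.apply_ne_top _ _), sum_div,
        ← sum_subset (subset_univ (triangles G)) fun T _ hT => by
          rw [PMF.uniformOfFinset_apply_of_notMem h hT, zero_mul, ENNReal.toReal_zero]]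
      refine sum_congr rfl fun T hT => ?_
      rw [PMF.uniformOfFinset_apply_of_mem h hT, ENNReal.toReal_mul, ih, ENNReal.toReal_inv,
        ENNReal.toReal_natCast, div_eq_inv_mul]
    · exact hp _

lemma ex_lin (φ : ℕ → ℝ) (k : ℕ) (G : SimpleGraph V) :
    ∑ m ∈ range (Fintype.card V ^ 2 + 1), ex (fun j => ind (m = j)) k G * φ m = ex φ k G := by
  have hp : ∀ G : SimpleGraph V, ∑ m ∈ range (Fintype.card V ^ 2 + 1), ind (m = G.edgeSet.ncard) * φ m =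
      φ G.edgeSet.ncard := fun G => by
    rw [sum_eq_single_of_mem G.edgeSet.ncard (mem_range.2 (Nat.lt_succ_of_le (ncard_le G)))
      fun b _ hb => by rw [ind_neg hb, zero_mul], ind_pos rfl, one_mul]
  induction k generalizing G with
  | zero => exact hp G
  | succ k ih =>
    simp only [ex_succ]
    split_ifs with h
    · simp only [← ih, div_mul_eq_mul_div, ← sum_div, sum_mul]
      rw [sum_comm]
    · exact hp G

lemma law_zero (k : ℕ) (G : SimpleGraph V) {m : ℕ} (hm : Fintype.card V ^ 2 < m) : runLaw k G m = 0 := by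
  have h := ex_bd (V := V) (φ := fun j => ind (m = j)) (M := 0)
    (fun j hj => by rw [ind_neg (by omega)]; exact ⟨le_rfl, le_rfl⟩) k G
  rw [← law_eq] at h
  exact ((ENNReal.toReal_eq_zero_iff _).1 (le_antisymm h.2 h.1)).resolve_right (PMF.apply_ne_top _ _)

lemma law_int (φ : ℕ → ℝ) (k : ℕ) (G : SimpleGraph V) : Integrable φ (runLaw k G).toMeasure := by
  refine Integrable.of_bound Measurable.of_discrete.aestronglyMeasurable
    (∑ m ∈ range (Fintype.card V ^ 2 + 1), ‖φ m‖) ?_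
  rw [ae_iff, PMF.toMeasure_apply_eq_zero_iff _ MeasurableSet.of_discrete, Set.disjoint_left]
  intro m hm H
  refine H (single_le_sum (f := fun m => ‖φ m‖) (fun _ _ => norm_nonneg _) (mem_range.2 ?_))
  by_contra hc
  exact hm (law_zero k G (by omega))

lemma law_integral (φ : ℕ → ℝ) (k : ℕ) (G : SimpleGraph V) :
    ∫ m, φ m ∂(runLaw k G).toMeasure = ex φ k G := by
  rw [PMF.integral_eq_tsum _ _ (law_int φ k G), tsum_eq_sum (s := range (Fintype.card V ^ 2 + 1))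
    fun m hm => by rw [law_zero k G (by simpa using hm)]; simp, ← ex_lin]
  simp only [law_eq, smul_eq_mul]

lemma qs_inv {N h : ℝ} (hN : 0 ≤ N) (h0 : 0 ≤ h) (h1 : h * N ≤ 1 / 8) (i : ℕ) :
    (1 + 2 * h * N * i) * qs N h i ^ 2 ≤ 1 := by
  induction i with
  | zero => simp [qs]
  | succ i ih =>
    have hu := us_bd hN h0 h1 i
    simp only [qs]
    set u := h * (N * qs N h i ^ 2) with hud
    have e : (1 + 2 * h * N * ((i + 1 : ℕ) : ℝ)) * (qs N h i * (1 - u)) ^ 2 =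
      ((1 + 2 * h * N * i) * qs N h i ^ 2 + 2 * u) * (1 - u) ^ 2 := by rw [hud]; push_cast; ring
    rw [e]
    refine (mul_le_mul_of_nonneg_right (add_le_add ih le_rfl) (sq_nonneg _)).trans ?_
    nlinarith [mul_nonneg (mul_nonneg hu.1 hu.1) (by linarith : 0 ≤ 3 - 2 * u)]

lemma exists_I {n : ℕ} {D0 : ℝ} (hN : (8 : ℝ) ≤ n) (hD : 1 ≤ D0) (hD' : 2 * D0 < n) :
    ∃ i : ℕ, i + 1 ≤ n ^ 3 ∧ D0 ≤ n * qs n (1 / n ^ 3) (i + 1) ^ 2 ∧ n * qs n (1 / n ^ 3) (i + 1) ^ 2 ≤ 2 * D0 := by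
  have hN0 : (0 : ℝ) < n := by linarith
  have h0 : (0 : ℝ) ≤ 1 / n ^ 3 := by positivity
  have h1 : (1 : ℝ) / n ^ 3 * n ≤ 1 / 8 := by
    rw [show (1 : ℝ) / n ^ 3 * n = 1 / n ^ 2 by field_simp]
    exact one_div_le_one_div_of_le (by norm_num) (by nlinarith)
  have hex : n * qs n (1 / n ^ 3) (n ^ 3) ^ 2 ≤ 2 * D0 := by
    have := qs_inv hN0.le h0 h1 (n ^ 3)
    rw [show 2 * (1 / (n : ℝ) ^ 3) * n * ((n ^ 3 : ℕ) : ℝ) = 2 * n by push_cast; field_simp] at this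
    nlinarith [sq_nonneg (qs n (1 / n ^ 3) (n ^ 3))]
  classical
  have hP : ∃ i, n * qs n (1 / n ^ 3) i ^ 2 ≤ 2 * D0 := ⟨_, hex⟩
  have h2 := Nat.find_spec hP
  have h3 := Nat.find_min' hP hex
  obtain ⟨i, hi⟩ : ∃ i, Nat.find hP = i + 1 := Nat.exists_eq_succ_of_ne_zero fun h => by
    rw [h] at h2; simp only [qs] at h2; linarith
  have h4 := not_le.1 (Nat.find_min hP (show i < Nat.find hP by omega))
  rw [hi] at h2 h3
  refine ⟨i, h3, ?_, h2⟩
  have hu := us_bd hN0.le h0 h1 i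
  simp only [qs]
  have a1 : 1 / 2 ≤ (1 - 1 / (n : ℝ) ^ 3 * (n * qs n (1 / n ^ 3) i ^ 2)) ^ 2 := by nlinarith
  rw [mul_pow, ← mul_assoc]
  nlinarith

theorem combine {h ζ c e s D0 E0 E β γ T wb ε η q : ℝ} {r m s0 J i u r' : ℕ} (hh : Hok V h)
    (hN : 8 ≤ (Fintype.card V : ℝ))
    (hζN : 2 / (Fintype.card V : ℝ) ≤ ζ) (hζ : ζ ≤ 1 / 2) (hc0 : 0 ≤ c) (he : 0 < e)
    (hc : c + 2 ^ (r + 2) * ζ ≤ e ^ 2 ^ (r + 2)) (hm : Even (m + 1)) (hs : 0 < s) (hs1 : s ≤ 1)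
    (hΓ : 8 * 16 ^ (m + 1) * (2 * e ^ 2 + 8 * ζ ^ 2) ≤ (s ^ 2 / 4) ^ (m + 3))
    (hlam : 4 + 24 * ((m + 1 : ℕ) + 2) * s + 1 ≤ (m + 3 : ℕ)) (hs0 : (s0 : ℝ) ≤ Fintype.card V)
    (hJ : 2 * 2 ^ (r + 2) * J ≤ s0)
    (hD0 : 1 ≤ D0) (hlog : 2 * s0 * (ζ + s0 / D0) * Real.log (Fintype.card V) ≤ 1)
    (hE0 : 0 ≤ E0) (hE : 2500 / D0 ≤ E0 ^ 2)
    (hW : 2 ^ (r + 2) * ((2 ^ (r + 2) : ℝ) + 2 * s0) ^ 2 ^ (r + 2) *
      (1 / D0 + Fintype.card V / D0 ^ (2 ^ (r + 1) - 1)) ≤ c / 2)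
    (hq : q = qs (Fintype.card V) h (i + 1)) (hI : D0 ≤ Fintype.card V * q ^ 2)
    (P : BPar (Fintype.card V) (Fintype.card V * q ^ 2) (Fintype.card V * q) ζ s E β γ T wb (m + 1))
    (hwb : 0 < wb) (hε0 : 0 < ε) (hε : ε ≤ 1 / 2) (hζε : ζ ≤ ε) (hβ : β ≤ ε)
    (hD : 2 * (wb * (Fintype.card V * q ^ 2)) + 1 / (2 * (Fintype.card V * q ^ 2)) ≤ ε)
    (hη : u * q + 1 / 2 ^ r' ≤ η) (hu : 2 * r' + 5 ≤ u) (hS : 4 * r' + 7 ≤ s0) :
    fE (fun m => |m / (Fintype.card V * √(Fintype.card V)) - 1 / (2 * √2)|) (⊤ : SimpleGraph V) ≤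
      9 * ε + (550 * Real.exp (64 * T) ^ 2 * (Fintype.card V * q ^ 2) ^ 4 /
        (Fintype.card V * (Fintype.card V * q)) +
        30000 * Real.exp (64 * T) ^ 3 * (Fintype.card V * q ^ 2) ^ 6 * η) / ε +
      Fintype.card V * ((i + 1 : ℕ) * ((cP (m + 1) s + 1) * (Fintype.card V : ℝ) ^ 2 * (3 * E0 / ζ) ^ (m + 3) /
        s ^ (m + 3) + 3 * Fintype.card V * ((1 + c / 2) / (1 + c)) ^ J)) := by
  subst hq
  have hsm := hh.small hN
  have h0 : Gd h ζ c (r + 1) 0 (⊤ : SimpleGraph V) := Gd_zero _ hN hζN hc0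
  have a1 := fun j (hj : j ∈ range (i + 1)) => loss_bound hh hN hζN hζ hc0 he hc m hm hs hs1 hΓ hlam s0 J hs0
    hJ hD0 hlog hE0 hE hW (i + 1) hI j (mem_range.1 hj)
  have a2 := surv3 (c := c) (r := r + 1) hh hN hζN hc0 s0 hs0 hD0 hlog (i + 1) hI i (by omega)
  set N : ℝ := (Fintype.card V : ℝ) with hNd
  have hN0 : 0 < N := by linarith
  have hq := qs_bd hN0.le hh.1 hsm.2 (i + 1)
  have hs2 : (1 : ℝ) ≤ √2 := Real.one_le_sqrt.2 (by norm_num)
  have hsN : 2 ≤ √N := Real.le_sqrt_of_sq_le (by linarith)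
  have a3 := harm_le hh h0 (fE_pop (fun m => |m / (N * √N) - 1 / (2 * √2)|) h) (M := N) (fun G =>
    (ex_bd (fun m hm => ⟨abs_nonneg _, by
      have b1 : (m : ℝ) ≤ N ^ 2 := by rw [hNd]; exact_mod_cast hm
      have b2 : (m : ℝ) / (N * √N) ≤ N := by
        rw [div_le_iff₀ (by positivity)]; nlinarith [mul_le_mul_of_nonneg_left hsN (sq_nonneg N)]
      have b3 : 0 ≤ (m : ℝ) / (N * √N) := by positivity
      have b4 : 1 / (2 * √2) ≤ 1 := by rw [div_le_one (by positivity)]; linarith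
      have b5 : 0 ≤ 1 / (2 * √2) := by positivity
      rw [abs_le]; constructor <;> linarith⟩) _ G).2) (i + 1)
  have L : Law (Gd (V := V) h ζ c (r + 1) (i + 1)) (mu h (Gd h ζ c (r + 1)) (i + 1)) (qs N h (i + 1)) 3
      (N * qs N h (i + 1) ^ 2) s0 :=
    ⟨mu_fn hh h0 _, fun S hS => (mu_succ_le hh h0 i fun _ => ind_nonneg _).trans (a2 S hS), hq.1.le, hq.2,
      by norm_num, P.D1, le_rfl, fun G hG => hG.1.cdG (by linarith [P.D1]) P.z1⟩
  have a4 := phase2 L P (fun G hG => ⟨hG.1, linkP_of (adj01 G) hG.1 (by linarith [P.D1]) P.d0 hζ he (r + 1) hc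
    hG.2 m le_rfl⟩) hΓ hwb hε0 hε hζε hβ hD (Z := N * √N) (by positivity)
    (by rw [Real.sqrt_mul hN0.le, Real.sqrt_sq hq.1.le, mul_assoc, ← mul_assoc (√N), Real.mul_self_sqrt hN0.le])
    hη hu hS
  have a5 := sum_le_card_nsmul _ _ _ a1
  rw [card_range, nsmul_eq_mul] at a5
  linarith [mul_le_mul_of_nonneg_left a5 hN0.le]

end Vale.Agent.P046
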