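import Vale.Agent.P046.Comb

/-! Choice of parameters. -/

set_option linter.unusedSectionVars false

open Finset Filter Topology

namespace Vale.Agent.P046

lemma cpw {x K : ℝ} (hx : 1 ≤ x) {j a b : ℕ} (hK : K ≤ x ^ j) (h : j + a ≤ b) : K * x ^ a ≤ x ^ b :=
  (mul_le_mul_of_nonneg_right hK (by positivity)).trans (by rw [← pow_add]; exact pow_le_pow_right₀ hx h)

lemma dv {x K : ℝ} (hx : 1 ≤ x) {j b c : ℕ} (hK : K ≤ x ^ j) (h : j + c ≤ b) : K / x ^ b ≤ 1 / x ^ c := by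
  rw [div_le_div_iff₀ (by positivity) (by positivity), one_mul]; exact cpw hx hK h

lemma expT {x a : ℝ} (hx : 1 ≤ x) {b : ℕ} (h : a * 2049 ≤ b) : Real.exp (a * (2049 * Real.log x)) ≤ x ^ b := by
  have := Real.log_nonneg hx
  rw [← Real.exp_log (show 0 < x ^ b by positivity), Real.log_pow]
  exact Real.exp_le_exp.2 (by nlinarith)

lemma bpar {x s C D q : ℝ} {m : ℕ} (hm : m = 8190) (hs : s = 1 / 2000) (hx : 10 ^ 6 ≤ x)
    (hC : C = cP m s * (324 / s) ^ (m + 2)) (hCx : C < x) (hq : 0 < q) (hq1 : q ≤ 1)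
    (h1 : x ^ 4096 ≤ D) (h2 : D ≤ 2 * x ^ 4096) :
    BPar (x ^ 1048576) D (x ^ 1048576 * q) (1 / x ^ 1024) s (81 * (1 / x ^ 1024)) (1 / x ^ 512) (1 / x ^ 4000)
      (2049 * Real.log x) ((1 / x ^ 1024) ^ 2 / D) m := by
  have x1 : 1 ≤ x := by linarith
  have x0 : 0 < x := by linarith
  have hx' : ∀ K : ℝ, K ≤ 10 ^ 6 → K ≤ x ^ 1 := fun K hK => by rw [pow_one]; linarith
  have hD : 1 ≤ D := (one_le_pow₀ x1).trans h1
  have hs0 : 0 < s := by rw [hs]; norm_num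
  have b1 : 1 / x ^ 4000 ≤ 1 / x ^ 1024 := dv x1 (j := 0) (by simp) (by norm_num)
  have b2 : 1 / x ^ 1024 = (1 / x ^ 512) ^ 2 := by rw [div_pow, ← pow_mul]; norm_num
  have b3 : 324 / x ^ 512 ≤ 1 / x ^ 0 := dv x1 (hx' _ (by norm_num)) (by norm_num)
  have b4 : 0 < 1 / x ^ 4000 := by positivity
  have b5 : (1 / x ^ 1024) ^ 2 / D * D = (1 / x ^ 1024) ^ 2 := div_mul_cancel₀ _ (by positivity)
  have b0 : 0 < 1 / x ^ 512 := by positivity
  rw [pow_zero, div_one, div_eq_mul_one_div] at b3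
  have hN : 1 ≤ x ^ 1048576 := one_le_pow₀ x1
  refine ⟨hD, by positivity, mul_le_of_le_one_right (by positivity) hq1, hN, ?_, by rw [hm]; decide, hs0,
    by rw [hs]; norm_num, ?_, ?_, ?_, ?_, ?_, ?_, ?_, ?_, ?_⟩
  · rw [b2]; nlinarith
  · rw [b5, b2]
    have : (1 / x ^ 512) ^ 2 ≤ 1 / 2 := by nlinarith
    nlinarith [sq_nonneg (1 / x ^ 512)]
  · rw [show 2 * (2049 * Real.log x) = ((4098 : ℕ) : ℝ) * Real.log x by push_cast; ring, ← Real.log_pow,
      Real.exp_log (by positivity)]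
    linarith [cpw x1 (a := 4096) (b := 4098) (hx' 10 (by norm_num)) (by norm_num)]
  · have c1 := Real.log_le_sub_one_of_pos x0
    have c2 := cpw x1 (a := 1) (b := 2) (hx' 8196 (by norm_num)) (by norm_num)
    rw [pow_one] at c2
    exact (div_le_div₀ (by positivity) (by linarith) (by positivity) h1).trans
      (dv x1 (j := 2) le_rfl (by norm_num))
  · rw [b2] at b1; nlinarith
  · rw [b2] at b1 ⊢
    have c1 : 1 / x ^ 4000 ≤ 1 / x ^ 512 := by nlinarith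
    have c2 : (2 * (1 / x ^ 512) + 4 * (1 / x ^ 4000)) ^ 2 ≤ (6 * (1 / x ^ 512)) ^ 2 :=
      pow_le_pow_left₀ (by positivity) (by linarith) 2
    linarith
  · have c1 := cpw x1 (a := 4096) (b := 4097) (hx' 8 (by norm_num)) (by norm_num)
    have c2 : 4 * D / x ^ 8000 ≤ 1 / x ^ 1024 := dv x1 (j := 4097) (by linarith) (by norm_num)
    rw [div_pow, ← pow_mul, one_pow, mul_one_div]
    linarith
  · rw [b5]; nlinarith [sq_nonneg (1 / x ^ 1024)]
  · rw [b2]; nlinarith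
  · have c1 := expT (a := 4 + 24 * (m + 2) * s) (b := 211047) x1 (by rw [hm, hs]; norm_num)
    have c0 : 0 ≤ cP m s := by unfold cP; have := one_le_kT m; positivity
    have c2 : (81 * (1 / x ^ 1024)) ^ (m + 2) = (324 / s) ^ (m + 2) * (1 / x ^ 512) ^ (m + 2) *
        (s ^ (m + 2) * (1 / x ^ 512 / 4) ^ (m + 2)) := by
      rw [← mul_pow, ← mul_pow, ← mul_pow, b2]; congr 1; field_simp; norm_num
    have c3 : (1 / x ^ 512) ^ (m + 2) = 1 / x ^ 4194304 := by rw [div_pow, ← pow_mul, one_pow, hm]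
    have c4 : x ^ 1048576 * x ^ 1048576 * x ^ 211047 * x ^ 1 / x ^ 4194304 ≤ 1 / x ^ 0 := by
      rw [← pow_add, ← pow_add, ← pow_add]; exact dv x1 le_rfl (by norm_num)
    rw [pow_zero, div_one, pow_one] at c4
    refine lt_of_lt_of_le ?_ (mul_le_of_le_one_left (by positivity) c4)
    calc _ ≤ x ^ 1048576 * (cP m s * x ^ 1048576 * (81 * (1 / x ^ 1024)) ^ (m + 2) * x ^ 211047) := by gcongr
      _ = C * (x ^ 1048576 * x ^ 1048576 * x ^ 211047 / x ^ 4194304 *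
          (s ^ (m + 2) * (1 / x ^ 512 / 4) ^ (m + 2))) := by
        rw [c2, c3, hC]
        generalize (324 / s) ^ (m + 2) = a
        generalize s ^ (m + 2) * (1 / x ^ 512 / 4) ^ (m + 2) = b
        generalize x ^ 1048576 = N
        generalize x ^ 211047 = X
        generalize x ^ 4194304 = Y
        ring
      _ < x * (x ^ 1048576 * x ^ 1048576 * x ^ 211047 / x ^ 4194304 *
          (s ^ (m + 2) * (1 / x ^ 512 / 4) ^ (m + 2))) := mul_lt_mul_of_pos_right hCx (by positivity)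
      _ = _ := by
        generalize s ^ (m + 2) * (1 / x ^ 512 / 4) ^ (m + 2) = b
        generalize x ^ 1048576 = N
        generalize x ^ 211047 = X
        generalize x ^ 4194304 = Y
        ring

lemma out2 {x D q : ℝ} (hx : 10 ^ 6 ≤ x) (hq : 0 < q) (hq1 : q ≤ 1) (hD : D = x ^ 1048576 * q ^ 2)
    (h1 : x ^ 4096 ≤ D) (h2 : D ≤ 2 * x ^ 4096) :
    (550 * Real.exp (64 * (2049 * Real.log x)) ^ 2 * D ^ 4 / (x ^ 1048576 * (x ^ 1048576 * q)) +
      30000 * Real.exp (64 * (2049 * Real.log x)) ^ 3 * D ^ 6 * (2 * (1 / x ^ 500000))) / (1 / x) ≤ 2 / x := by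
  have x1 : 1 ≤ x := by linarith
  have x0 : 0 < x := by linarith
  have hx' : ∀ K : ℝ, K ≤ 10 ^ 6 → K ≤ x ^ 1 := fun K hK => by rw [pow_one]; linarith
  have c1 := expT (a := 64) (b := 131136) x1 (by norm_num)
  have c2 := h2.trans (cpw x1 (a := 4096) (b := 4097) (hx' 2 (by norm_num)) (by norm_num))
  have hD0 : 0 ≤ D := le_trans (by positivity) h1
  have c3 : 1 ≤ x ^ 1048576 * q := ((one_le_pow₀ x1).trans (h1.trans_eq hD)).trans
    (mul_le_mul_of_nonneg_left (by nlinarith) (by positivity))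
  have c4 : 550 * Real.exp (64 * (2049 * Real.log x)) ^ 2 * D ^ 4 / (x ^ 1048576 * (x ^ 1048576 * q)) ≤
      1 / x ^ 2 := by
    refine (div_le_div₀ (c := x ^ 1 * (x ^ 131136) ^ 2 * (x ^ 4097) ^ 4) (by positivity) ?_ (by positivity)
      (le_mul_of_one_le_right (by positivity) c3)).trans ?_
    · gcongr; exact hx' _ (by norm_num)
    · rw [← pow_mul, ← pow_mul, ← pow_add, ← pow_add]; exact dv x1 le_rfl (by norm_num)
  have c5 : 30000 * Real.exp (64 * (2049 * Real.log x)) ^ 3 * D ^ 6 * (2 * (1 / x ^ 500000)) ≤ 1 / x ^ 2 := by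
    calc _ = 60000 * Real.exp (64 * (2049 * Real.log x)) ^ 3 * D ^ 6 / x ^ 500000 := by
          generalize x ^ 500000 = Y
          ring
      _ ≤ x ^ 1 * (x ^ 131136) ^ 3 * (x ^ 4097) ^ 6 / x ^ 500000 := by gcongr; exact hx' _ (by norm_num)
      _ ≤ _ := by rw [← pow_mul, ← pow_mul, ← pow_add, ← pow_add]; exact dv x1 le_rfl (by norm_num)
  refine (div_le_div_of_nonneg_right (add_le_add c4 c5) (by positivity)).trans_eq ?_
  field_simp; ring

lemma eta_ok {x q : ℝ} {J : ℕ} (hx : 10 ^ 6 ≤ x) (hq : 0 < q) (h2 : x ^ 1048576 * q ^ 2 ≤ 2 * x ^ 4096)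
    (hJ : (J : ℝ) ≤ x + 1) (h3 : x ^ 500000 * (1 / 2) ^ J ≤ 1) :
    ((2 * J + 5 : ℕ) : ℝ) * q + 1 / 2 ^ J ≤ 2 * (1 / x ^ 500000) := by
  have x1 : 1 ≤ x := by linarith
  have x0 : 0 < x := by linarith
  have c1 : q ≤ 1 / x ^ 500002 := by
    refine (pow_le_pow_iff_left₀ hq.le (by positivity) two_ne_zero).1 ?_
    rw [div_pow, ← pow_mul, one_pow]
    refine le_trans ?_ (dv x1 (j := 4097) (b := 1048576) le_rfl (by norm_num))
    rw [le_div_iff₀ (by positivity), mul_comm]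
    exact h2.trans (cpw x1 (j := 1) (by rw [pow_one]; linarith) (by norm_num))
  have c2 : ((2 * J + 5 : ℕ) : ℝ) ≤ x ^ 2 := by push_cast; nlinarith
  have c3 := (mul_le_mul c2 c1 hq.le (by positivity)).trans
    ((mul_one_div _ _).trans_le (dv x1 (c := 500000) le_rfl (by norm_num)))
  have c4 : 1 / (2 : ℝ) ^ J ≤ 1 / x ^ 500000 := by
    rw [le_div_iff₀ (by positivity), mul_comm, ← one_div_pow]; exact h3
  linarith

lemma out1 {x s C K ρ : ℝ} {p J I : ℕ} (hp : p = 8192) (hx : 10 ^ 6 ≤ x) (hs : 0 < s) (hK : 0 ≤ K)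
    (hC : C = K * 150 ^ p / s ^ p) (hCx : C ≤ x) (hI : (I : ℝ) ≤ (x ^ 1048576) ^ 3) (hρ : 0 ≤ ρ)
    (h3 : x ^ 6000000 * ρ ^ J ≤ 1) :
    x ^ 1048576 * (I * (K * (x ^ 1048576) ^ 2 * (3 * (50 / x ^ 2048) / (1 / x ^ 1024)) ^ p / s ^ p +
      3 * x ^ 1048576 * ρ ^ J)) ≤ 2 / x := by
  have x1 : 1 ≤ x := by linarith
  have x0 : 0 < x := by linarith
  have e1 : 3 * (50 / x ^ 2048) / (1 / x ^ 1024) = 150 / x ^ 1024 := by
    rw [show x ^ 2048 = x ^ 1024 * x ^ 1024 by rw [← pow_add]]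
    have : 0 < x ^ 1024 := by positivity
    generalize x ^ 1024 = y at *
    field_simp; norm_num
  have e2 : (x ^ 1024) ^ p = x ^ 8388608 := by rw [← pow_mul, hp]
  have c1 : x ^ 1 * (x ^ 1048576) ^ 6 / x ^ 8388608 ≤ 1 / x ^ 1 := by
    rw [← pow_mul, ← pow_add]; exact dv x1 le_rfl (by norm_num)
  have c2 : 3 * (x ^ 1048576) ^ 5 / x ^ 6000000 ≤ 1 / x ^ 1 := by
    rw [← pow_mul]
    exact dv x1 (j := 5242881) (cpw x1 (j := 1) (by rw [pow_one]; linarith) (by norm_num)) (by norm_num)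
  have c3 : ρ ^ J ≤ 1 / x ^ 6000000 := by rw [le_div_iff₀ (by positivity), mul_comm]; exact h3
  rw [pow_one] at c1 c2
  rw [e1, div_pow, e2]
  have hN : 0 < x ^ 1048576 := by positivity
  have hY : 0 < x ^ 8388608 := by positivity
  have hZ : 0 < x ^ 6000000 := by positivity
  generalize x ^ 1048576 = N at *
  generalize x ^ 8388608 = Y at *
  generalize x ^ 6000000 = Z at *
  calc _ ≤ N * (N ^ 3 * (K * N ^ 2 * (150 ^ p / Y) / s ^ p + 3 * N * (1 / Z))) := by gcongr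
    _ = C * N ^ 6 / Y + 3 * N ^ 5 / Z := by rw [hC]; ring
    _ ≤ x * N ^ 6 / Y + 3 * N ^ 5 / Z := by gcongr
    _ ≤ 1 / x + 1 / x := add_le_add c1 c2
    _ = _ := by ring

lemma in1 {x c : ℝ} {s0 r : ℕ} (hr : r = 8) (hx : 10 ^ 6 ≤ x) (hc : 0 < c) (hcx : 4096 / c ≤ x)
    (hs0 : (s0 : ℝ) ≤ 5000 * x) :
    2 * s0 * (1 / x ^ 1024 + s0 / x ^ 4096) * Real.log (x ^ 1048576) ≤ 1 ∧
    2 ^ (r + 2) * ((2 ^ (r + 2) : ℝ) + 2 * s0) ^ 2 ^ (r + 2) *
      (1 / x ^ 4096 + x ^ 1048576 / (x ^ 4096) ^ (2 ^ (r + 1) - 1)) ≤ c / 2 := by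
  have x1 : 1 ≤ x := by linarith
  have x0 : 0 < x := by linarith
  have c1 : (s0 : ℝ) ≤ x ^ 2 := by nlinarith
  constructor
  · have c2 : s0 / x ^ 4096 ≤ 1 / x ^ 1024 := dv x1 c1 (by norm_num)
    have c3 : Real.log (x ^ 1048576) ≤ x ^ 3 := by
      rw [Real.log_pow]
      have := Real.log_le_sub_one_of_pos x0
      push_cast; nlinarith
    have c4 : 0 ≤ Real.log (x ^ 1048576) := Real.log_nonneg (one_le_pow₀ x1)
    calc _ ≤ 2 * x ^ 2 * (1 / x ^ 1024 + 1 / x ^ 1024) * x ^ 3 := by gcongr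
      _ = 4 * x ^ 5 / x ^ 1024 := by
        generalize x ^ 1024 = y
        ring
      _ ≤ 1 / x ^ 0 := dv x1 (j := 6) (cpw x1 (j := 1) (by rw [pow_one]; linarith) (by norm_num)) (by norm_num)
      _ = 1 := by simp
  · have e1 : (2 : ℝ) ^ (r + 2) = 1024 := by rw [hr]; norm_num
    have e2 : 2 ^ (r + 2) = 1024 := by rw [hr]; norm_num
    have e3 : 2 ^ (r + 1) - 1 = 511 := by rw [hr]; norm_num
    rw [e1, e2, e3, ← pow_mul]
    have c2 : x ^ 1048576 / x ^ (4096 * 511) ≤ 1 / x ^ 4096 := dv x1 le_rfl (by norm_num)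
    have c3 : (1024 + 2 * s0 : ℝ) ≤ x ^ 2 := by nlinarith
    have c4 : x ^ (2 * 1024) / x ^ 4096 ≤ 1 / x ^ 1 := dv x1 le_rfl (by norm_num)
    rw [div_le_iff₀ hc] at hcx
    calc _ ≤ 1024 * (x ^ 2) ^ 1024 * (1 / x ^ 4096 + 1 / x ^ 4096) := by gcongr
      _ = 2048 * (x ^ (2 * 1024) / x ^ 4096) := by
        rw [← pow_mul]
        generalize x ^ (2 * 1024) = y
        generalize x ^ 4096 = z
        ring
      _ ≤ 2048 * (1 / x ^ 1) := by gcongr
      _ ≤ _ := by rw [pow_one, mul_one_div, div_le_iff₀ x0]; linarith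

lemma main_bound {n r m : ℕ} {x s e c : ℝ} (hr : r = 8) (hm : m = 8189) (hs : s = 1 / 2000) (he : 0 < e)
    (hc : c = e ^ 2 ^ (r + 2) / 2) (hΓ : 8 * 16 ^ (m + 1) * (4 * e ^ 2) ≤ (s ^ 2 / 4) ^ (m + 3))
    (hn : (n : ℝ) = x ^ 1048576) (hx : 10 ^ 6 ≤ x) (h1 : 4096 / c ≤ x) (h2 : 2 / e ≤ x)
    (h3 : cP (m + 1) s * (324 / s) ^ (m + 1 + 2) < x) (h4 : (cP (m + 1) s + 1) * 150 ^ (m + 3) / s ^ (m + 3) ≤ x)
    (h5 : x ^ 500000 * (1 / 2) ^ ⌈x⌉₊ ≤ 1) (h6 : x ^ 6000000 * ((1 + c / 2) / (1 + c)) ^ ⌈x⌉₊ ≤ 1) :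
    fE (fun k => |k / (n * √n) - 1 / (2 * √2)|) (⊤ : SimpleGraph (Fin n)) ≤ 13 / x := by
  have x1 : 1 ≤ x := by linarith
  have x0 : 0 < x := by linarith
  have hc0 : 0 < c := by rw [hc]; positivity
  have hs0 : 0 < s := by rw [hs]; norm_num
  have hx' : ∀ K : ℝ, K ≤ 10 ^ 6 → K ≤ x ^ 1 := fun K hK => by rw [pow_one]; linarith
  have hN : (Fintype.card (Fin n) : ℝ) = x ^ 1048576 := by rw [Fintype.card_fin, hn]
  have n8 : 8 ≤ x ^ 1048576 := (hx' 8 (by norm_num)).trans (pow_le_pow_right₀ x1 (by norm_num))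
  have d1 : 1 ≤ x ^ 4096 := one_le_pow₀ x1
  obtain ⟨i, i1, i2, i3⟩ := exists_I (n := n) (D0 := x ^ 4096) (by rwa [hn]) d1 (by
    rw [hn]; linarith [cpw x1 (a := 4096) (b := 1048576) (hx' 3 (by norm_num)) (by norm_num)])
  have hh : Hok (Fin n) (1 / (n : ℝ) ^ 3) := ⟨by positivity, by
    rw [Fintype.card_fin, one_div_mul_cancel (by rw [hn]; positivity)]⟩
  have hq := qs_bd (Nat.cast_nonneg n) hh.1 (by simpa using (hh.small (by rwa [hN])).2) (i + 1)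
  set q := qs n (1 / (n : ℝ) ^ 3) (i + 1) with hqd
  have hJ : (⌈x⌉₊ : ℝ) ≤ x + 1 := (Nat.ceil_lt_add_one x0.le).le
  have s5 : ((2048 * ⌈x⌉₊ + 7 : ℕ) : ℝ) ≤ 5000 * x := by push_cast; linarith
  have z1 : 1 / x ^ 1024 ≤ 1 / x := by simpa using dv x1 (K := 1) (j := 0) (b := 1024) (c := 1) (by simp) (by norm_num)
  have z2 : 1 / x ^ 512 ≤ 1 / x := by simpa using dv x1 (K := 1) (j := 0) (b := 512) (c := 1) (by simp) (by norm_num)
  have z3 : 1 / x ≤ 1 / 4 := one_div_le_one_div_of_le (by norm_num) (by linarith)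
  have z0 : 0 < 1 / x ^ 1024 := by positivity
  have I1 := in1 hr hx hc0 h1 s5
  rw [hn] at i2 i3
  have P := bpar (m := m + 1) (by rw [hm]) hs hx rfl h3 hq.1 hq.2 i2 i3
  have dp := lt_of_lt_of_le one_pos P.D1
  have H := combine (V := Fin n) (ζ := 1 / x ^ 1024) (c := c) (e := e) (s := s) (D0 := x ^ 4096)
    (E0 := 50 / x ^ 2048) (ε := 1 / x) (η := 2 * (1 / x ^ 500000)) (q := q) (r := r) (m := m)
    (s0 := 2048 * ⌈x⌉₊ + 7) (J := ⌈x⌉₊) (i := i) (u := 2 * ⌈x⌉₊ + 5) (r' := ⌈x⌉₊) hh (by rwa [hN])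
    (by rw [hN]; exact dv x1 (hx' 2 (by norm_num)) (by norm_num)) (by linarith) hc0.le he ?_ (by rw [hm]; decide)
    hs0 (by rw [hs]; norm_num) ?_ (by rw [hm, hs]; norm_num)
    (by rw [hN]; exact s5.trans (by
      simpa using cpw x1 (a := 1) (b := 1048576) (hx' 5000 (by norm_num)) (by norm_num)))
    (by rw [hr]; omega) d1 (by rw [hN]; exact I1.1) (by positivity)
    (by rw [div_pow, ← pow_mul]; norm_num) (by rw [hN]; exact I1.2) (by rw [Fintype.card_fin])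
    (by rw [hN]; exact i2) (by rw [hN]; exact P) (div_pos (pow_pos z0 2) dp) (by positivity) (by linarith) z1 z2 ?_
    (eta_ok hx hq.1 i3 hJ h5) le_rfl (by omega)
  · have o1 := out1 (p := m + 3) (J := ⌈x⌉₊) (I := i + 1) (by rw [hm]) hx hs0 (K := cP (m + 1) s + 1) (by
      unfold cP; have := one_le_kT (m + 1); positivity) rfl h4 (by rw [← hn]; exact_mod_cast i1)
      (by positivity) h6
    have o2 := out2 hx hq.1 hq.2 rfl i2 i3
    rw [hN] at H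
    rw [hn]
    have : 13 / x = 9 * (1 / x) + 2 / x + 2 / x := by ring
    linarith
  · have e1 : (2 : ℝ) ^ (r + 2) = 1024 := by rw [hr]; norm_num
    have a1 : 4096 * (1 / x) ≤ c := by
      rw [div_le_iff₀ hc0] at h1; rw [mul_one_div, div_le_iff₀ x0]; linarith
    rw [e1]; linarith
  · refine le_trans (mul_le_mul_of_nonneg_left ?_ (by positivity)) hΓ
    have a1 : 2 * (1 / x) ≤ e := by
      rw [div_le_iff₀ he] at h2; rw [mul_one_div, div_le_iff₀ x0]; linarith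
    have a2 := pow_le_pow_left₀ (by positivity) (show 2 * (1 / x ^ 1024) ≤ e by linarith) 2
    linarith
  · rw [hN, div_mul_cancel₀ _ dp.ne']
    have a1 : 1 / (2 * (x ^ 1048576 * q ^ 2)) ≤ 1 / (2 * x) := one_div_le_one_div_of_le (by positivity) (by
      have : x ^ 1 ≤ x ^ 4096 := pow_le_pow_right₀ x1 (by norm_num)
      rw [pow_one] at this; linarith)
    have a2 : 1 / (2 * x) = 1 / x / 2 := by ring
    nlinarith

lemma ev_geo (K : ℕ) {ρ : ℝ} (h0 : 0 ≤ ρ) (h1 : ρ < 1) : ∀ᶠ x : ℝ in atTop, x ^ K * ρ ^ ⌈x⌉₊ ≤ 1 := by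
  have h := (tendsto_pow_const_mul_const_pow_of_abs_lt_one K (r := ρ) (by rwa [abs_of_nonneg h0])).comp
    (tendsto_nat_ceil_atTop (α := ℝ))
  filter_upwards [h.eventually (ge_mem_nhds one_pos), eventually_ge_atTop 0] with x hx h2
  exact (mul_le_mul_of_nonneg_right (pow_le_pow_left₀ h2 (Nat.le_ceil x) K) (by positivity)).trans hx

theorem l1_conv : Tendsto (fun n : ℕ => fE (fun k => |k / (n * √n) - 1 / (2 * √2)|)
    (⊤ : SimpleGraph (Fin n))) atTop (𝓝 0) := by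
  obtain ⟨r, hr⟩ : ∃ r : ℕ, r = 8 := ⟨_, rfl⟩
  obtain ⟨m, hm⟩ : ∃ m : ℕ, m = 8189 := ⟨_, rfl⟩
  obtain ⟨s, hs⟩ : ∃ s : ℝ, s = 1 / 2000 := ⟨_, rfl⟩
  have hs0 : 0 < s := by rw [hs]; norm_num
  obtain ⟨e, he, hΓ⟩ : ∃ e : ℝ, 0 < e ∧ 8 * 16 ^ (m + 1) * (4 * e ^ 2) ≤ (s ^ 2 / 4) ^ (m + 3) := by
    have ha : (0 : ℝ) < 8 * 16 ^ (m + 1) := by positivity
    have hb : 0 < (s ^ 2 / 4) ^ (m + 3) := by positivity
    generalize (8 : ℝ) * 16 ^ (m + 1) = a at *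
    generalize (s ^ 2 / 4) ^ (m + 3) = b at *
    have h0 : 0 < min 1 (b / (4 * a)) := lt_min one_pos (by positivity)
    refine ⟨_, h0, ?_⟩
    have h1 := min_le_left 1 (b / (4 * a))
    have h2 := (le_div_iff₀ (by positivity)).1 (min_le_right 1 (b / (4 * a)))
    nlinarith [mul_le_mul_of_nonneg_left h1 (mul_pos ha h0).le]
  obtain ⟨c, hc⟩ : ∃ c : ℝ, c = e ^ 2 ^ (r + 2) / 2 := ⟨_, rfl⟩
  have hc0 : 0 < c := by rw [hc]; positivity
  have hx : Tendsto (fun n : ℕ => (n : ℝ) ^ (((1048576 : ℕ) : ℝ)⁻¹)) atTop atTop :=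
    (tendsto_rpow_atTop (by positivity)).comp tendsto_natCast_atTop_atTop
  refine squeeze_zero' (Eventually.of_forall fun n => (ex_bd (M := ∑ k ∈ range (Fintype.card (Fin n) ^ 2 + 1),
    |(k : ℝ) / (n * √n) - 1 / (2 * √2)|) (fun k hk => ⟨abs_nonneg _, single_le_sum
      (f := fun k : ℕ => |(k : ℝ) / (n * √n) - 1 / (2 * √2)|) (fun _ _ => abs_nonneg _)
        (mem_range.2 (by omega))⟩) _ _).1) ?_ (tendsto_const_nhds.div_atTop (a := 13) hx)
  filter_upwards [hx.eventually (eventually_ge_atTop (10 ^ 6)), hx.eventually (eventually_ge_atTop (4096 / c)),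
    hx.eventually (eventually_ge_atTop (2 / e)),
    hx.eventually (eventually_gt_atTop (cP (m + 1) s * (324 / s) ^ (m + 1 + 2))),
    hx.eventually (eventually_ge_atTop ((cP (m + 1) s + 1) * 150 ^ (m + 3) / s ^ (m + 3))),
    hx.eventually (ev_geo 500000 (ρ := 1 / 2) (by norm_num) (by norm_num)),
    hx.eventually (ev_geo 6000000 (ρ := (1 + c / 2) / (1 + c)) (by positivity)
      (by rw [div_lt_one (by linarith)]; linarith))] with n h0 h1 h2 h3 h4 h5 h6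
  exact main_bound hr hm hs he hc hΓ (Real.rpow_inv_natCast_pow (Nat.cast_nonneg n) (by norm_num)).symm
    h0 h1 h2 h3 h4 h5 h6

end Vale.Agent.P046
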