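import Vale.Agent.P046.Wheel

/-! The first phase: the graph stays nearly regular with expanding links. -/

set_option linter.unusedSectionVars false

open Finset Vale.Agent.P044

namespace Vale.Agent.P046

variable {V : Type*} [Fintype V] [DecidableEq V]

noncomputable def del (G : SimpleGraph V) (Δ : ℝ) (x : V) : ℝ := dg (adj G) x / Δ - 1

noncomputable def chi (G : SimpleGraph V) (D Δ : ℝ) (x y : V) : ℝ :=
  (cod (adj G) x y / D - 1) - del G Δ x - del G Δ y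

lemma comp {Ω : Type*} [Fintype Ω] (wt : Ω → ℝ) (hw : ∀ ω, 0 ≤ wt ω) (hw1 : ∑ ω, wt ω = 1)
    (M : Ω → ℝ) {M0 S S' u D : ℝ} (hj : ∀ ω, wt ω ≠ 0 → 0 ≤ M0 - M ω ∧ M0 - M ω ≤ 3)
    (hm : ∑ ω, wt ω * (M0 - M ω) ≤ 8 * u * S) (h0 : 0 ≤ M0) (h2 : M0 ≤ 2 * S) (hS' : 0 < S')
    (h3 : S ≤ (1 + 3 * u) * S') (h4 : S' ≤ S) (hu : 0 ≤ u) (hu8 : u ≤ 1 / 8) (hD : 1 ≤ D)
    (hDS : D ≤ S) (huD : u ≤ 1 / D) :
    (∀ ω, wt ω ≠ 0 → |(M ω / S' - 1) - (M0 / S - 1)| ≤ 12 / D) ∧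
      ∑ ω, wt ω * ((M ω / S' - 1) - (M0 / S - 1)) ^ 2 ≤ 264 * (u / D) := by
  have hS : 0 < S := hS'.trans_le h4
  have hD0 : 0 < D := by linarith
  have e : ∀ ω, (M ω / S' - 1) - (M0 / S - 1) = (M0 / S' - M0 / S) - (M0 - M ω) / S' := fun ω => by ring
  have a1 : 0 ≤ M0 / S' - M0 / S := sub_nonneg.2 (div_le_div_of_nonneg_left h0 hS' h4)
  have a2 : M0 / S' - M0 / S ≤ 6 * u := by
    have b1 : M0 / S' - M0 / S = M0 / S * (S / S' - 1) := by field_simp
    have b2 : M0 / S ≤ 2 := by rwa [div_le_iff₀ hS]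
    have b3 : S / S' - 1 ≤ 3 * u := by rw [sub_le_iff_le_add, div_le_iff₀ hS']; linarith
    have b4 : 0 ≤ S / S' - 1 := by rw [sub_nonneg, one_le_div hS']; exact h4
    rw [b1]; nlinarith
  have a3 : 1 / S' ≤ 2 / S := by rw [div_le_div_iff₀ hS' hS]; nlinarith
  have a4 : 2 / S ≤ 2 / D := div_le_div_of_nonneg_left (by norm_num) hD0 hDS
  have a5 : 0 < 1 / S' := by positivity
  constructor
  · intro ω h
    obtain ⟨b1, b2⟩ := hj ω h
    have b3 : (M0 - M ω) / S' ≤ 3 * (2 / D) := by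
      rw [div_eq_mul_one_div]; exact mul_le_mul b2 (a3.trans a4) a5.le (by norm_num)
    have b4 : 0 ≤ (M0 - M ω) / S' := by positivity
    have e1 : 12 / D = 12 * (1 / D) := by ring
    have e2 : 2 / D = 2 * (1 / D) := by ring
    rw [e, abs_le]; constructor <;> linarith
  · have b1 : ∑ ω, wt ω * ((M ω / S' - 1) - (M0 / S - 1)) ^ 2 ≤
        ∑ ω, (72 * u ^ 2 * wt ω + 24 / S ^ 2 * (wt ω * (M0 - M ω))) := by
      refine sum_le_sum fun ω _ => ?_
      by_cases h : wt ω = 0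
      · simp [h]
      obtain ⟨b1, b2⟩ := hj ω h
      have b3 : ((M0 - M ω) / S') ^ 2 ≤ 12 / S ^ 2 * (M0 - M ω) := by
        have c1 : (1 / S') ^ 2 ≤ (2 / S) ^ 2 := pow_le_pow_left₀ a5.le a3 2
        calc _ = (M0 - M ω) * (M0 - M ω) * (1 / S') ^ 2 := by ring
          _ ≤ (M0 - M ω) * 3 * (2 / S) ^ 2 := by gcongr
          _ = _ := by ring
      have b4 : (M0 / S' - M0 / S) ^ 2 ≤ (6 * u) ^ 2 := pow_le_pow_left₀ a1 a2 2
      have b5 : ((M ω / S' - 1) - (M0 / S - 1)) ^ 2 ≤ 72 * u ^ 2 + 24 / S ^ 2 * (M0 - M ω) := by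
        rw [e]
        have e3 : 24 / S ^ 2 * (M0 - M ω) = 2 * (12 / S ^ 2 * (M0 - M ω)) := by ring
        nlinarith [sq_nonneg ((M0 / S' - M0 / S) + (M0 - M ω) / S')]
      have := mul_le_mul_of_nonneg_left b5 (hw ω)
      linarith
    rw [sum_add_distrib, ← mul_sum, ← mul_sum, hw1] at b1
    have b2 := mul_le_mul_of_nonneg_left hm (by positivity : 0 ≤ 24 / S ^ 2)
    have b3 : 24 / S ^ 2 * (8 * u * S) = 96 * u * (2 / S) := by field_simp; ring
    have b4 := mul_le_mul_of_nonneg_left a4 (by positivity : 0 ≤ 96 * u)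
    have b5 := mul_le_mul_of_nonneg_left huD hu
    have e1 : u / D = u * (1 / D) := by ring
    have e2 : 96 * u * (2 / D) = 192 * (u * (1 / D)) := by ring
    nlinarith

lemma lw_ne {h : ℝ} {G : SimpleGraph V} {T : Finset V} (H : lw h G (some T) ≠ 0) : T ∈ triangles G := by
  by_contra hT; exact H (by simp [lw, ind_neg hT])

lemma dg_drop (G : SimpleGraph V) (T : Finset V) (x : V) :
    dg (adj G) x - dg (adj (removeTri G T)) x = ∑ z, adj G x z * ind (x ∈ T ∧ z ∈ T) := by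
  simp only [dg, adj_rem, ← sum_sub_distrib]; exact sum_congr rfl fun _ _ => by ring

lemma cod_drop (G : SimpleGraph V) (T : Finset V) (x y : V) :
    cod (adj G) x y - cod (adj (removeTri G T)) x y = ∑ z, adj G x z * adj G y z *
      (ind (x ∈ T ∧ z ∈ T) + ind (y ∈ T ∧ z ∈ T) - ind (x ∈ T ∧ y ∈ T ∧ z ∈ T)) := by
  simp only [cod, adj_rem, ← sum_sub_distrib]
  refine sum_congr rfl fun z _ => ?_
  by_cases h1 : x ∈ T <;> by_cases h2 : y ∈ T <;> by_cases h3 : z ∈ T <;> simp [ind, h1, h2, h3]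

lemma dg_jump {h : ℝ} {G : SimpleGraph V} (x : V) (ω : Option (Finset V)) (H : lw h G ω ≠ 0) :
    0 ≤ dg (adj G) x - dg (adj (nxt G ω)) x ∧ dg (adj G) x - dg (adj (nxt G ω)) x ≤ 3 := by
  cases ω with
  | none => simp [nxt]
  | some T =>
    simp only [nxt, dg_drop]
    refine ⟨sum_nonneg fun z _ => mul_nonneg ((adj01 G).nn _ _) (ind_nonneg _), ?_⟩
    rw [← sum_ind_mem (lw_ne H)]
    exact sum_le_sum fun z _ => (mul_le_of_le_one_left (ind_nonneg _) ((adj01 G).le1 _ _)).trans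
      (ind_mono fun h => h.2)

lemma cod_jump {h : ℝ} {G : SimpleGraph V} (x y : V) (ω : Option (Finset V)) (H : lw h G ω ≠ 0) :
    0 ≤ cod (adj G) x y - cod (adj (nxt G ω)) x y ∧ cod (adj G) x y - cod (adj (nxt G ω)) x y ≤ 3 := by
  cases ω with
  | none => simp [nxt]
  | some T =>
    simp only [nxt, cod_drop]
    have b : ∀ z, 0 ≤ ind (x ∈ T ∧ z ∈ T) + ind (y ∈ T ∧ z ∈ T) - ind (x ∈ T ∧ y ∈ T ∧ z ∈ T) ∧
        ind (x ∈ T ∧ z ∈ T) + ind (y ∈ T ∧ z ∈ T) - ind (x ∈ T ∧ y ∈ T ∧ z ∈ T) ≤ ind (z ∈ T) := by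
      intro z
      by_cases h1 : x ∈ T <;> by_cases h2 : y ∈ T <;> by_cases h3 : z ∈ T <;> simp [ind, h1, h2, h3]
    refine ⟨sum_nonneg fun z _ => mul_nonneg (mul_nonneg ((adj01 G).nn _ _) ((adj01 G).nn _ _)) (b z).1, ?_⟩
    rw [← sum_ind_mem (lw_ne H)]
    exact sum_le_sum fun z _ => (mul_le_of_le_one_left (b z).1
      (mul_le_one₀ ((adj01 G).le1 _ _) ((adj01 G).nn _ _) ((adj01 G).le1 _ _))).trans (b z).2

lemma dg_mean (h : ℝ) (G : SimpleGraph V) (x : V) :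
    ∑ ω, lw h G ω * (dg (adj G) x - dg (adj (nxt G ω)) x) = h * ∑ z, adj G x z * cod (adj G) x z := by
  rw [sum_lw]
  simp only [nxt, sub_self, sub_zero, zero_add, dg_drop]
  rw [sum_comm]
  congr 1
  refine sum_congr rfl fun z _ => ?_
  rw [← mul_sum]
  by_cases hz : G.Adj x z
  · rw [sum_tri_edge hz]
  · simp [adj_zero hz]

lemma cod_mean (h : ℝ) (G : SimpleGraph V) {x y : V} (hxy : G.Adj x y) :
    ∃ τ, 0 ≤ τ ∧ τ ≤ cod (adj G) x y ∧
      ∑ ω, lw h G ω * (cod (adj G) x y - cod (adj (nxt G ω)) x y) =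
        h * (∑ z, adj G x z * adj G y z * cod (adj G) x z +
          ∑ z, adj G y z * adj G x z * cod (adj G) y z - τ) := by
  refine ⟨∑ z, adj G x z * adj G y z * ∑ T ∈ triangles G, ind (x ∈ T ∧ y ∈ T ∧ z ∈ T),
    sum_nonneg fun z _ => mul_nonneg (mul_nonneg ((adj01 G).nn _ _) ((adj01 G).nn _ _))
      (sum_nonneg fun _ _ => ind_nonneg _), sum_le_sum fun z _ => ?_, ?_⟩
  · by_cases h1 : G.Adj x z
    · by_cases h2 : G.Adj y z
      · exact mul_le_of_le_one_right (mul_nonneg ((adj01 G).nn _ _) ((adj01 G).nn _ _))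
          (sum_tri_three G hxy.ne h1.ne h2.ne)
      · simp [adj_zero h2]
    · simp [adj_zero h1]
  · rw [sum_lw]
    simp only [nxt, sub_self, sub_zero, zero_add, cod_drop]
    rw [sum_comm, ← sum_add_distrib, ← sum_sub_distrib]
    congr 1
    refine sum_congr rfl fun z _ => ?_
    rw [← mul_sum, sum_sub_distrib, sum_add_distrib]
    by_cases h1 : G.Adj x z
    · by_cases h2 : G.Adj y z
      · rw [sum_tri_edge h1, sum_tri_edge h2]; ring
      · simp [adj_zero h2]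
    · simp [adj_zero h1]

lemma mean_ratio {Ω : Type*} [Fintype Ω] (wt : Ω → ℝ) (hw1 : ∑ ω, wt ω = 1) (M : Ω → ℝ) (M0 S S' : ℝ) :
    ∑ ω, wt ω * ((M ω / S' - 1) - (M0 / S - 1)) =
      M0 / S' - M0 / S - (∑ ω, wt ω * (M0 - M ω)) / S' := by
  have : ∀ ω, wt ω * ((M ω / S' - 1) - (M0 / S - 1)) =
      wt ω * (M0 / S' - M0 / S) - wt ω * (M0 - M ω) / S' := fun ω => by ring
  simp only [this, sum_sub_distrib, ← sum_mul, hw1, one_mul, sum_div]

lemma del_mean {h D Δ : ℝ} (G : SimpleGraph V) (hD : 0 < D) (hΔ : 0 < Δ) (hu : h * D < 1) (x : V) :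
    ∑ ω, lw h G ω * (del (nxt G ω) (Δ * (1 - h * D)) x - del G Δ x) =
      h * D / (1 - h * D) * (-(∑ z, adj G x z * (cod (adj G) x z / D - 1)) / Δ) := by
  unfold del
  rw [mean_ratio _ (lw_sum h G), dg_mean]
  have e : ∑ z, adj G x z * (cod (adj G) x z / D - 1) =
      (∑ z, adj G x z * cod (adj G) x z) / D - dg (adj G) x := by
    rw [sum_div, dg, ← sum_sub_distrib]; exact sum_congr rfl fun _ _ => by ring
  have : 1 - h * D ≠ 0 := by linarith
  rw [e]; field_simp; ring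

lemma phase1_step {h D Δ ζ Γ s E : ℝ} (hh : Hok V h) {G : SimpleGraph V} (hR : Reg (adj G) D Δ ζ)
    (hζ : ζ ≤ 1) (hD : 1 ≤ D) (hDΔ : D ≤ Δ) (hu8 : h * D ≤ 1 / 8) (huD : h * D ≤ 1 / D) (m : ℕ)
    (hm : Even m) (hs : 0 < s) (hs1 : s ≤ 1) (hM : LinkP (adj G) D Δ Γ (m + 2))
    (hΓ : Γ ≤ (s ^ 2 / 4) ^ (m + 2)) (hE : 0 ≤ E) (hE2 : 2500 / D ≤ E ^ 2) :
    Pop h (fun G' => Psi (adj G') (Δ * (1 - h * D)) (s ^ (m + 2)) (m + 2)
      (chi G' (D * (1 - h * D) ^ 2) (Δ * (1 - h * D))) (del G' (Δ * (1 - h * D)))) G ≤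
      (1 + h * D * (4 + 24 * (m + 2) * s)) * Psi (adj G) Δ (s ^ (m + 2)) (m + 2) (chi G D Δ) (del G Δ) +
        h * D * cP m s * Fintype.card V * E ^ (m + 2) := by
  have hD0 : 0 < D := by linarith
  have hΔ : 0 < Δ := by linarith
  have hu : 0 ≤ h * D := mul_nonneg hh.1 hD0.le
  have ha := adj01 G
  have hE3 : 36 / D ≤ E := by
    refine (pow_le_pow_iff_left₀ (by positivity) hE two_ne_zero).1 (le_trans ?_ hE2)
    rw [div_pow, div_le_div_iff₀ (by positivity) hD0]; nlinarith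
  have hc0 : ∀ x y, 0 ≤ cod (adj G) x y := fun x y => sum_nonneg fun _ _ => mul_nonneg (ha.nn _ _) (ha.nn _ _)
  have hcd : ∀ x y (w : V → ℝ), (∀ z, 0 ≤ w z) → (∀ z, w z ≠ 0 → adj G x z = 1) →
      ∑ z, w z ≤ 2 * y → ∑ z, w z * cod (adj G) x z ≤ 2 * y * (2 * D) := fun x y w h0 h1 h2 => by
    refine le_trans ?_ (mul_le_mul_of_nonneg_right h2 (by positivity))
    rw [sum_mul]
    refine sum_le_sum fun z _ => ?_
    by_cases hz : w z = 0
    · simp [hz]
    · exact mul_le_mul_of_nonneg_left (hR.cod_le hD0 hζ (h1 z hz)) (h0 z)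
  have hdel : ∀ x, (∀ ω, lw h G ω ≠ 0 → |del (nxt G ω) (Δ * (1 - h * D)) x - del G Δ x| ≤ 12 / D) ∧
      ∑ ω, lw h G ω * (del (nxt G ω) (Δ * (1 - h * D)) x - del G Δ x) ^ 2 ≤ 264 * (h * D / D) := by
    intro x
    refine comp _ (lw_nn hh G) (lw_sum h G) (fun ω => dg (adj (nxt G ω)) x) (dg_jump x) ?_
      (sum_nonneg fun _ _ => ha.nn _ _) (hR.dg_le hΔ hζ x) (mul_pos hΔ (by linarith))
      (by have : 1 ≤ (1 + 3 * (h * D)) * (1 - h * D) := by nlinarith
          nlinarith)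
      (by nlinarith) hu hu8 hD hDΔ huD
    rw [dg_mean]
    have := mul_le_mul_of_nonneg_left (hcd x Δ (adj G x) (ha.nn x)
      (fun z hz => (ha.z1 x z).resolve_left hz) (hR.dg_le hΔ hζ x)) hh.1
    nlinarith
  have hcod : ∀ x y, adj G x y = 1 → (∀ ω, lw h G ω ≠ 0 →
      |(cod (adj (nxt G ω)) x y / (D * (1 - h * D) ^ 2) - 1) - (cod (adj G) x y / D - 1)| ≤ 12 / D) ∧
      ∑ ω, lw h G ω * ((cod (adj (nxt G ω)) x y / (D * (1 - h * D) ^ 2) - 1) -
        (cod (adj G) x y / D - 1)) ^ 2 ≤ 264 * (h * D / D) := by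
    intro x y hxy
    refine comp _ (lw_nn hh G) (lw_sum h G) (fun ω => cod (adj (nxt G ω)) x y) (cod_jump x y) ?_
      (hc0 x y) (hR.cod_le hD0 hζ hxy) (mul_pos hD0 (pow_pos (by linarith) 2)) ?_ ?_ hu hu8 hD le_rfl huD
    · obtain ⟨τ, h0, -, h2⟩ := cod_mean h G (adj_eq_one.1 hxy)
      rw [h2]
      have b1 := hcd x D (fun z => adj G x z * adj G y z) (fun z => mul_nonneg (ha.nn _ _) (ha.nn _ _))
        (fun z hz => (ha.z1 x z).resolve_left fun e => hz (by simp [e])) (hR.cod_le hD0 hζ hxy)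
      have b2 := hcd y D (fun z => adj G y z * adj G x z) (fun z => mul_nonneg (ha.nn _ _) (ha.nn _ _))
        (fun z hz => (ha.z1 y z).resolve_left fun e => hz (by simp [e]))
        (hR.cod_le hD0 hζ (by rw [ha.sym]; exact hxy))
      have := mul_le_mul_of_nonneg_left (by linarith : ∑ z, adj G x z * adj G y z * cod (adj G) x z +
        ∑ z, adj G y z * adj G x z * cod (adj G) y z - τ ≤ 8 * D * D) hh.1
      linarith
    · have : 1 ≤ (1 + 3 * (h * D)) * (1 - h * D) ^ 2 := by nlinarith [mul_nonneg hu hu]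
      nlinarith
    · have : (1 - h * D) ^ 2 ≤ 1 := by nlinarith
      nlinarith
  have e1 : h * D / D * 2500 ≤ h * D * E ^ 2 := by
    have := mul_le_mul_of_nonneg_left hE2 hu
    rw [show h * D / D * 2500 = h * D * (2500 / D) by ring]; exact this
  have e2 : 0 ≤ h * D / D := by positivity
  have hτ : ∀ x y, ∃ τ, adj G x y = 1 → 0 ≤ τ ∧ τ ≤ cod (adj G) x y ∧
      ∑ ω, lw h G ω * (cod (adj G) x y - cod (adj (nxt G ω)) x y) =
        h * (∑ z, adj G x z * adj G y z * cod (adj G) x z +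
          ∑ z, adj G y z * adj G x z * cod (adj G) y z - τ) := fun x y => by
    by_cases hxy : adj G x y = 1
    · obtain ⟨τ, H⟩ := cod_mean h G (adj_eq_one.1 hxy); exact ⟨τ, fun _ => H⟩
    · exact ⟨0, fun h => absurd h hxy⟩
  choose τ hτ using hτ
  have hQ : ∀ x, |(∑ z, adj G x z * (cod (adj G) x z / D - 1)) / Δ| ≤ 2 := fun x => by
    rw [abs_div, abs_of_pos hΔ, div_le_iff₀ hΔ]
    refine (abs_wsum_le _ _ (ha.nn x) 1 fun z hz =>
      (hR.cd x z ((ha.z1 x z).resolve_left hz)).trans hζ).trans ?_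
    rw [mul_one]; exact hR.dg_le hΔ hζ x
  have h1u : 0 < 1 - h * D := by linarith
  refine pot_step ha hΔ (mul_pos hΔ h1u) (hR.dg_le hΔ hζ) m hm hs hs1 hM hΓ
    (fun x y => cod (adj G) x y / D - 1) (chi G D Δ) (fun _ _ => 0)
    (fun x y => -(h * D) * (cod (adj G) x y / D) + τ x y / D ^ 2 -
      h * D * ((∑ z, adj G x z * (cod (adj G) x z / D - 1)) / Δ +
        (∑ z, adj G y z * (cod (adj G) y z / D - 1)) / Δ)) (del G Δ)
    (fun x y _ => by unfold chi; ring) (fun _ _ _ => by simpa using hE) (fun x y hxy => ?_) hE hu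
    (by linarith) (u1 := h * D / (1 - h * D) ^ 2) (u2 := h * D / (1 - h * D)) (by positivity) ?_
    (by positivity) ?_ ?_ (lw h G) (lw_nn hh G) (lw_sum h G) (fun ω => adj (nxt G ω)) _ _
    (fun ω x y => ?_) (fun x y hxy ω hω => ?_) (fun x y hxy => ?_) (fun x y hxy => ?_)
    (fun x ω hω => ?_) (fun x => ?_) (fun x => del_mean G hD0 hΔ (by linarith) x)
  · obtain ⟨b1, b2, -⟩ := hτ x y hxy
    have b3 := hR.cod_le hD0 hζ hxy
    have b4 : cod (adj G) x y / D ≤ 2 := by rwa [div_le_iff₀ hD0]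
    have b5 : 0 ≤ cod (adj G) x y / D := div_nonneg (hc0 x y) hD0.le
    have b6 : τ x y / D ^ 2 ≤ 2 * (1 / D) := by
      rw [div_le_iff₀ (by positivity), show 2 * (1 / D) * D ^ 2 = 2 * D by field_simp]; linarith
    have b7 : 0 ≤ τ x y / D ^ 2 := by positivity
    have b8 := abs_le.1 (hQ x)
    have b9 := abs_le.1 (hQ y)
    have e3 : 36 / D = 36 * (1 / D) := by ring
    rw [abs_le]; constructor <;> nlinarith
  · rw [show h * D / (1 - h * D) ^ 2 * Δ / (Δ * (1 - h * D)) = h * D / (1 - h * D) ^ 3 by field_simp,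
      div_le_iff₀ (by positivity)]
    have : (7 / 8 : ℝ) ^ 3 ≤ (1 - h * D) ^ 3 := pow_le_pow_left₀ (by norm_num) (by linarith) 3
    nlinarith
  · rw [div_le_iff₀ h1u]; nlinarith
  · rw [div_le_iff₀ (mul_pos hΔ h1u)]
    have : 1 ≤ (1 + 2 * (h * D)) * (1 - h * D) := by nlinarith
    nlinarith
  · cases ω with
    | none => exact le_rfl
    | some T => exact ind_mono fun h => rem_le G T h
  · have b1 := abs_le.1 ((hcod x y hxy).1 ω hω)
    have b2 := abs_le.1 ((hdel x).1 ω hω)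
    have b3 := abs_le.1 ((hdel y).1 ω hω)
    have e3 : 36 / D = 3 * (12 / D) := by ring
    unfold chi; rw [abs_le]; constructor <;> linarith
  · have b1 := (hcod x y hxy).2
    have b2 := (hdel x).2
    have b3 := (hdel y).2
    refine le_trans (sum_le_sum (g := fun ω => 3 * (lw h G ω * ((cod (adj (nxt G ω)) x y /
      (D * (1 - h * D) ^ 2) - 1) - (cod (adj G) x y / D - 1)) ^ 2) +
      3 * (lw h G ω * (del (nxt G ω) (Δ * (1 - h * D)) x - del G Δ x) ^ 2) +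
      3 * (lw h G ω * (del (nxt G ω) (Δ * (1 - h * D)) y - del G Δ y) ^ 2)) fun ω _ => ?_) ?_
    · have : ∀ a b c : ℝ, (a - b - c) ^ 2 ≤ 3 * a ^ 2 + 3 * b ^ 2 + 3 * c ^ 2 := fun a b c => by
        nlinarith [sq_nonneg (a + b), sq_nonneg (a + c), sq_nonneg (b - c)]
      have := mul_le_mul_of_nonneg_left (this ((cod (adj (nxt G ω)) x y /
        (D * (1 - h * D) ^ 2) - 1) - (cod (adj G) x y / D - 1))
        (del (nxt G ω) (Δ * (1 - h * D)) x - del G Δ x)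
        (del (nxt G ω) (Δ * (1 - h * D)) y - del G Δ y)) (lw_nn hh G ω)
      unfold chi
      refine le_trans (le_of_eq ?_) (this.trans (le_of_eq ?_)) <;> ring
    · rw [sum_add_distrib, sum_add_distrib, ← mul_sum, ← mul_sum, ← mul_sum]; linarith
  · have b1 := mean_ratio _ (lw_sum h G) (fun ω => cod (adj (nxt G ω)) x y) (cod (adj G) x y) D
      (D * (1 - h * D) ^ 2)
    rw [(hτ x y hxy).2.2] at b1
    have b2 := del_mean G hD0 hΔ (by linarith : h * D < 1) x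
    have b3 := del_mean G hD0 hΔ (by linarith : h * D < 1) y
    have b4 : ∀ ω, lw h G ω * (chi (nxt G ω) (D * (1 - h * D) ^ 2) (Δ * (1 - h * D)) x y - chi G D Δ x y) =
        lw h G ω * ((cod (adj (nxt G ω)) x y / (D * (1 - h * D) ^ 2) - 1) - (cod (adj G) x y / D - 1)) -
        lw h G ω * (del (nxt G ω) (Δ * (1 - h * D)) x - del G Δ x) -
        lw h G ω * (del (nxt G ω) (Δ * (1 - h * D)) y - del G Δ y) := fun ω => by unfold chi; ring
    simp only [b4, sum_sub_distrib]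
    rw [b1, b2, b3]
    have c1 : ∑ z, adj G x z * adj G y z * (cod (adj G) x z / D - 1) =
        (∑ z, adj G x z * adj G y z * cod (adj G) x z) / D - cod (adj G) x y := by
      rw [sum_div, cod, ← sum_sub_distrib]; exact sum_congr rfl fun _ _ => by ring
    have c2 : ∑ z, adj G y z * adj G x z * (cod (adj G) y z / D - 1) =
        (∑ z, adj G y z * adj G x z * cod (adj G) y z) / D - cod (adj G) x y := by
      rw [sum_div, cod, ← sum_sub_distrib]; exact sum_congr rfl fun _ _ => by ring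
    unfold Rop
    rw [c1, c2]
    have key : ∀ c P1 P2 Q1 Q2 t : ℝ, c / (D * (1 - h * D) ^ 2) - c / D -
        h * (P1 + P2 - t) / (D * (1 - h * D) ^ 2) - h * D / (1 - h * D) * (-Q1 / Δ) -
        h * D / (1 - h * D) * (-Q2 / Δ) = h * D / (1 - h * D) ^ 2 * (-((P1 / D - c) / D - Q1 / Δ) -
          ((P2 / D - c) / D - Q2 / Δ) + (-(h * D) * (c / D) + t / D ^ 2 - h * D * (Q1 / Δ + Q2 / Δ))) := by
      intro c P1 P2 Q1 Q2 t
      have hw := h1u.ne'
      obtain ⟨w, hw'⟩ : ∃ w, w = 1 - h * D := ⟨_, rfl⟩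
      have hh' : h = (1 - w) / D := by rw [hw']; field_simp; ring
      rw [← hw'] at hw ⊢
      rw [hh']
      field_simp
      ring
    exact key _ _ _ _ _ _
  · have b2 := (hdel x).1 ω hω
    have e3 : 36 / D = 3 * (12 / D) := by ring
    have : 0 ≤ 12 / D := by positivity
    linarith
  · have b2 := (hdel x).2
    linarith

end Vale.Agent.P046
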