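import Vale.Agent.P046.BP
import Vale.Agent.P046.Coll

/-! The second phase. -/

set_option linter.unusedSectionVars false

open Finset Vale.Agent.P044

namespace Vale.Agent.P046

lemma var_bound {ι τ β : Type} [Fintype τ] [Fintype ι] [DecidableEq ι] [Fintype β] {w : τ → ℝ} (hw : Pw w)
    (a : β → ℝ) (ha : ∀ i, 0 ≤ a i) (p : β → Prog ι τ Bool) :
    Ex (fun _ => w) (fun X => (∑ i, a i * (bv (run X (p i)) - pr w (p i))) ^ 2) ≤
      4 * (∑ i, a i) * ∑ i, a i * col w (p i) + ∑ j, (∑ i, a i * mv w (p i) j) ^ 2 := by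
  have e : ∀ X : ι → τ, (∑ i, a i * (bv (run X (p i)) - pr w (p i))) ^ 2 = ∑ i, ∑ i', a i * a i' *
      (bv (run X (p i)) * bv (run X (p i')) - pr w (p i) * bv (run X (p i')) -
        pr w (p i') * bv (run X (p i)) + pr w (p i) * pr w (p i')) := fun X => by
    rw [sq, sum_mul_sum]
    exact sum_congr rfl fun _ _ => sum_congr rfl fun _ _ => by ring
  simp only [e, Ex_sum, Ex_mul, Ex_add, Ex_sub, Ex_const hw.isPr]
  refine le_trans (b := ∑ i, ∑ i', a i * a i' *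
    (2 * col w (p i) + 2 * col w (p i') + ∑ j, mv w (p i) j * mv w (p i') j))
    (sum_le_sum fun i _ => sum_le_sum fun i' _ => mul_le_mul_of_nonneg_left ?_
      (mul_nonneg (ha i) (ha i'))) (le_of_eq ?_)
  · have h1 := pair_real hw (p i) (p i')
    have h2 := (abs_le.1 (cmp_real hw (p i))).1
    have h3 := (abs_le.1 (cmp_real hw (p i'))).1
    have h4 := pr_bd hw (p i)
    have h5 := pr_bd hw (p i')
    nlinarith [col_nn hw (p i), col_nn hw (p i')]
  · have e1 : ∑ i, ∑ i', a i * a i' * ∑ j, mv w (p i) j * mv w (p i') j =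
        ∑ j, (∑ i, a i * mv w (p i) j) ^ 2 := by
      simp only [sq, sum_mul_sum]
      symm
      rw [sum_comm]
      refine sum_congr rfl fun i _ => ?_
      rw [sum_comm]
      refine sum_congr rfl fun i' _ => ?_
      rw [mul_sum]; exact sum_congr rfl fun _ _ => by ring
    have e2 : ∑ i, ∑ i', a i * a i' * (2 * col w (p i)) = 2 * (∑ i, a i) * ∑ i, a i * col w (p i) := by
      rw [mul_assoc, sum_mul_sum, sum_comm, mul_sum]
      exact sum_congr rfl fun _ _ => by rw [mul_sum]; exact sum_congr rfl fun _ _ => by ring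
    have e3 : ∑ i, ∑ i', a i * a i' * (2 * col w (p i')) = 2 * (∑ i, a i) * ∑ i, a i * col w (p i) := by
      rw [mul_assoc, sum_mul_sum, mul_sum]
      exact sum_congr rfl fun _ _ => by rw [mul_sum]; exact sum_congr rfl fun _ _ => by ring
    simp only [mul_add, sum_add_distrib, e1, e2, e3]; ring

variable {V : Type} [Fintype V] [DecidableEq V]

lemma Reg.cdG {G : SimpleGraph V} {D Δ ζ : ℝ} (h : Reg (adj G) D Δ ζ) (hD : 0 < D) (hζ : ζ ≤ 1) : Cd G D := by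
  intro x y hxy X
  refine le_trans ?_ (h.cod_le hD hζ (adj_one hxy))
  have h1 : ((ap G x y X).card : ℝ) ≤ (ap G x y ∅).card := by
    exact_mod_cast card_le_card fun v hv => mem_ap.2 ⟨(mem_ap.1 hv).1, (mem_ap.1 hv).2.1, by simp⟩
  have h2 := sum_ap G x y fun _ => 1
  simp only [sum_const, nsmul_eq_mul, mul_one] at h2
  exact h1.trans_eq h2

lemma sum_roots (G : SimpleGraph V) (f : V × V × V → ℝ) :
    ∑ e : V × V, adj G e.1 e.2 * ((fanL G e.1 e.2 ∅).map f).sum = ∑ a, ind (VdG G a) * f a := by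
  simp only [Fintype.sum_prod_type, lsum_fan, sum_ap, mul_sum]
  refine sum_congr rfl fun x _ => sum_congr rfl fun y _ => sum_congr rfl fun z _ => ?_
  by_cases h1 : G.Adj x y <;> by_cases h2 : G.Adj x z <;> by_cases h3 : G.Adj y z <;>
    simp [adj, ind, VdG, h1, h2, h3]

lemma line_le (G : SimpleGraph V) (j : Finset V) : ∑ a, ind (VdG G a) * ind (lineG a = j) ≤ 27 := by
  by_cases h : j.card ≤ 3
  · calc _ ≤ ∑ a : V × V × V, ind (a.1 ∈ j) * (ind (a.2.1 ∈ j) * ind (a.2.2 ∈ j)) := sum_le_sum fun a _ => by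
          by_cases H : lineG a = j
          · rw [ind_pos H, ind_pos (show a.1 ∈ j by simp [← H, lineG]),
              ind_pos (show a.2.1 ∈ j by simp [← H, lineG]), ind_pos (show a.2.2 ∈ j by simp [← H, lineG])]
            simpa using ind_le_one _
          · rw [ind_neg H, mul_zero]
            exact mul_nonneg (ind_nonneg _) (mul_nonneg (ind_nonneg _) (ind_nonneg _))
      _ = (j.card : ℝ) ^ 3 := by
          simp only [Fintype.sum_prod_type, ← mul_sum, ← sum_mul, ← card_filter_eq_ind, filter_mem_eq_inter,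
            univ_inter]; ring
      _ ≤ 3 ^ 3 := pow_le_pow_left₀ (by positivity) (by exact_mod_cast h) 3
      _ = 27 := by norm_num
  · rw [sum_eq_zero fun a _ => by rw [ind_neg (show ¬lineG a = j from fun H => h (H ▸ card_le_three)), mul_zero]]
    norm_num

variable {τ : Type} [Fintype τ] {tv : τ → ℕ} {w : τ → ℝ}

lemma col_sum (hw : Pw w) {G : SimpleGraph V} {D μ : ℝ} {k : ℕ} {F : ℕ → ℝ} (h : Cd G D)
    (hμD : 8 * D * μ ≤ 1) (H : Ctl w lineG (chG G) tv (VdG G) k μ F) :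
    ∑ e : V × V, adj G e.1 e.2 * col w (call lineG (chG G) tv k (fanL G e.1 e.2 ∅)) ≤ CC μ (F k) k G := by
  have hF : 0 ≤ F k := by linarith [H.one k]
  refine (sum_le_sum (g := fun e : V × V => adj G e.1 e.2 *
    (locw lineG (fun b j => F k * GG lineG (chG G) μ k b j) (fanL G e.1 e.2 ∅) +
      ((fanL G e.1 e.2 ∅).map fun b => F k * HH (chG G) μ (fun a =>
        locw lineG (fun b j => F k * GG lineG (chG G) μ k b j) (chG G a)) k b).sum)) fun e _ => ?_).trans ?_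
  · by_cases he : G.Adj e.1 e.2
    · exact mul_le_mul_of_nonneg_left (root_bounds hw H _ (fan_vd he ∅)).2 ((adj01 G).nn _ _)
    · rw [adj_zero he, zero_mul, zero_mul]
  · simp only [mul_add, sum_add_distrib, sum_roots, CC, mul_left_comm _ (F k), ← mul_sum]
    rw [Fintype.sum_prod_type]
    have := mul_le_mul_of_nonneg_left (HH_sum h H.mu hμD (fun a => locw_nn (line := lineG)
      (fun b j => mul_nonneg hF (GG_nn (line := lineG) (ch := chG G) H.mu k b j)) (chG G a)) k) hF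
    linarith

lemma cross_sum (hw : Pw w) {G : SimpleGraph V} {D μ : ℝ} {k : ℕ} {F : ℕ → ℝ} (h : Cd G D) (hD : 1 ≤ D)
    (hμD : 8 * D * μ ≤ 1) (H : Ctl w lineG (chG G) tv (VdG G) k μ F) :
    ∑ j, (∑ e : V × V, adj G e.1 e.2 * mv w (call lineG (chG G) tv k (fanL G e.1 e.2 ∅)) j) ^ 2 ≤
      (9 * D * F k) ^ 2 * (27 * (2 * D * ∑ e : V × V, adj G e.1 e.2)) := by
  have hF := H.one k
  have h1 : ∀ j, ∑ e : V × V, adj G e.1 e.2 * mv w (call lineG (chG G) tv k (fanL G e.1 e.2 ∅)) j ≤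
      9 * D * F k * ∑ a, ind (VdG G a) * ind (lineG a = j) := fun j => by
    refine (sum_le_sum (g := fun e : V × V => adj G e.1 e.2 * ((fanL G e.1 e.2 ∅).map fun b =>
      ind (lineG b = j) + F k * GG lineG (chG G) μ k b j).sum) fun e _ => ?_).trans ?_
    · by_cases he : G.Adj e.1 e.2
      · exact mul_le_mul_of_nonneg_left ((root_bounds hw H _ (fan_vd he ∅)).1 j) ((adj01 G).nn _ _)
      · rw [adj_zero he, zero_mul, zero_mul]
    · simp only [sum_roots, mul_add, sum_add_distrib, mul_left_comm _ (F k), ← mul_sum]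
      have a1 := HH_sum h H.mu hμD (fun a => cnt_nn ((chG G a).map lineG) j) k
      have a2 := parents h (f := fun c => ind (lineG c = j)) fun _ => ind_nonneg _
      have a3 : 0 ≤ ∑ a, ind (VdG G a) * ind (lineG a = j) :=
        sum_nonneg fun _ _ => mul_nonneg (ind_nonneg _) (ind_nonneg _)
      have a4 := mul_le_mul_of_nonneg_right (one_le_mul_of_one_le_of_one_le hF hD) a3
      have a5 : ∑ a, ind (VdG G a) * cnt ((chG G a).map lineG) j =
          ∑ a, ind (VdG G a) * ((chG G a).map fun c => ind (lineG c = j)).sum := by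
        simp only [cnt, List.map_map]; rfl
      rw [a5] at a1
      have a6 := mul_le_mul_of_nonneg_left (a1.trans (mul_le_mul_of_nonneg_left a2 zero_le_two))
        (by linarith : 0 ≤ F k)
      unfold GG; nlinarith
  have h2 : ∑ j, ∑ a, ind (VdG G a) * ind (lineG a = j) ≤ 2 * D * ∑ e : V × V, adj G e.1 e.2 := by
    rw [sum_comm]
    have := fun a : V × V × V => sum_ind_mul (lineG a) fun _ => 1
    simp only [mul_one] at this
    simp only [← mul_sum, this]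
    rw [← sum_roots G fun _ => 1, mul_sum]
    refine sum_le_sum fun e _ => ?_
    by_cases he : G.Adj e.1 e.2
    · rw [lsum_fan, adj_one he, one_mul]
      exact h.sum_le he ∅ zero_le_one fun _ _ => le_rfl
    · rw [adj_zero he, zero_mul, mul_zero]
  refine le_trans ?_ (mul_le_mul_of_nonneg_left (mul_le_mul_of_nonneg_left h2 (by norm_num)) (sq_nonneg _))
  rw [mul_sum, mul_sum]
  refine sum_le_sum fun j _ => (pow_le_pow_left₀ (sum_nonneg fun e _ =>
    mul_nonneg ((adj01 G).nn _ _) (mv_nn hw _ _)) (h1 j) 2).trans ?_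
  rw [mul_pow]
  refine mul_le_mul_of_nonneg_left ?_ (sq_nonneg _)
  rw [sq]
  exact mul_le_mul_of_nonneg_right (line_le G j) (sum_nonneg fun _ _ => mul_nonneg (ind_nonneg _) (ind_nonneg _))

lemma sum_adj_bd {G : SimpleGraph V} {D Δ ζ : ℝ} (h : Reg (adj G) D Δ ζ) (hΔ : 0 < Δ) :
    (1 - ζ) * (Fintype.card V * Δ) ≤ ∑ e : V × V, adj G e.1 e.2 ∧
      ∑ e : V × V, adj G e.1 e.2 ≤ (1 + ζ) * (Fintype.card V * Δ) := by
  have h1 : ∀ x, (1 - ζ) * Δ ≤ dg (adj G) x ∧ dg (adj G) x ≤ (1 + ζ) * Δ := fun x => by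
    have := abs_le.1 (h.dd x)
    exact ⟨(le_div_iff₀ hΔ).1 (by linarith), (div_le_iff₀ hΔ).1 (by linarith)⟩
  rw [Fintype.sum_prod_type]
  have a1 := sum_le_sum fun x (_ : x ∈ univ) => (h1 x).1
  have a2 := sum_le_sum fun x (_ : x ∈ univ) => (h1 x).2
  simp only [sum_const, card_univ, nsmul_eq_mul, dg] at a1 a2
  constructor <;> linarith

lemma mean_arith {D θ ε S P Z R : ℝ} (hD : 0 < D) (hε0 : 0 ≤ ε) (hε : ε ≤ 1 / 2) (hZ0 : 0 < Z) (hZ : Z * √D = R)
    (h1 : 2 * D * (1 - ε) ≤ Real.exp (2 * θ)) (h2 : Real.exp (2 * θ) ≤ 2 * D * (1 + ε))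
    (h3 : (1 - ε) * R ≤ S) (h4 : S ≤ (1 + ε) * R) (h5 : Real.exp (-θ) * ((1 - ε) * S) ≤ P)
    (h6 : P ≤ Real.exp (-θ) * ((1 + 2 * ε) * S)) : |P / 2 / Z - 1 / (2 * √2)| ≤ 6 * ε := by
  have hs : 0 < √D := Real.sqrt_pos.2 hD
  have hs2 : (1 : ℝ) ≤ √2 := Real.one_le_sqrt.2 (by norm_num)
  set ρ := √2 * √D * Real.exp (-θ) with hρ
  have hρ0 : 0 < ρ := by positivity
  have e1 : ρ ^ 2 * Real.exp (2 * θ) = 2 * D := by
    rw [hρ, mul_pow, mul_pow, Real.sq_sqrt (by norm_num), Real.sq_sqrt hD.le, ← Real.exp_nat_mul, mul_assoc,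
      ← Real.exp_add]; simp
  have a1 : ρ ^ 2 * (1 - ε) ≤ 1 := by
    have := mul_le_mul_of_nonneg_left h1 (sq_nonneg ρ)
    rw [e1] at this
    exact le_of_mul_le_mul_left (a := 2 * D) (by linarith) (by linarith)
  have a2 : 1 ≤ ρ ^ 2 * (1 + ε) := by
    have := mul_le_mul_of_nonneg_left h2 (sq_nonneg ρ)
    rw [e1] at this
    exact le_of_mul_le_mul_left (a := 2 * D) (by linarith) (by linarith)
  have a3 : ρ ≤ 1 + ε := by
    by_contra hc
    push Not at hc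
    have : (1 + ε) ^ 2 < ρ ^ 2 := by nlinarith
    nlinarith [mul_nonneg hε0 (by nlinarith : 0 ≤ 1 - ε - ε ^ 2)]
  have a4 : 1 - ε ≤ ρ := by
    by_contra hc
    push Not at hc
    have : ρ ^ 2 < (1 - ε) ^ 2 := by nlinarith
    nlinarith [mul_nonneg hε0 (by nlinarith : 0 ≤ 1 + ε - ε ^ 2)]
  have hR : 0 < R := by rw [← hZ]; positivity
  have e2 : Real.exp (-θ) * R = ρ * Z / √2 := by rw [hρ, ← hZ]; field_simp
  have hx := Real.exp_pos (-θ)
  have b1 : P ≤ (1 + 12 * ε) * (Z / √2) := by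
    have c1 := mul_le_mul_of_nonneg_left h4 (by positivity : 0 ≤ Real.exp (-θ) * (1 + 2 * ε))
    have c2 : (1 + 2 * ε) * (1 + ε) * ρ ≤ 1 + 12 * ε := by
      have := mul_le_mul_of_nonneg_left a3 (by positivity : 0 ≤ (1 + 2 * ε) * (1 + ε))
      nlinarith [mul_nonneg hε0 hε0]
    have c3 := mul_le_mul_of_nonneg_right c2 (by positivity : 0 ≤ Z / √2)
    have c4 : Real.exp (-θ) * (1 + 2 * ε) * ((1 + ε) * R) = (1 + 2 * ε) * (1 + ε) * ρ * (Z / √2) := by
      rw [mul_assoc _ ρ, ← mul_div_assoc, ← e2]; ring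
    linarith
  have b2 : (1 - 12 * ε) * (Z / √2) ≤ P := by
    have c1 := mul_le_mul_of_nonneg_left h3 (mul_nonneg hx.le (by linarith : 0 ≤ 1 - ε))
    have c2 : 1 - 12 * ε ≤ (1 - ε) * (1 - ε) * ρ := by
      have := mul_le_mul_of_nonneg_left a4 (mul_self_nonneg (1 - ε))
      nlinarith [mul_nonneg hε0 hε0]
    have c3 := mul_le_mul_of_nonneg_right c2 (by positivity : 0 ≤ Z / √2)
    have c4 : Real.exp (-θ) * (1 - ε) * ((1 - ε) * R) = (1 - ε) * (1 - ε) * ρ * (Z / √2) := by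
      rw [mul_assoc _ ρ, ← mul_div_assoc, ← e2]; ring
    linarith
  have e3 : P / 2 / Z - 1 / (2 * √2) = (P - Z / √2) / (2 * Z) := by field_simp
  have b3 : Z / √2 ≤ Z := div_le_self hZ0.le hs2
  rw [e3, abs_div, abs_of_pos (by linarith : 0 < 2 * Z), div_le_iff₀ (by linarith), abs_le]
  constructor <;> nlinarith

lemma Wt_wk (κ : ℝ) {k t : ℕ} (ht : t < k) : Wt (wk κ k) Fin.val t = κ * (1 - κ) ^ t := by
  rw [Wt, sum_eq_single (⟨t, by omega⟩ : Fin (k + 1))]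
  · simp [wk, ht]
  · intro b _ hb; rw [if_neg fun e => hb (Fin.ext e), mul_zero]
  · simp

lemma sum_Wt_wk (κ : ℝ) (k : ℕ) : ∑ t ∈ range k, Wt (wk κ k) Fin.val t = 1 - (1 - κ) ^ k := by
  rw [sum_congr rfl fun t ht => Wt_wk κ (mem_range.1 ht)]
  induction k with
  | zero => simp
  | succ k ih => rw [sum_range_succ, ih]; ring

lemma exists_kk {ε : ℝ} (hε : 0 < ε) :
    ∃ (κ : ℝ) (k : ℕ), 0 ≤ κ ∧ κ ≤ 1 ∧ κ ≤ ε ∧ (1 - κ) ^ k ≤ ε ∧ k * κ ^ 2 ≤ ε := by
  obtain ⟨j, hj⟩ := exists_nat_one_div_lt hε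
  set J : ℝ := j + 1 with hJ
  have h1 : 1 ≤ J := by rw [hJ]; linarith [Nat.cast_nonneg (α := ℝ) j]
  have h2 : 1 / J ^ 2 ≤ 1 / J := one_div_le_one_div_of_le (by linarith) (by nlinarith)
  have h3 : 1 / J ≤ 1 := by rw [div_le_one (by linarith)]; exact h1
  refine ⟨1 / J ^ 2, (j + 1) ^ 3, by positivity, by linarith, by linarith, ?_, ?_⟩
  · have a1 : 1 - 1 / J ^ 2 ≤ Real.exp (-(1 / J ^ 2)) := by linarith [Real.add_one_le_exp (-(1 / J ^ 2))]
    refine (pow_le_pow_left₀ (by linarith) a1 _).trans ?_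
    rw [← Real.exp_nat_mul]
    push_cast
    rw [← hJ, show J ^ 3 * -(1 / J ^ 2) = -J by field_simp, Real.exp_neg, ← one_div]
    exact (one_div_le_one_div_of_le (by linarith) (by linarith [Real.add_one_le_exp J])).trans hj.le
  · push_cast
    rw [← hJ, show J ^ 3 * (1 / J ^ 2) ^ 2 = 1 / J by field_simp]; exact hj.le

lemma ex_abs (hw : Pw w) (G : SimpleGraph V) (k : ℕ) {Z c δ : ℝ} (hZ : 0 < Z) (hδ : 0 < δ) :
    Ex (fun _ => w) (fun X : Finset V → τ => |(state G (fun T => tv (X T)) k).edgeSet.ncard / Z - c|) ≤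
      δ + |(∑ e : V × V, adj G e.1 e.2 * vv w lineG (chG G) tv k (fanL G e.1 e.2 ∅)) / 2 / Z - c| +
      (4 * (∑ e : V × V, adj G e.1 e.2) *
        ∑ e : V × V, adj G e.1 e.2 * col w (call lineG (chG G) tv k (fanL G e.1 e.2 ∅)) +
        ∑ j, (∑ e : V × V, adj G e.1 e.2 * mv w (call lineG (chG G) tv k (fanL G e.1 e.2 ∅)) j) ^ 2) /
        (16 * δ * Z ^ 2) := by
  have h1 := var_bound hw (fun e : V × V => adj G e.1 e.2) (fun _ => (adj01 G).nn _ _)
    fun e => call lineG (chG G) tv k (fanL G e.1 e.2 ∅)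
  set P := ∑ e : V × V, adj G e.1 e.2 * vv w lineG (chG G) tv k (fanL G e.1 e.2 ∅) with hP
  refine (Ex_mono hw.isPr (g := fun X => δ + |P / 2 / Z - c| + 1 / (16 * δ * Z ^ 2) *
    (∑ e : V × V, adj G e.1 e.2 * (bv (run X (call lineG (chG G) tv k (fanL G e.1 e.2 ∅))) -
      pr w (call lineG (chG G) tv k (fanL G e.1 e.2 ∅)))) ^ 2) fun X => ?_).trans ?_
  · have e : ∑ e : V × V, adj G e.1 e.2 * (bv (run X (call lineG (chG G) tv k (fanL G e.1 e.2 ∅))) -
        pr w (call lineG (chG G) tv k (fanL G e.1 e.2 ∅))) =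
        2 * ((state G (fun T => tv (X T)) k).edgeSet.ncard : ℝ) - P := by
      rw [two_ncard, hP, ← Fintype.sum_prod_type', ← sum_sub_distrib]
      refine sum_congr rfl fun e _ => ?_
      rw [mul_sub]
      congr 1
      by_cases he : G.Adj e.1 e.2
      · rw [adj_one he, one_mul]
        by_cases h2 : (state G (fun T => tv (X T)) k).Adj e.1 e.2
        · rw [adj_one h2, (run_root G X k he).2 h2]; rfl
        · rw [adj_zero h2, Bool.eq_false_iff.2 fun h => h2 ((run_root G X k he).1 h)]; rfl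
      · rw [adj_zero he, zero_mul, adj_zero fun h => he (state_le _ _ _ h)]
    rw [e]
    set Y : ℝ := ((state G (fun T => tv (X T)) k).edgeSet.ncard : ℝ)
    have a1 := abs_add_le (Y / Z - P / 2 / Z) (P / 2 / Z - c)
    rw [sub_add_sub_cancel] at a1
    have a2 : 1 / (16 * δ * Z ^ 2) * (2 * Y - P) ^ 2 = |Y / Z - P / 2 / Z| ^ 2 / (4 * δ) := by
      rw [sq_abs]; field_simp; ring
    have a3 : |Y / Z - P / 2 / Z| - δ ≤ |Y / Z - P / 2 / Z| ^ 2 / (4 * δ) := by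
      rw [le_div_iff₀ (by positivity)]; nlinarith [sq_nonneg (|Y / Z - P / 2 / Z| - 2 * δ)]
    linarith
  · rw [Ex_add, Ex_const hw.isPr, Ex_mul, one_div, div_eq_inv_mul _ (16 * δ * Z ^ 2)]
    exact add_le_add le_rfl (mul_le_mul_of_nonneg_left h1 (by positivity))

lemma mean_close {G : SimpleGraph V} {D Δ ζ Γ s E β γ T wb κ ε Z : ℝ} {m k : ℕ}
    (P : BPar (Fintype.card V) D Δ ζ s E β γ T wb m) (hR : Reg (adj G) D Δ ζ)
    (hM : LinkP (adj G) D Δ Γ (m + 2)) (hΓ : Γ ≤ (s ^ 2 / 4) ^ (m + 2)) (h0 : 0 ≤ κ) (h1 : κ ≤ 1)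
    (hκ : κ ≤ wb) (hε : ε ≤ 1 / 2) (hk : (1 - κ) ^ k ≤ ε) (hζ : ζ ≤ ε) (hβ : β ≤ ε)
    (hD : 2 * (wb * D) + 1 / (2 * D) ≤ ε) (hZ0 : 0 < Z) (hZ : Z * √D = Fintype.card V * Δ) :
    |(∑ e : V × V, adj G e.1 e.2 * vv (wk κ k) lineG (chG G) Fin.val k (fanL G e.1 e.2 ∅)) / 2 / Z -
      1 / (2 * √2)| ≤ 6 * ε := by
  have hw := wk_pw h0 h1 k
  have hwb : ∀ t < k, Wt (wk κ k) Fin.val t ≤ wb := fun t ht => by
    rw [Wt_wk κ ht]
    exact (mul_le_of_le_one_right h0 (pow_le_one₀ (by linarith) (by linarith))).trans hκ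
  have H := (bp_ctl hw P hR hM hΓ hwb).2
  have hD0 : 0 < D := by linarith [P.D1]
  have hk0 : 0 ≤ (1 - κ) ^ k := pow_nonneg (by linarith) _
  have a1 := Th_lower (Wt (wk κ k) Fin.val) D k
  have a2 := Th_upper (Wt_nn hw) hD0.le hwb P.wD k le_rfl
  rw [sum_Wt_wk] at a1 a2
  have a3 := sum_adj_bd hR P.d0
  have hN : 0 ≤ Fintype.card V * Δ := by have := P.d0; positivity
  have hx := Real.exp_pos (-Th (Wt (wk κ k) Fin.val) D k)
  refine mean_arith (θ := Th (Wt (wk κ k) Fin.val) D k) (S := ∑ e : V × V, adj G e.1 e.2) hD0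
    (hk0.trans hk) hε hZ0 hZ (by nlinarith) ?_ (by nlinarith) (by nlinarith) ?_ ?_
  · have b1 : 0 ≤ wb * D := mul_nonneg (h0.trans hκ) hD0.le
    have b2 := mul_le_mul_of_nonneg_left hD (by linarith : 0 ≤ 2 * D)
    have b3 : 2 * D * (1 / (2 * D)) = 1 := by field_simp
    have b4 : 0 ≤ 2 * D * (1 + 2 * (wb * D)) * (1 - κ) ^ k := by positivity
    nlinarith
  · rw [mul_sum, mul_sum]
    refine sum_le_sum fun e _ => ?_
    by_cases he : G.Adj e.1 e.2
    · obtain ⟨α, b1, b2⟩ := H _ _ he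
      rw [b2, adj_one he, mul_one, one_mul]
      exact mul_le_mul_of_nonneg_left (by linarith [Real.add_one_le_exp α, (abs_le.1 b1).1]) hx.le
    · simp [adj_zero he]
  · rw [mul_sum, mul_sum]
    refine sum_le_sum fun e _ => ?_
    by_cases he : G.Adj e.1 e.2
    · obtain ⟨α, b1, b2⟩ := H _ _ he
      rw [b2, adj_one he, mul_one, one_mul]
      refine mul_le_mul_of_nonneg_left ?_ hx.le
      have := (abs_le.1 (Real.abs_exp_sub_one_le (x := α) (by linarith))).2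
      linarith
    · simp [adj_zero he]

lemma point_bound {G : SimpleGraph V} {D Δ ζ Γ s E β γ T wb κ ε Z : ℝ} {m k : ℕ}
    (P : BPar (Fintype.card V) D Δ ζ s E β γ T wb m) (hR : Reg (adj G) D Δ ζ)
    (hM : LinkP (adj G) D Δ Γ (m + 2)) (hΓ : Γ ≤ (s ^ 2 / 4) ^ (m + 2)) (h0 : 0 ≤ κ) (h1 : κ ≤ 1)
    (hκ : κ ≤ wb) (hε0 : 0 < ε) (hε : ε ≤ 1 / 2) (hk : (1 - κ) ^ k ≤ ε) (hζ : ζ ≤ ε) (hβ : β ≤ ε)
    (hD : 2 * (wb * D) + 1 / (2 * D) ≤ ε) (hZ0 : 0 < Z) (hZ : Z * √D = Fintype.card V * Δ) :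
    Ex (fun _ => wk κ k) (fun X : Finset V → Fin (k + 1) =>
      |(state G (fun T => (X T).val) k).edgeSet.ncard / Z - 1 / (2 * √2)|) ≤ 7 * ε +
      (9 * D * Real.exp (64 * T)) ^ 2 * (108 * D * (Fintype.card V * Δ)) / (16 * ε * Z ^ 2) +
      8 * (Fintype.card V * Δ) / (16 * ε * Z ^ 2) *
        CC (1 / (8 * D)) (Real.exp (64 * Th (Wt (wk κ k) Fin.val) D k)) k G := by
  have hw := wk_pw h0 h1 k
  have hwb : ∀ t < k, Wt (wk κ k) Fin.val t ≤ wb := fun t ht => by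
    rw [Wt_wk κ ht]
    exact (mul_le_of_le_one_right h0 (pow_le_one₀ (by linarith) (by linarith))).trans hκ
  have H := (bp_ctl hw P hR hM hΓ hwb).1
  have hD0 : 0 < D := by linarith [P.D1]
  have hc := hR.cdG hD0 P.z1
  have hμ : 8 * D * (1 / (8 * D)) ≤ 1 := by rw [mul_one_div_cancel (by positivity)]
  have a1 := ex_abs (tv := Fin.val) hw G k (c := 1 / (2 * √2)) hZ0 hε0
  have a2 := mean_close P hR hM hΓ h0 h1 hκ hε hk hζ hβ hD hZ0 hZ
  have a3 := col_sum hw hc hμ H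
  have a4 := cross_sum hw hc P.D1 hμ H
  have hN : 0 ≤ Fintype.card V * Δ := by have := P.d0; positivity
  have a5 : ∑ e : V × V, adj G e.1 e.2 ≤ 2 * (Fintype.card V * Δ) :=
    (sum_adj_bd hR P.d0).2.trans (by nlinarith [P.z1])
  have a6 : 0 ≤ ∑ e : V × V, adj G e.1 e.2 * col (wk κ k) (call lineG (chG G) Fin.val k (fanL G e.1 e.2 ∅)) :=
    sum_nonneg fun _ _ => mul_nonneg ((adj01 G).nn _ _) (col_nn hw _)
  have a7 := mul_le_mul (mul_le_mul_of_nonneg_left a5 (by norm_num : (0 : ℝ) ≤ 4)) a3 a6 (by positivity)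
  have a8 : Real.exp (64 * Th (Wt (wk κ k) Fin.val) D k) ≤ Real.exp (64 * T) :=
    Real.exp_le_exp.2 (by linarith [Th_le hw P hwb k le_rfl])
  have a0 : 0 ≤ ∑ e : V × V, adj G e.1 e.2 := sum_nonneg fun _ _ => (adj01 G).nn _ _
  have a9 : (9 * D * Real.exp (64 * Th (Wt (wk κ k) Fin.val) D k)) ^ 2 *
      (27 * (2 * D * ∑ e : V × V, adj G e.1 e.2)) ≤
      (9 * D * Real.exp (64 * T)) ^ 2 * (27 * (2 * D * (2 * (Fintype.card V * Δ)))) := by gcongr
  refine a1.trans ?_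
  rw [div_mul_eq_mul_div, add_assoc (7 * ε), ← add_div]
  refine add_le_add (by linarith) (div_le_div_of_nonneg_right ?_ (by positivity))
  linarith

theorem phase2 {A : SimpleGraph V → Prop} {ν : (SimpleGraph V → ℝ) → ℝ} {q D ζ Γ s E β γ T wb ε Z η : ℝ}
    {m s0 u r : ℕ} (L : Law A ν q 3 D s0) (P : BPar (Fintype.card V) D (Fintype.card V * q) ζ s E β γ T wb m)
    (hA : ∀ G, A G → Reg (adj G) D (Fintype.card V * q) ζ ∧ LinkP (adj G) D (Fintype.card V * q) Γ (m + 2))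
    (hΓ : Γ ≤ (s ^ 2 / 4) ^ (m + 2)) (hwb : 0 < wb) (hε0 : 0 < ε) (hε : ε ≤ 1 / 2) (hζ : ζ ≤ ε) (hβ : β ≤ ε)
    (hD : 2 * (wb * D) + 1 / (2 * D) ≤ ε) (hZ0 : 0 < Z) (hZ : Z * √D = Fintype.card V * (Fintype.card V * q))
    (hη : u * q + 1 / 2 ^ r ≤ η) (hW : 2 * r + 5 ≤ u) (hS : 4 * r + 7 ≤ s0) :
    ν (fE fun m => |m / Z - 1 / (2 * √2)|) ≤ 9 * ε + (550 * Real.exp (64 * T) ^ 2 * D ^ 4 /
      (Fintype.card V * (Fintype.card V * q)) + 30000 * Real.exp (64 * T) ^ 3 * D ^ 6 * η) / ε := by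
  set N : ℝ := (Fintype.card V : ℝ) with hN
  set M := N ^ 2 / Z + 1 with hM
  set K : ℝ := (Fintype.card (Finset V) : ℝ) with hK
  have hs2 : (1 : ℝ) ≤ √2 := Real.one_le_sqrt.2 (by norm_num)
  have hφ : ∀ m ≤ Fintype.card V ^ 2, 0 ≤ |(m : ℝ) / Z - 1 / (2 * √2)| ∧ |(m : ℝ) / Z - 1 / (2 * √2)| ≤ M :=
    fun m hm => ⟨abs_nonneg _, by
      have a1 : (m : ℝ) / Z ≤ N ^ 2 / Z := div_le_div_of_nonneg_right (by rw [hN]; exact_mod_cast hm) hZ0.le
      have a2 : 0 ≤ (m : ℝ) / Z := by positivity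
      have a3 : 1 / (2 * √2) ≤ 1 := by rw [div_le_one (by positivity)]; linarith
      have a4 : 0 ≤ 1 / (2 * √2) := by positivity
      rw [abs_le]; constructor <;> linarith⟩
  have hM1 : 1 ≤ M := le_add_of_nonneg_left (by positivity)
  have hK1 : 1 ≤ K := by rw [hK]; exact_mod_cast Fintype.card_pos
  have hMK : 1 ≤ M * K ^ 2 := one_le_mul_of_one_le_of_one_le hM1 (one_le_pow₀ hK1)
  obtain ⟨κ, k, h0, h1, h2, h3, h4⟩ := exists_kk (lt_min hwb (by positivity : 0 < ε / (M * K ^ 2)))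
  have h3' := (le_div_iff₀ (by positivity)).1 (h3.trans (min_le_right _ _))
  have h4' := (le_div_iff₀ (by positivity)).1 (h4.trans (min_le_right _ _))
  have hk0 : 0 ≤ (1 - κ) ^ k := pow_nonneg (by linarith) _
  have hD0 : 0 < D := by linarith [P.D1]
  have hΔ := P.d0
  have hN1 := P.N1
  have hη0 : 0 ≤ η := le_trans (by have := L.q0; positivity) hη
  have hw := wk_pw h0 h1 k
  set F := Real.exp (64 * Th (Wt (wk κ k) Fin.val) D k) with hF
  have hF1 : 1 ≤ F := Real.one_le_exp (by linarith [Th_nn (Wt_nn (tv := Fin.val) hw) hD0.le k])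
  have hF2 : F ≤ Real.exp (64 * T) := Real.exp_le_exp.2 (by
    linarith [Th_le hw P (fun t ht => by
      rw [Wt_wk κ ht]
      exact (mul_le_of_le_one_right h0 (pow_le_one₀ (by linarith) (by linarith))).trans
        (h2.trans (min_le_left _ _))) k le_rfl])
  have a1 := L.fn.mono (fE fun m => |m / Z - 1 / (2 * √2)|) (fun G => (9 * ε +
      (9 * D * Real.exp (64 * T)) ^ 2 * (108 * D * (N * (N * q))) / (16 * ε * Z ^ 2)) +
      8 * (N * (N * q)) / (16 * ε * Z ^ 2) * CC (1 / (8 * D)) F k G) fun G hG => by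
    have b1 := real_end hφ h0 h1 k G
    have b2 := point_bound P (hA G hG).1 (hA G hG).2 hΓ h0 h1 (h2.trans (min_le_left _ _)) hε0 hε
      (by nlinarith) hζ hβ hD hZ0 hZ
    have b3 := mul_le_mul_of_nonneg_left hK1 (by positivity : 0 ≤ M * (K * (1 - κ) ^ k))
    nlinarith
  rw [L.fn.add, L.fn.mul] at a1
  have a2 := mul_le_mul_of_nonneg_left (cc_bound L (μ := 1 / (8 * D)) (by positivity)
    (by rw [mul_one_div_cancel (by positivity)]) hF1 hη hW hS k)
    (by positivity : 0 ≤ 8 * (N * (N * q)) / (16 * ε * Z ^ 2))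
  have e0 : Z ^ 2 = (N * (N * q)) ^ 2 / D := by
    rw [← hZ, mul_pow, Real.sq_sqrt hD0.le]; field_simp
  have hq : 0 < q := (pos_iff_pos_of_mul_pos hΔ).1 (by linarith)
  have e1 : 8 * (N * (N * q)) / (16 * ε * Z ^ 2) * (312 * F * (F / (1 / (8 * D))) ^ 2 * D ^ 3 * η * 3 *
      (N ^ 2 * q)) = 29952 * F ^ 3 * D ^ 6 * η / ε := by rw [e0]; field_simp; ring
  have e2 : (9 * D * Real.exp (64 * T)) ^ 2 * (108 * D * (N * (N * q))) / (16 * ε * Z ^ 2) =
      2187 / 4 * Real.exp (64 * T) ^ 2 * D ^ 4 / (N * (N * q)) / ε := by rw [e0]; field_simp; ring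
  rw [e1] at a2
  refine (a1.trans (add_le_add (L.fn.const (by positivity)) a2)).trans ?_
  rw [e2, add_assoc, ← add_div]
  gcongr <;> norm_num

end Vale.Agent.P046
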