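import Vale.Agent.P044.Prob

/-! Query programs: answers read from one sample versus fresh independent answers. -/

set_option linter.unusedSectionVars false

open Finset Vale.Agent.P044

namespace Vale.Agent.P046

inductive Prog (ι τ α : Type) : Type
  | ret : α → Prog ι τ α
  | ask : ι → (τ → Prog ι τ α) → Prog ι τ α

variable {ι τ α β σ : Type}

def Prog.bind : Prog ι τ α → (α → Prog ι τ β) → Prog ι τ β
  | .ret a, g => g a
  | .ask l f, g => .ask l fun t => (f t).bind g

def run (X : ι → τ) : Prog ι τ α → α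
  | .ret a => a
  | .ask l f => run X (f (X l))

def qry (X : ι → τ) : Prog ι τ α → List ι
  | .ret _ => []
  | .ask l f => l :: qry X (f (X l))

lemma run_bind (X : ι → τ) (p : Prog ι τ α) (g : α → Prog ι τ β) :
    run X (p.bind g) = run X (g (run X p)) := by
  induction p with
  | ret a => rfl
  | ask l f ih => exact ih _

variable [Fintype τ]

noncomputable def FE (w : τ → ℝ) : Prog ι τ α → (α → List ι → ℝ) → ℝ
  | .ret a, φ => φ a []
  | .ask l f, φ => ∑ t, w t * FE w (f t) fun a qs => φ a (l :: qs)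

/-- Probability vector. -/
structure Pw (w : τ → ℝ) : Prop where
  nn : ∀ t, 0 ≤ w t
  sum : ∑ t, w t = 1

variable {w : τ → ℝ}

lemma FE_add (p : Prog ι τ α) (φ ψ : α → List ι → ℝ) :
    FE w p (fun a qs => φ a qs + ψ a qs) = FE w p φ + FE w p ψ := by
  induction p generalizing φ ψ with
  | ret a => rfl
  | ask l f ih => simp only [FE, ih, mul_add, sum_add_distrib]

lemma FE_mul (p : Prog ι τ α) (c : ℝ) (φ : α → List ι → ℝ) :
    FE w p (fun a qs => c * φ a qs) = c * FE w p φ := by
  induction p generalizing φ with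
  | ret a => rfl
  | ask l f ih => simp only [FE, ih, mul_sum]; exact sum_congr rfl fun _ _ => by ring

lemma FE_const (hw : Pw w) (p : Prog ι τ α) (c : ℝ) : FE w p (fun _ _ => c) = c := by
  induction p with
  | ret a => rfl
  | ask l f ih => simp only [FE, ih, ← sum_mul, hw.sum, one_mul]

lemma FE_mono (hw : Pw w) (p : Prog ι τ α) {φ ψ : α → List ι → ℝ} (h : ∀ a qs, φ a qs ≤ ψ a qs) :
    FE w p φ ≤ FE w p ψ := by
  induction p generalizing φ ψ with
  | ret a => exact h _ _
  | ask l f ih => exact sum_le_sum fun t _ => mul_le_mul_of_nonneg_left (ih t fun _ _ => h _ _) (hw.nn t)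

lemma FE_nn (hw : Pw w) (p : Prog ι τ α) {φ : α → List ι → ℝ} (h : ∀ a qs, 0 ≤ φ a qs) :
    0 ≤ FE w p φ := (FE_const hw p 0).ge.trans (FE_mono hw p h)

lemma FE_sum {γ : Type*} (p : Prog ι τ α) (s : Finset γ) (φ : γ → α → List ι → ℝ) :
    FE w p (fun a qs => ∑ c ∈ s, φ c a qs) = ∑ c ∈ s, FE w p (φ c) := by
  induction p generalizing φ with
  | ret a => rfl
  | ask l f ih =>
    simp only [FE]
    rw [sum_comm]
    exact sum_congr rfl fun t _ => by rw [ih, mul_sum]

lemma FE_bind (p : Prog ι τ α) (g : α → Prog ι τ β) (φ : β → List ι → ℝ) :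
    FE w (p.bind g) φ = FE w p fun a qs => FE w (g a) fun b qs' => φ b (qs ++ qs') := by
  induction p generalizing φ with
  | ret a => rfl
  | ask l f ih => simp only [Prog.bind, FE, ih, List.cons_append]

variable [Fintype ι] [DecidableEq ι]

def okq (A : Finset ι) (qs : List ι) : Prop := qs.Nodup ∧ ∀ l ∈ qs, l ∉ A

lemma okq_cons (A : Finset ι) (l : ι) (qs : List ι) :
    okq A (l :: qs) ↔ l ∉ A ∧ okq (insert l A) qs := by
  simp only [okq, List.nodup_cons, List.mem_cons, forall_eq_or_imp, mem_insert, not_or]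
  constructor
  · rintro ⟨⟨h1, h2⟩, h3, h4⟩
    exact ⟨h3, h2, fun x hx => ⟨fun e => h1 (e ▸ hx), h4 x hx⟩⟩
  · rintro ⟨h1, h2, h3⟩
    exact ⟨⟨fun h => (h3 l h).1 rfl, h2⟩, h1, fun x hx => (h3 x hx).2⟩

lemma indep_ok (φ : α → ℝ) (p : Prog ι τ α) (A : Finset ι) (X X' : ι → τ) (h : ∀ l, l ∉ A → X l = X' l) :
    φ (run X p) * ind (okq A (qry X p)) = φ (run X' p) * ind (okq A (qry X' p)) := by
  induction p generalizing A with
  | ret a => rfl
  | ask l f ih =>
    simp only [run, qry, okq_cons]
    by_cases hl : l ∈ A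
    · rw [ind_neg fun H => H.1 hl, ind_neg fun H => H.1 hl]; simp
    · simp only [hl, not_false_eq_true, true_and, ← h l hl]
      exact ih _ _ fun x hx => h x fun hx' => hx (mem_insert_of_mem hx')

lemma Pw.isPr (hw : Pw w) : IsPr (fun _ : ι => w) := ⟨fun _ => hw.nn, fun _ => hw.sum⟩

lemma real_fresh (hw : Pw w) (φ : α → ℝ) (p : Prog ι τ α) (A : Finset ι) :
    Ex (fun _ => w) (fun X => φ (run X p) * ind (okq A (qry X p))) =
      FE w p fun a qs => φ a * ind (okq A qs) := by
  induction p generalizing A with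
  | ret a => exact Ex_const (ι := ι) hw.isPr (φ a * ind (okq A []))
  | ask l f ih =>
    simp only [run, qry, FE, okq_cons]
    by_cases hl : l ∈ A
    · simp only [hl, not_true_eq_false, false_and, ind_neg not_false, mul_zero, FE_const hw,
        sum_const_zero]
      exact Ex_const hw.isPr _
    · simp only [hl, not_false_eq_true, true_and]
      rw [Ex_resample hw.isPr l, Ex_sum]
      refine sum_congr rfl fun t _ => ?_
      rw [Ex_mul, ← ih]
      congr 2
      funext X
      rw [Function.update_self]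
      exact indep_ok φ _ _ _ _ fun x hx =>
        Function.update_of_ne (fun e => hx (by rw [e]; exact mem_insert_self _ _)) _ _

noncomputable def cnt (qs : List ι) (l : ι) : ℝ := (qs.map fun x => ind (x = l)).sum

noncomputable def cp : List ι → ℝ
  | [] => 0
  | l :: qs => cnt qs l + cp qs

lemma cnt_nn (qs : List ι) (l : ι) : 0 ≤ cnt qs l :=
  List.sum_nonneg fun x hx => by obtain ⟨y, -, rfl⟩ := List.mem_map.1 hx; exact ind_nonneg _

lemma cnt_cons (x : ι) (qs : List ι) (l : ι) : cnt (x :: qs) l = ind (x = l) + cnt qs l := by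
  simp [cnt]

lemma cnt_append (a b : List ι) (l : ι) : cnt (a ++ b) l = cnt a l + cnt b l := by simp [cnt]

lemma sum_ind_mul (x : ι) (f : ι → ℝ) : ∑ l, ind (x = l) * f l = f x := by
  rw [sum_eq_single x]
  · simp [ind]
  · intro b _ hb; simp [ind, hb.symm]
  · simp

lemma cp_append (a b : List ι) : cp (a ++ b) = cp a + cp b + ∑ l, cnt a l * cnt b l := by
  induction a with
  | nil => simp [cp, cnt]
  | cons x a ih =>
    simp only [List.cons_append, cp, ih, cnt_append, cnt_cons, add_mul, sum_add_distrib, sum_ind_mul]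
    ring

lemma cp_nn (qs : List ι) : 0 ≤ cp qs := by
  induction qs with
  | nil => exact le_rfl
  | cons x a ih => exact add_nonneg (cnt_nn _ _) ih

lemma one_le_cp (qs : List ι) (h : ¬qs.Nodup) : 1 ≤ cp qs := by
  induction qs with
  | nil => simp at h
  | cons x a ih =>
    simp only [cp]
    by_cases hx : x ∈ a
    · have : ind (x = x) ≤ cnt a x := List.single_le_sum (fun y hy => by
        obtain ⟨z, -, rfl⟩ := List.mem_map.1 hy; exact ind_nonneg _) _ (List.mem_map.2 ⟨x, hx, rfl⟩)
      rw [ind_pos rfl] at this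
      linarith [cp_nn a]
    · linarith [cnt_nn a x, ih fun H => h (List.nodup_cons.2 ⟨hx, H⟩)]

noncomputable def bv (b : Bool) : ℝ := if b then 1 else 0
noncomputable def pr (w : τ → ℝ) (p : Prog ι τ Bool) : ℝ := FE w p fun b _ => bv b
noncomputable def mv (w : τ → ℝ) (p : Prog ι τ α) (l : ι) : ℝ := FE w p fun _ qs => cnt qs l
noncomputable def col (w : τ → ℝ) (p : Prog ι τ α) : ℝ := FE w p fun _ qs => cp qs

lemma bv_bd (b : Bool) : 0 ≤ bv b ∧ bv b ≤ 1 := by cases b <;> simp [bv]

lemma cmp_real (hw : Pw w) (p : Prog ι τ Bool) :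
    |Ex (fun _ => w) (fun X => bv (run X p)) - pr w p| ≤ col w p := by
  have h1 := real_fresh hw bv p ∅
  have h2 := real_fresh hw (fun _ => 1) p ∅
  simp only [one_mul] at h2
  have h3 : 1 - FE w p (fun _ qs => ind (okq ∅ qs)) ≤ col w p := by
    have := FE_mono hw p (φ := fun _ _ => 1) (ψ := fun _ qs => ind (okq ∅ qs) + cp qs) fun _ qs => by
      by_cases h : qs.Nodup
      · rw [ind_pos ⟨h, by simp⟩]; linarith [cp_nn qs]
      · linarith [one_le_cp qs h, ind_nonneg (okq ∅ qs)]
    rw [FE_const hw, FE_add] at this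
    unfold col; linarith
  have key : ∀ (b : Bool) (P : Prop), bv b * ind P ≤ bv b ∧ bv b + ind P ≤ bv b * ind P + 1 := by
    intro b P
    have := bv_bd b
    by_cases h : P
    · rw [ind_pos h]; constructor <;> linarith
    · rw [ind_neg h]; constructor <;> linarith
  have a1 := Ex_mono hw.isPr fun X : ι → τ => (key (run X p) (okq ∅ (qry X p))).1
  have a2 := Ex_mono hw.isPr fun X : ι → τ => (key (run X p) (okq ∅ (qry X p))).2
  have a3 := FE_mono hw p fun b qs => (key b (okq ∅ qs)).1
  have a4 := FE_mono hw p fun b qs => (key b (okq ∅ qs)).2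
  rw [Ex_add, Ex_add, Ex_const hw.isPr, h1, h2] at a2
  rw [h1] at a1
  rw [FE_add, FE_add, FE_const hw] at a4
  unfold pr
  rw [abs_le]; constructor <;> linarith

lemma pr_bd (hw : Pw w) (p : Prog ι τ Bool) : 0 ≤ pr w p ∧ pr w p ≤ 1 :=
  ⟨FE_nn hw p fun b _ => (bv_bd b).1, (FE_mono hw p fun b _ => (bv_bd b).2).trans (FE_const hw p 1).le⟩

lemma mv_nn (hw : Pw w) (p : Prog ι τ α) (l : ι) : 0 ≤ mv w p l := FE_nn hw p fun _ _ => cnt_nn _ _
lemma col_nn (hw : Pw w) (p : Prog ι τ α) : 0 ≤ col w p := FE_nn hw p fun _ _ => cp_nn _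

lemma FE_bool (hw : Pw w) (p : Prog ι τ Bool) (F : Bool → ℝ) :
    FE w p (fun b _ => F b) = pr w p * F true + (1 - pr w p) * F false := by
  have : (fun (b : Bool) (_ : List ι) => F b) = fun b _ => (F true - F false) * bv b + F false := by
    funext b _; cases b <;> simp [bv]
  rw [this, FE_add, FE_mul, FE_const hw]; unfold pr; ring

lemma pr_bind (hw : Pw w) (p : Prog ι τ Bool) (g : Bool → Prog ι τ Bool) :
    pr w (p.bind g) = pr w p * pr w (g true) + (1 - pr w p) * pr w (g false) := by
  rw [← FE_bool hw p fun b => pr w (g b)]; unfold pr; rw [FE_bind]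

lemma mv_bind (hw : Pw w) (p : Prog ι τ Bool) (g : Bool → Prog ι τ β) (l : ι) :
    mv w (p.bind g) l = mv w p l + (pr w p * mv w (g true) l + (1 - pr w p) * mv w (g false) l) := by
  rw [← FE_bool hw p fun b => mv w (g b) l]
  unfold mv
  simp only [FE_bind, cnt_append, FE_add, FE_const hw]

lemma col_bind (hw : Pw w) (p : Prog ι τ Bool) (g : Bool → Prog ι τ β) (M : ι → ℝ)
    (hM : ∀ b l, mv w (g b) l ≤ M l) :
    col w (p.bind g) ≤ col w p + (pr w p * col w (g true) + (1 - pr w p) * col w (g false)) +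
      ∑ l, mv w p l * M l := by
  rw [← FE_bool hw p fun b => col w (g b)]
  unfold col
  simp only [FE_bind, cp_append, FE_add, FE_const hw, FE_sum, FE_mul]
  refine add_le_add le_rfl (sum_le_sum fun l _ => ?_)
  rw [mul_comm, mv, ← FE_mul]
  exact FE_mono hw p fun b qs => by rw [mul_comm]; exact mul_le_mul_of_nonneg_right (hM b l) (cnt_nn _ _)

@[simp] lemma pr_ret (b : Bool) : pr w (.ret b : Prog ι τ Bool) = bv b := rfl
@[simp] lemma mv_ret (a : α) (l : ι) : mv w (.ret a : Prog ι τ α) l = 0 := by simp [mv, FE, cnt]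
@[simp] lemma col_ret (a : α) : col w (.ret a : Prog ι τ α) = 0 := rfl

/-! ### The exploration program -/

def callAux (line : σ → ι) : List σ → (List (σ × τ) → Prog ι τ Bool) → Prog ι τ Bool
  | [], K => K []
  | a :: l, K => .ask (line a) fun t => callAux line l fun A => K ((a, t) :: A)

def chk (tv : τ → ℕ) (s : ℕ) (rc : σ → Prog ι τ Bool) : List (σ × τ) → Prog ι τ Bool
  | [] => .ret true
  | x :: r => if tv x.2 = s then (rc x.1).bind fun b => if b then .ret false else chk tv s rc r
      else chk tv s rc r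

def loop (line : σ → ι) (ch : σ → List σ) (tv : τ → ℕ) : ℕ → List (σ × τ) → Prog ι τ Bool
  | 0, _ => .ret true
  | s + 1, A => (loop line ch tv s A).bind fun b =>
      if b then chk tv s (fun a => callAux line (ch a) (loop line ch tv s)) A else .ret false

def call (line : σ → ι) (ch : σ → List σ) (tv : τ → ℕ) (s : ℕ) (l : List σ) : Prog ι τ Bool :=
  callAux line l (loop line ch tv s)

variable {line : σ → ι} {ch : σ → List σ} {tv : τ → ℕ}

lemma run_callAux (X : ι → τ) (l : List σ) (K : List (σ × τ) → Prog ι τ Bool) :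
    run X (callAux line l K) = run X (K (l.map fun a => (a, X (line a)))) := by
  induction l generalizing K with
  | nil => rfl
  | cons a l ih => simp only [callAux, run, ih, List.map_cons]

lemma run_chk (X : ι → τ) (s : ℕ) (rc : σ → Prog ι τ Bool) (A : List (σ × τ)) :
    run X (chk tv s rc A) = true ↔ ∀ x ∈ A, tv x.2 = s → ¬run X (rc x.1) = true := by
  induction A with
  | nil => simp [chk, run]
  | cons x r ih =>
    simp only [chk, List.mem_cons, forall_eq_or_imp]
    split_ifs with h
    · rw [run_bind]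
      cases hb : run X (rc x.1) <;> simp [run, h, ih]
    · simp [h, ih]

lemma run_call_zero (X : ι → τ) (l : List σ) : run X (call line ch tv 0 l) = true := by
  simp [call, run_callAux, loop, run]

lemma run_call_succ (X : ι → τ) (s : ℕ) (l : List σ) :
    run X (call line ch tv (s + 1) l) = true ↔ run X (call line ch tv s l) = true ∧
      ∀ a ∈ l, tv (X (line a)) = s → ¬run X (call line ch tv s (ch a)) = true := by
  simp only [call, run_callAux X l, loop, run_bind]
  cases hb : run X (loop line ch tv s (l.map fun a => (a, X (line a))))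
  · simp [run]
  · simp [run_chk]

noncomputable def EA (w : τ → ℝ) : List σ → (List (σ × τ) → ℝ) → ℝ
  | [], F => F []
  | a :: l, F => ∑ t, w t * EA w l fun A => F ((a, t) :: A)

lemma FE_callAux (l : List σ) (K : List (σ × τ) → Prog ι τ Bool) (φ : Bool → List ι → ℝ) :
    FE w (callAux line l K) φ = EA w l fun A => FE w (K A) fun b qs => φ b (l.map line ++ qs) := by
  induction l generalizing K φ with
  | nil => rfl
  | cons a l ih => simp only [callAux, FE, EA, ih, List.map_cons, List.cons_append]

lemma EA_add (l : List σ) (F G : List (σ × τ) → ℝ) :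
    EA w l (fun A => F A + G A) = EA w l F + EA w l G := by
  induction l generalizing F G with
  | nil => rfl
  | cons a l ih => simp only [EA, ih, mul_add, sum_add_distrib]

lemma EA_mul (l : List σ) (c : ℝ) (F : List (σ × τ) → ℝ) :
    EA w l (fun A => c * F A) = c * EA w l F := by
  induction l generalizing F with
  | nil => rfl
  | cons a l ih => simp only [EA, ih, mul_sum]; exact sum_congr rfl fun _ _ => by ring

lemma EA_const (hw : Pw w) (l : List σ) (c : ℝ) : EA w l (fun _ => c) = c := by
  induction l with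
  | nil => rfl
  | cons a l ih => simp only [EA, ih, ← sum_mul, hw.sum, one_mul]

lemma EA_mono (hw : Pw w) (l : List σ) {F G : List (σ × τ) → ℝ}
    (h : ∀ A, A.map Prod.fst = l → F A ≤ G A) : EA w l F ≤ EA w l G := by
  induction l generalizing F G with
  | nil => exact h _ rfl
  | cons a l ih =>
    exact sum_le_sum fun t _ => mul_le_mul_of_nonneg_left (ih fun A hA => h _ (by simp [hA])) (hw.nn t)

lemma EA_sum {γ : Type*} (l : List σ) (s : Finset γ) (F : γ → List (σ × τ) → ℝ) :
    EA w l (fun A => ∑ c ∈ s, F c A) = ∑ c ∈ s, EA w l (F c) := by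
  induction l generalizing F with
  | nil => rfl
  | cons a l ih =>
    simp only [EA]
    rw [sum_comm]
    exact sum_congr rfl fun t _ => by rw [ih, mul_sum]

lemma EA_prod (l : List σ) (g : σ × τ → ℝ) :
    EA w l (fun A => (A.map g).prod) = (l.map fun a => ∑ t, w t * g (a, t)).prod := by
  induction l with
  | nil => rfl
  | cons a l ih => simp only [EA, List.map_cons, List.prod_cons, EA_mul, ih, sum_mul, mul_assoc]

lemma EA_prod_sum (hw : Pw w) (l : List σ) (g h : σ × τ → ℝ) (hb : σ → ℝ)
    (hg : ∀ a ∈ l, 1 / 2 ≤ ∑ t, w t * g (a, t)) (h0 : ∀ a ∈ l, 0 ≤ hb a)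
    (hh : ∀ a ∈ l, ∑ t, w t * (g (a, t) * h (a, t)) ≤ hb a) :
    EA w l (fun A => (A.map g).prod * (A.map h).sum) ≤
      2 * (l.map fun a => ∑ t, w t * g (a, t)).prod * (l.map hb).sum := by
  induction l with
  | nil => simp [EA]
  | cons a l ih =>
    have ih' := ih (fun b hb => hg b (List.mem_cons_of_mem _ hb)) (fun b hb => h0 b (List.mem_cons_of_mem _ hb))
      (fun b hb => hh b (List.mem_cons_of_mem _ hb))
    have e : ∀ t, (EA w l fun A => (((a, t) :: A).map g).prod * (((a, t) :: A).map h).sum) =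
        g (a, t) * h (a, t) * (l.map fun a => ∑ t, w t * g (a, t)).prod +
          g (a, t) * EA w l (fun A => (A.map g).prod * (A.map h).sum) := fun t => by
      rw [← EA_prod, ← EA_mul, ← EA_mul, ← EA_add]
      congr 1; funext A; simp only [List.map_cons, List.prod_cons, List.sum_cons]; ring
    simp only [EA]
    rw [sum_congr rfl fun t _ => by rw [e t]]
    simp only [mul_add, sum_add_distrib, List.map_cons, List.prod_cons, List.sum_cons,
      ← mul_assoc, ← sum_mul]
    have hP : 0 ≤ (l.map fun a => ∑ t, w t * g (a, t)).prod := List.prod_nonneg fun x hx => by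
      obtain ⟨b, hb, rfl⟩ := List.mem_map.1 hx
      linarith [hg b (List.mem_cons_of_mem _ hb)]
    have a1 := hg a List.mem_cons_self
    have a2 := hh a List.mem_cons_self
    have a3 := h0 a List.mem_cons_self
    simp only [← mul_assoc] at a2
    have a4 := mul_le_mul_of_nonneg_right a2 hP
    have a5 := mul_le_mul_of_nonneg_left ih' (by linarith : 0 ≤ ∑ t, w t * g (a, t))
    nlinarith [mul_nonneg a3 hP]

end Vale.Agent.P046
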