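import Vale.Agent.P046.Prog

/-! Bounds for the exploration program with fresh answers. -/

set_option linter.unusedSectionVars false

open Finset Vale.Agent.P044

namespace Vale.Agent.P046

variable {ι τ σ : Type} [Fintype τ] [Fintype ι] [DecidableEq ι] {w : τ → ℝ}
  {line : σ → ι} {ch : σ → List σ} {tv : τ → ℕ}

noncomputable def vv (w : τ → ℝ) (line : σ → ι) (ch : σ → List σ) (tv : τ → ℕ) (s : ℕ) (l : List σ) : ℝ :=
  pr w (call line ch tv s l)

noncomputable def yy (w : τ → ℝ) (line : σ → ι) (ch : σ → List σ) (tv : τ → ℕ) (s : ℕ) (a : σ) : ℝ :=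
  ∑ t, w t * if tv t < s then vv w line ch tv (tv t) (ch a) else 0

noncomputable def Wt (w : τ → ℝ) (tv : τ → ℕ) (s : ℕ) : ℝ := ∑ t, w t * if tv t = s then 1 else 0

lemma Wt_nn (hw : Pw w) (s : ℕ) : 0 ≤ Wt w tv s :=
  sum_nonneg fun t _ => mul_nonneg (hw.nn t) (by split_ifs <;> norm_num)

lemma yy_succ (s : ℕ) (a : σ) :
    yy w line ch tv (s + 1) a = yy w line ch tv s a + Wt w tv s * vv w line ch tv s (ch a) := by
  unfold yy Wt
  rw [sum_mul, ← sum_add_distrib]
  refine sum_congr rfl fun t _ => ?_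
  rcases lt_trichotomy (tv t) s with h | h | h
  · rw [if_pos (by omega), if_pos h, if_neg h.ne]; ring
  · rw [if_pos (by omega), if_neg (by omega), if_pos h, h]; ring
  · rw [if_neg (by omega), if_neg (by omega), if_neg h.ne']; ring

lemma yy_zero (a : σ) : yy w line ch tv 0 a = 0 := by simp [yy]

lemma sum_Wt_le (hw : Pw w) (k : ℕ) : ∑ s ∈ range k, Wt w tv s ≤ 1 := by
  unfold Wt
  rw [sum_comm]
  refine le_trans (sum_le_sum fun t _ => ?_) hw.sum.le
  rw [← mul_sum, sum_ite_eq]
  split_ifs
  · exact (mul_one (w t)).le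
  · simpa using hw.nn t

lemma pr_chk (hw : Pw w) (s : ℕ) (rc : σ → Prog ι τ Bool) (A : List (σ × τ)) :
    pr w (chk tv s rc A) = (A.map fun x => if tv x.2 = s then 1 - pr w (rc x.1) else 1).prod := by
  induction A with
  | nil => simp [chk, bv]
  | cons x r ih =>
    simp only [chk, List.map_cons, List.prod_cons]
    split_ifs with h
    · rw [pr_bind hw]; simp [bv, ih]
    · rw [ih, one_mul]

lemma pr_loop (hw : Pw w) (s : ℕ) (A : List (σ × τ)) :
    pr w (loop line ch tv s A) =
      (A.map fun x => if tv x.2 < s then 1 - vv w line ch tv (tv x.2) (ch x.1) else 1).prod := by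
  induction s with
  | zero => simp [loop, bv]
  | succ s ih =>
    simp only [loop]
    rw [pr_bind hw, ih]
    simp only [if_true, Bool.false_eq_true, if_false, pr_ret, bv, mul_zero, add_zero, pr_chk hw]
    rw [← List.prod_map_mul]
    congr 2
    funext x
    rcases lt_trichotomy (tv x.2) s with h | h | h
    · rw [if_pos h, if_neg h.ne, if_pos (by omega), mul_one]
    · rw [if_neg (by omega), if_pos h, if_pos (by omega), one_mul, h]; rfl
    · rw [if_neg (by omega), if_neg h.ne', if_neg (by omega), mul_one]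

lemma sum_g (hw : Pw w) (s : ℕ) (a : σ) :
    ∑ t, w t * (if tv t < s then 1 - vv w line ch tv (tv t) (ch a) else 1) = 1 - yy w line ch tv s a := by
  rw [yy, ← hw.sum, ← sum_sub_distrib]
  exact sum_congr rfl fun t _ => by rw [hw.sum]; split_ifs <;> ring

lemma vv_eq (hw : Pw w) (s : ℕ) (l : List σ) :
    vv w line ch tv s l = (l.map fun a => 1 - yy w line ch tv s a).prod := by
  unfold vv call pr
  rw [FE_callAux]
  have := EA_prod (w := w) l fun x => if tv x.2 < s then 1 - vv w line ch tv (tv x.2) (ch x.1) else 1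
  simp only [← pr_loop hw, sum_g hw] at this
  exact this

noncomputable def sm (tv : τ → ℕ) (f : σ → ℝ) (P : ℕ → Prop) [DecidablePred P] (A : List (σ × τ)) : ℝ :=
  (A.map fun x => if P (tv x.2) then f x.1 else 0).sum

lemma sm_cons (f : σ → ℝ) (P : ℕ → Prop) [DecidablePred P] (x : σ × τ) (A : List (σ × τ)) :
    sm tv f P (x :: A) = (if P (tv x.2) then f x.1 else 0) + sm tv f P A := by simp [sm]

lemma sm_mono {f g : σ → ℝ} (P : ℕ → Prop) [DecidablePred P] (A : List (σ × τ))
    (h : ∀ x ∈ A, f x.1 ≤ g x.1) : sm tv f P A ≤ sm tv g P A :=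
  List.sum_le_sum fun x hx => by split_ifs; exacts [h x hx, le_rfl]

lemma sm_nn {f : σ → ℝ} (P : ℕ → Prop) [DecidablePred P] (A : List (σ × τ))
    (h : ∀ a, 0 ≤ f a) : 0 ≤ sm tv f P A :=
  List.sum_nonneg fun y hy => by
    obtain ⟨x, -, rfl⟩ := List.mem_map.1 hy; split_ifs; exacts [h _, le_rfl]

lemma sm_le {f : σ → ℝ} (P : ℕ → Prop) [DecidablePred P] (A : List (σ × τ))
    (h : ∀ a, 0 ≤ f a) : sm tv f P A ≤ ((A.map Prod.fst).map f).sum := by
  rw [List.map_map]
  exact List.sum_le_sum fun x _ => by split_ifs; exacts [le_rfl, h _]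

lemma sm_succ (f : σ → ℝ) (s : ℕ) (A : List (σ × τ)) :
    sm tv f (· < s + 1) A = sm tv f (· < s) A + sm tv f (· = s) A := by
  induction A with
  | nil => simp [sm]
  | cons x r ih =>
    simp only [sm_cons, ih]
    rcases lt_trichotomy (tv x.2) s with h | h | h
    · rw [if_pos (by omega), if_pos h, if_neg h.ne]; ring
    · rw [if_pos (by omega), if_neg (by omega), if_pos h]; ring
    · rw [if_neg (by omega), if_neg (by omega), if_neg h.ne']; ring

lemma sm_range (f : σ → ℝ) (s : ℕ) (A : List (σ × τ)) :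
    ∑ t ∈ range s, sm tv f (· = t) A = sm tv f (· < s) A := by
  induction s with
  | zero => simp [sm]
  | succ s ih => rw [sum_range_succ, ih, sm_succ]

noncomputable def prs (tv : τ → ℕ) (M : σ → ι → ℝ) (P : ℕ → Prop) [DecidablePred P] :
    List (σ × τ) → ℝ
  | [] => 0
  | x :: r => (if P (tv x.2) then ∑ l, M x.1 l * sm tv (fun a => M a l) P r else 0) + prs tv M P r

noncomputable def prsAll (M : σ → ι → ℝ) : List σ → ℝ
  | [] => 0
  | a :: r => (∑ l, M a l * (r.map fun b => M b l).sum) + prsAll M r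

lemma prs_succ (M : σ → ι → ℝ) (s : ℕ) (A : List (σ × τ)) :
    prs tv M (· < s + 1) A = prs tv M (· < s) A + prs tv M (· = s) A +
      ∑ l, sm tv (fun a => M a l) (· < s) A * sm tv (fun a => M a l) (· = s) A := by
  induction A with
  | nil => simp [prs, sm]
  | cons x r ih =>
    simp only [prs, ih, sm_cons, sm_succ]
    rcases lt_trichotomy (tv x.2) s with h | h | h
    · simp only [if_pos (show tv x.2 < s + 1 by omega), if_pos h, if_neg h.ne, mul_add, add_mul,
        sum_add_distrib, zero_add]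
      ring
    · simp only [if_pos (show tv x.2 < s + 1 by omega), if_neg (show ¬tv x.2 < s by omega), if_pos h,
        mul_add, sum_add_distrib, zero_add]
      simp only [mul_comm (M x.1 _)]
      ring
    · simp only [if_neg (show ¬tv x.2 < s + 1 by omega), if_neg (show ¬tv x.2 < s by omega), if_neg h.ne',
        zero_add]

lemma prs_le {M : σ → ι → ℝ} (hM : ∀ a l, 0 ≤ M a l) (P : ℕ → Prop) [DecidablePred P]
    (A : List (σ × τ)) : prs tv M P A ≤ prsAll M (A.map Prod.fst) := by
  induction A with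
  | nil => exact le_rfl
  | cons x r ih =>
    simp only [prs, List.map_cons, prsAll]
    refine add_le_add ?_ ih
    split_ifs
    · exact sum_le_sum fun l _ => mul_le_mul_of_nonneg_left (sm_le P r fun a => hM a l) (hM _ _)
    · exact sum_nonneg fun l _ => mul_nonneg (hM _ _) (List.sum_nonneg fun y hy => by
        obtain ⟨x, -, rfl⟩ := List.mem_map.1 hy; exact hM _ _)

lemma prs_nn {M : σ → ι → ℝ} (hM : ∀ a l, 0 ≤ M a l) (P : ℕ → Prop) [DecidablePred P]
    (A : List (σ × τ)) : 0 ≤ prs tv M P A := by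
  induction A with
  | nil => exact le_rfl
  | cons x r ih =>
    refine add_nonneg ?_ ih
    split_ifs
    · exact sum_nonneg fun l _ => mul_nonneg (hM _ _) (sm_nn _ r fun a => hM a l)
    · exact le_rfl

lemma mem_fst {A : List (σ × τ)} {l : List σ} (hA : A.map Prod.fst = l) {x : σ × τ} (hx : x ∈ A) :
    x.1 ∈ l := hA ▸ List.mem_map_of_mem hx

lemma mv_chk (hw : Pw w) (s : ℕ) (rc : σ → Prog ι τ Bool) (A : List (σ × τ)) (l : ι) :
    mv w (chk tv s rc A) l ≤ sm tv (fun a => mv w (rc a) l) (· = s) A := by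
  induction A with
  | nil => simp [chk, sm]
  | cons x r ih =>
    simp only [chk, sm_cons]
    split_ifs with h
    · rw [mv_bind hw]
      simp only [if_true, Bool.false_eq_true, if_false, mv_ret, mul_zero, zero_add]
      have := pr_bd hw (rc x.1)
      nlinarith [mv_nn hw (chk tv s rc r) l]
    · linarith

lemma col_chk (hw : Pw w) (s : ℕ) (rc : σ → Prog ι τ Bool) {M : σ → ι → ℝ} (hM : ∀ a l, 0 ≤ M a l)
    (A : List (σ × τ)) (h : ∀ x ∈ A, ∀ l, mv w (rc x.1) l ≤ M x.1 l) :
    col w (chk tv s rc A) ≤ sm tv (fun a => col w (rc a)) (· = s) A + prs tv M (· = s) A := by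
  induction A with
  | nil => simp [chk, sm, prs]
  | cons x r ih =>
    have ih' := ih fun y hy => h y (List.mem_cons_of_mem _ hy)
    simp only [chk, sm_cons, prs]
    split_ifs with hx
    · refine (col_bind hw _ _ (fun l => sm tv (fun a => M a l) (· = s) r) fun b l => ?_).trans ?_
      · cases b
        · exact (mv_chk hw s rc r l).trans (sm_mono _ _ fun y hy => h y (List.mem_cons_of_mem _ hy) l)
        · simpa using sm_nn _ r fun a => hM a l
      · simp only [if_true, Bool.false_eq_true, if_false, col_ret, mul_zero, zero_add]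
        have := pr_bd hw (rc x.1)
        have h2 : ∑ l, mv w (rc x.1) l * sm tv (fun a => M a l) (· = s) r ≤
            ∑ l, M x.1 l * sm tv (fun a => M a l) (· = s) r := sum_le_sum fun l _ =>
          mul_le_mul_of_nonneg_right (h x List.mem_cons_self l) (sm_nn _ r fun a => hM a l)
        nlinarith [col_nn hw (chk tv s rc r)]
    · linarith

lemma mv_loop (hw : Pw w) (s : ℕ) (A : List (σ × τ)) (l : ι) :
    mv w (loop line ch tv s A) l ≤ ∑ t ∈ range s, pr w (loop line ch tv t A) *
      sm tv (fun a => mv w (call line ch tv t (ch a)) l) (· = t) A := by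
  induction s with
  | zero => simp [loop]
  | succ s ih =>
    simp only [loop]
    rw [mv_bind hw, sum_range_succ]
    simp only [if_true, Bool.false_eq_true, if_false, mv_ret, mul_zero, add_zero]
    exact add_le_add ih (mul_le_mul_of_nonneg_left (mv_chk hw _ _ _ _) (pr_bd hw _).1)

lemma sum_crude (hw : Pw w) (s : ℕ) (A : List (σ × τ)) (c : ℕ → σ → ℝ) (f : σ → ℝ) (hf : ∀ a, 0 ≤ f a)
    (h : ∀ x ∈ A, ∀ t < s, c t x.1 ≤ f x.1) :
    ∑ t ∈ range s, pr w (loop line ch tv t A) * sm tv (c t) (· = t) A ≤ sm tv f (· < s) A := by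
  rw [← sm_range]
  refine sum_le_sum fun t ht => ?_
  exact (mul_le_mul_of_nonneg_left (sm_mono _ _ fun x hx => h x hx t (mem_range.1 ht)) (pr_bd hw _).1).trans
    (mul_le_of_le_one_left (sm_nn _ _ hf) (pr_bd hw _).2)

lemma col_loop (hw : Pw w) {M : σ → ι → ℝ} (hM : ∀ a l, 0 ≤ M a l) (s : ℕ) (A : List (σ × τ))
    (h : ∀ x ∈ A, ∀ t < s, ∀ l, mv w (call line ch tv t (ch x.1)) l ≤ M x.1 l) :
    col w (loop line ch tv s A) ≤ ∑ t ∈ range s, pr w (loop line ch tv t A) *
      sm tv (fun a => col w (call line ch tv t (ch a))) (· = t) A + prs tv M (· < s) A := by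
  induction s with
  | zero =>
    have := prs_nn (tv := tv) hM (· < 0) A
    simpa only [loop, col_ret, range_zero, sum_empty, zero_add] using this
  | succ s ih =>
    have ih' := ih fun x hx t ht => h x hx t (by omega)
    simp only [loop]
    refine (col_bind hw _ _ (fun l => sm tv (fun a => M a l) (· = s) A) fun b l => ?_).trans ?_
    · cases b
      · simpa using sm_nn _ A fun a => hM a l
      · exact (mv_chk hw s _ A l).trans (sm_mono _ _ fun y hy => h y hy s (by omega) l)
    · simp only [if_true, Bool.false_eq_true, if_false, col_ret, mul_zero, add_zero]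
      rw [sum_range_succ, prs_succ]
      have h1 := pr_bd hw (loop line ch tv s A)
      have h2 := col_chk (tv := tv) hw s (fun a => callAux line (ch a) (loop line ch tv s)) hM A
        fun x hx l => h x hx s (by omega) l
      have h3 : ∑ l, mv w (loop line ch tv s A) l * sm tv (fun a => M a l) (· = s) A ≤
          ∑ l, sm tv (fun a => M a l) (· < s) A * sm tv (fun a => M a l) (· = s) A :=
        sum_le_sum fun l _ => mul_le_mul_of_nonneg_right ((mv_loop hw s A l).trans
          (sum_crude hw s A _ _ (fun a => hM a l) fun x hx t ht => h x hx t (by omega) l))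
          (sm_nn _ A fun a => hM a l)
      have h4 : 0 ≤ prs tv M (· = s) A := prs_nn hM _ A
      have h5 := mul_le_mul_of_nonneg_left h2 h1.1
      change _ ≤ _ * (sm tv (fun a => col w (call line ch tv s (ch a))) (· = s) A + _) at h5
      nlinarith

lemma EA_step (hw : Pw w) (t : ℕ) (l : List σ) (f : σ → ℝ) (hf : ∀ a, 0 ≤ f a)
    (hy : ∀ a ∈ l, yy w line ch tv t a ≤ 1 / 2) :
    EA w l (fun A => pr w (loop line ch tv t A) * sm tv f (· = t) A) ≤
      2 * vv w line ch tv t l * Wt w tv t * (l.map f).sum := by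
  have := EA_prod_sum hw l (fun x => if tv x.2 < t then 1 - vv w line ch tv (tv x.2) (ch x.1) else 1)
    (fun x => if tv x.2 = t then f x.1 else 0) (fun a => Wt w tv t * f a)
    (fun a ha => by simp only [sum_g hw]; linarith [hy a ha])
    (fun a _ => mul_nonneg (Wt_nn hw t) (hf a)) fun a _ => by
      rw [Wt, sum_mul]
      refine sum_le_sum fun u _ => le_of_eq ?_
      by_cases h : tv u = t
      · simp [h]
      · simp [h]
  simp only [← pr_loop hw, sum_g hw, ← vv_eq hw, List.sum_map_mul_left] at this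
  rw [mul_assoc (2 * _)]
  exact this

lemma mv_call (hw : Pw w) (s : ℕ) (l : List σ) (j : ι) :
    mv w (call line ch tv s l) j = cnt (l.map line) j + EA w l fun A => mv w (loop line ch tv s A) j := by
  unfold mv call
  simp only [FE_callAux, cnt_append, FE_add, FE_const hw, EA_add, EA_const hw]

lemma col_call (hw : Pw w) (s : ℕ) (l : List σ) :
    col w (call line ch tv s l) = cp (l.map line) + (EA w l fun A => col w (loop line ch tv s A)) +
      ∑ j, cnt (l.map line) j * EA w l fun A => mv w (loop line ch tv s A) j := by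
  unfold col mv call
  simp only [FE_callAux, cp_append, FE_add, FE_const hw, EA_add, EA_const hw, FE_sum, FE_mul, EA_sum,
    EA_mul]

/-- Control hypotheses on valid slots. -/
structure Ctl (w : τ → ℝ) (line : σ → ι) (ch : σ → List σ) (tv : τ → ℕ) (Vd : σ → Prop) (k : ℕ)
    (μ : ℝ) (F : ℕ → ℝ) : Prop where
  cl : ∀ a, Vd a → ∀ b ∈ ch a, Vd b
  y : ∀ a, Vd a → ∀ t ≤ k, yy w line ch tv t a ≤ 1 / 2
  f : ∀ a, Vd a → ∀ t < k, 2 * vv w line ch tv t (ch a) * Wt w tv t * F t ≤ μ * (F (t + 1) - F t)
  one : ∀ t, 1 ≤ F t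
  mono : Monotone F
  mu : 0 ≤ μ

noncomputable def HH (ch : σ → List σ) (μ : ℝ) (loc : σ → ℝ) : ℕ → σ → ℝ
  | 0, a => loc a
  | d + 1, a => loc a + μ * ((ch a).map (HH ch μ loc d)).sum

lemma lsum_nn {γ : Type} (l : List γ) {f : γ → ℝ} (h : ∀ a, 0 ≤ f a) : 0 ≤ (l.map f).sum :=
  List.sum_nonneg fun y hy => by obtain ⟨x, -, rfl⟩ := List.mem_map.1 hy; exact h _

lemma HH_nn {μ : ℝ} (hμ : 0 ≤ μ) {loc : σ → ℝ} (h : ∀ a, 0 ≤ loc a) (d : ℕ) (a : σ) :
    0 ≤ HH ch μ loc d a := by
  induction d generalizing a with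
  | zero => exact h a
  | succ d ih => exact add_nonneg (h a) (mul_nonneg hμ (lsum_nn _ ih))

lemma rec_bound (hw : Pw w) {Vd : σ → Prop} {k : ℕ} {μ : ℝ} {F : ℕ → ℝ}
    (H : Ctl w line ch tv Vd k μ F) (c : ℕ → σ → ℝ) (loc : σ → ℝ) (h0 : ∀ a, 0 ≤ loc a)
    (hc : ∀ a, Vd a → ∀ s ≤ k, c s a ≤ loc a + EA w (ch a) fun A =>
      ∑ t ∈ range s, pr w (loop line ch tv t A) * sm tv (c t) (· = t) A)
    (d : ℕ) : ∀ s ≤ d, s ≤ k → ∀ a, Vd a → c s a ≤ F s * HH ch μ loc d a := by
  induction d with
  | zero =>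
    intro s hs hk a ha
    obtain rfl : s = 0 := by omega
    have := hc a ha 0 hk
    simp only [range_zero, sum_empty, EA_const hw, add_zero] at this
    exact this.trans (le_mul_of_one_le_left (h0 a) (H.one 0))
  | succ d ih =>
    intro s hs hk a ha
    have hS : 0 ≤ ((ch a).map (HH ch μ loc d)).sum := lsum_nn _ (HH_nn H.mu h0 d)
    refine (hc a ha s hk).trans ?_
    rw [EA_sum]
    have h1 : ∀ t ∈ range s, (EA w (ch a) fun A => pr w (loop line ch tv t A) * sm tv (c t) (· = t) A) ≤
        μ * (F (t + 1) - F t) * ((ch a).map (HH ch μ loc d)).sum := by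
      intro t ht
      have ht' := mem_range.1 ht
      refine (EA_mono hw _ (G := fun A => pr w (loop line ch tv t A) *
        sm tv (fun b => F t * HH ch μ loc d b) (· = t) A) fun A hA => mul_le_mul_of_nonneg_left
          (sm_mono _ _ fun x hx => ih t (by omega) (by omega) _
            (H.cl a ha _ (mem_fst hA hx))) (pr_bd hw _).1).trans ?_
      refine (EA_step hw t _ _ (fun b => mul_nonneg (by linarith [H.one t]) (HH_nn H.mu h0 d b))
        fun b hb => H.y b (H.cl a ha b hb) t (by omega)).trans ?_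
      rw [List.sum_map_mul_left, ← mul_assoc]
      exact mul_le_mul_of_nonneg_right (H.f a ha t (by omega)) hS
    refine (add_le_add le_rfl (sum_le_sum h1)).trans ?_
    rw [← sum_mul, ← mul_sum, sum_range_sub]
    simp only [HH]
    have a1 := mul_le_mul_of_nonneg_right (H.one s) (h0 a)
    have a2 := mul_nonneg (mul_nonneg H.mu hS) (by linarith [H.one 0] : 0 ≤ F 0)
    nlinarith

/-- Weighted count of paths. -/
noncomputable def GG (line : σ → ι) (ch : σ → List σ) (μ : ℝ) (d : ℕ) (a : σ) (j : ι) : ℝ :=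
  HH ch μ (fun a => cnt ((ch a).map line) j) d a

lemma GG_nn {μ : ℝ} (hμ : 0 ≤ μ) (d : ℕ) (a : σ) (j : ι) : 0 ≤ GG line ch μ d a j :=
  HH_nn hμ (fun _ => cnt_nn _ _) d a

lemma mv_le (hw : Pw w) {Vd : σ → Prop} {k : ℕ} {μ : ℝ} {F : ℕ → ℝ}
    (H : Ctl w line ch tv Vd k μ F) (a : σ) (ha : Vd a) (s : ℕ) (hs : s ≤ k) (j : ι) :
    mv w (call line ch tv s (ch a)) j ≤ F k * GG line ch μ k a j := by
  refine (rec_bound hw H (fun s a => mv w (call line ch tv s (ch a)) j) _ (fun _ => cnt_nn _ _)
    (fun a _ s _ => ?_) k s hs hs a ha).trans (mul_le_mul_of_nonneg_right (H.mono hs) (GG_nn H.mu _ _ _))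
  rw [mv_call hw]
  exact add_le_add le_rfl (EA_mono hw _ fun A _ => mv_loop hw s A j)

/-- Local collision weight. -/
noncomputable def locw (line : σ → ι) (M : σ → ι → ℝ) (l : List σ) : ℝ :=
  prsAll (fun b j => ind (line b = j) + M b j) l + (l.map fun b => M b (line b)).sum

lemma locw_eq (M : σ → ι → ℝ) (l : List σ) :
    locw line M l = cp (l.map line) + prsAll M l +
      ∑ j, cnt (l.map line) j * (l.map fun b => M b j).sum := by
  unfold locw
  induction l with
  | nil => simp [prsAll, cp]
  | cons a l ih =>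
    have e : ∀ j, (l.map fun b => ind (line b = j) + M b j).sum =
        cnt (l.map line) j + (l.map fun b => M b j).sum := fun j => by
      rw [List.sum_map_add, cnt, List.map_map]; rfl
    simp only [prsAll, List.map_cons, List.sum_cons, cp, cnt_cons, e, add_mul, mul_add,
      sum_add_distrib, sum_ind_mul, mul_comm (M a _) (cnt _ _)]
    linarith

lemma prsAll_nn {M : σ → ι → ℝ} (hM : ∀ a l, 0 ≤ M a l) (l : List σ) : 0 ≤ prsAll M l := by
  induction l with
  | nil => exact le_rfl
  | cons a l ih =>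
    exact add_nonneg (sum_nonneg fun j _ => mul_nonneg (hM _ _) (lsum_nn _ fun b => hM b j)) ih

lemma locw_nn {M : σ → ι → ℝ} (hM : ∀ a l, 0 ≤ M a l) (l : List σ) : 0 ≤ locw line M l :=
  add_nonneg (prsAll_nn (fun a j => add_nonneg (ind_nonneg _) (hM a j)) l) (lsum_nn _ fun _ => hM _ _)

lemma mv_loop_le (hw : Pw w) {M : σ → ι → ℝ} (hM : ∀ a l, 0 ≤ M a l) (s : ℕ) (l : List σ)
    (h : ∀ a ∈ l, ∀ t < s, ∀ j, mv w (call line ch tv t (ch a)) j ≤ M a j) (j : ι) :
    (EA w l fun A => mv w (loop line ch tv s A) j) ≤ (l.map fun b => M b j).sum := by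
  refine (EA_mono hw _ fun A hA => ?_).trans (EA_const hw l _).le
  refine (mv_loop hw s A j).trans ((sum_crude hw s A _ (fun a => M a j) (fun a => hM a j)
    fun x hx t ht => h _ (mem_fst hA hx) t ht j).trans ?_)
  exact hA ▸ sm_le _ A fun a => hM a j

lemma col_call_le (hw : Pw w) {M : σ → ι → ℝ} (hM : ∀ a l, 0 ≤ M a l) (s : ℕ) (l : List σ)
    (h : ∀ a ∈ l, ∀ t < s, ∀ j, mv w (call line ch tv t (ch a)) j ≤ M a j) :
    col w (call line ch tv s l) ≤ locw line M l + EA w l fun A => ∑ t ∈ range s,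
      pr w (loop line ch tv t A) * sm tv (fun a => col w (call line ch tv t (ch a))) (· = t) A := by
  rw [col_call hw, locw_eq]
  have h1 := EA_mono hw l (F := fun A => col w (loop line ch tv s A)) (G := fun A => ∑ t ∈ range s,
      pr w (loop line ch tv t A) * sm tv (fun a => col w (call line ch tv t (ch a))) (· = t) A +
      prsAll M l) fun A hA => (col_loop hw hM s A fun x hx => h _ (mem_fst hA hx)).trans
        (add_le_add le_rfl (hA ▸ prs_le hM _ A))
  rw [EA_add, EA_const hw] at h1
  have h2 : ∑ j, cnt (l.map line) j * (EA w l fun A => mv w (loop line ch tv s A) j) ≤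
      ∑ j, cnt (l.map line) j * (l.map fun b => M b j).sum :=
    sum_le_sum fun j _ => mul_le_mul_of_nonneg_left (mv_loop_le hw hM s l h j) (cnt_nn _ _)
  linarith

theorem root_bounds (hw : Pw w) {Vd : σ → Prop} {k : ℕ} {μ : ℝ} {F : ℕ → ℝ}
    (H : Ctl w line ch tv Vd k μ F) (l : List σ) (hl : ∀ a ∈ l, Vd a) :
    (∀ j, mv w (call line ch tv k l) j ≤
      (l.map fun b => ind (line b = j) + F k * GG line ch μ k b j).sum) ∧
    col w (call line ch tv k l) ≤ locw line (fun b j => F k * GG line ch μ k b j) l +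
      (l.map fun b => F k * HH ch μ
        (fun a => locw line (fun b j => F k * GG line ch μ k b j) (ch a)) k b).sum := by
  have hF : 0 ≤ F k := by linarith [H.one k]
  have hM : ∀ b j, 0 ≤ F k * GG line ch μ k b j := fun b j => mul_nonneg hF (GG_nn H.mu _ _ _)
  constructor
  · intro j
    rw [mv_call hw, List.sum_map_add, cnt, List.map_map]
    exact add_le_add le_rfl (mv_loop_le hw hM k l
      (fun a ha t ht j => mv_le hw H a (hl a ha) t ht.le j) j)
  · refine (col_call_le hw hM k l fun a ha t ht j => mv_le hw H a (hl a ha) t ht.le j).trans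
      (add_le_add le_rfl ((EA_mono hw _ fun A hA => ?_).trans (EA_const hw l _).le))
    have hH := fun b => HH_nn (ch := ch) H.mu (fun a => locw_nn (line := line) hM (ch a)) k b
    refine (sum_crude hw k A _ _ (fun b => mul_nonneg hF (hH b)) fun x hx t ht => ?_).trans
      (hA ▸ sm_le _ A fun b => mul_nonneg hF (hH b))
    refine (rec_bound hw H (fun s a => col w (call line ch tv s (ch a))) _
      (fun a => locw_nn hM (ch a)) (fun a ha s hs => ?_) k t ht.le ht.le _
      (hl _ (mem_fst hA hx))).trans (mul_le_mul_of_nonneg_right (H.mono ht.le) (hH _))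
    exact col_call_le hw hM s _ fun b hb t ht j => mv_le hw H b (H.cl a ha b hb) t (by omega) j

lemma pair_real (hw : Pw w) (p q : Prog ι τ Bool) :
    Ex (fun _ => w) (fun X => bv (run X p) * bv (run X q)) ≤
      pr w p * pr w q + col w p + col w q + ∑ j, mv w p j * mv w q j := by
  have h := (abs_le.1 (cmp_real hw (p.bind fun b => if b then q else .ret false))).2
  have e : (fun X : ι → τ => bv (run X (p.bind fun b => if b then q else .ret false))) =
      fun X => bv (run X p) * bv (run X q) := by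
    funext X; rw [run_bind]; cases run X p <;> simp [bv, run]
  have h2 := col_bind hw p (fun b => if b then q else .ret false) (mv w q) fun b l => by
    cases b
    · simpa using mv_nn hw q l
    · exact le_rfl
  rw [e, pr_bind hw] at h
  simp only [if_true, Bool.false_eq_true, if_false, col_ret, pr_ret, bv, mul_zero, add_zero] at h h2
  have := pr_bd hw p
  simp only [bv]
  nlinarith [col_nn hw q]

end Vale.Agent.P046
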