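import Vale.Agent.P046.Basic
import Vale.Agent.P046.Prog2

/-! The process driven by independent clocks, and its evaluation by the exploration program. -/

set_option linter.unusedSectionVars false

open Finset Vale.Agent.P044

namespace Vale.Agent.P046

variable {V : Type} [Fintype V] [DecidableEq V]

noncomputable def ex (φ : ℕ → ℝ) : ℕ → SimpleGraph V → ℝ
  | 0, G => φ G.edgeSet.ncard
  | k + 1, G => if (triangles G).Nonempty then
      (∑ T ∈ triangles G, ex φ k (removeTri G T)) / (triangles G).card else φ G.edgeSet.ncard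

lemma ncard_rem_lt {G : SimpleGraph V} {T : Finset V} (hT : T ∈ triangles G) :
    (removeTri G T).edgeSet.ncard < G.edgeSet.ncard := by
  obtain ⟨a, b, c, h1, -, -, rfl⟩ := SimpleGraph.is3Clique_iff.1 (mem_tri.1 hT)
  refine Set.ncard_lt_ncard ⟨SimpleGraph.edgeSet_mono (rem_le _ _), fun h => ?_⟩ (Set.toFinite _)
  have : (removeTri G {a, b, c}).Adj a b := h (show s(a, b) ∈ G.edgeSet from h1)
  exact (rem_adj.1 this).2 (by simp)

lemma ex_succ (φ : ℕ → ℝ) (k : ℕ) (G : SimpleGraph V) : ex φ (k + 1) G = if (triangles G).Nonempty then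
    (∑ T ∈ triangles G, ex φ k (removeTri G T)) / (triangles G).card else φ G.edgeSet.ncard := rfl

lemma ex_stab (φ : ℕ → ℝ) (k : ℕ) (G : SimpleGraph V) (h : G.edgeSet.ncard ≤ k) :
    ex φ (k + 1) G = ex φ k G := by
  induction k generalizing G with
  | zero =>
    rw [ex_succ, if_neg]
    · rfl
    rintro ⟨T, hT⟩
    have := ncard_rem_lt hT; omega
  | succ k ih =>
    rw [ex_succ, ex_succ φ k G]
    split_ifs
    · congr 1
      exact sum_congr rfl fun T hT => ih _ (by have := ncard_rem_lt hT; omega)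
    · rfl

lemma ncard_le (G : SimpleGraph V) : G.edgeSet.ncard ≤ Fintype.card V ^ 2 := by
  classical
  rw [← SimpleGraph.coe_edgeFinset, Set.ncard_coe_finset]
  exact G.card_edgeFinset_le_card_choose_two.trans (Nat.choose_le_pow _ _)

lemma two_ncard (G : SimpleGraph V) : 2 * (G.edgeSet.ncard : ℝ) = ∑ x, ∑ y, adj G x y := by
  classical
  rw [← SimpleGraph.coe_edgeFinset, Set.ncard_coe_finset]
  have h := G.sum_degrees_eq_twice_card_edges
  have h2 : ∀ x, ∑ y, adj G x y = G.degree x := fun x => by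
    rw [← SimpleGraph.card_neighborFinset_eq_degree, SimpleGraph.neighborFinset_eq_filter,
      card_filter_eq_ind]; rfl
  simp only [h2]
  exact_mod_cast h.symm

lemma ex_bd {φ : ℕ → ℝ} {M : ℝ} (h : ∀ m ≤ Fintype.card V ^ 2, 0 ≤ φ m ∧ φ m ≤ M) (k : ℕ)
    (G : SimpleGraph V) : 0 ≤ ex φ k G ∧ ex φ k G ≤ M := by
  induction k generalizing G with
  | zero => exact h _ (ncard_le G)
  | succ k ih =>
    rw [ex]
    split_ifs with hT
    · have hc : (0 : ℝ) < (triangles G).card := by exact_mod_cast hT.card_pos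
      refine ⟨div_nonneg (sum_nonneg fun T _ => (ih _).1) hc.le, ?_⟩
      rw [div_le_iff₀ hc, mul_comm, ← nsmul_eq_mul]
      exact sum_le_card_nsmul _ _ _ fun T _ => (ih _).2
    · exact h _ (ncard_le G)

noncomputable def fE (φ : ℕ → ℝ) (G : SimpleGraph V) : ℝ := ex φ (Fintype.card V ^ 2) G

lemma fE_harm (φ : ℕ → ℝ) (G : SimpleGraph V) :
    ∑ T ∈ triangles G, (fE φ (removeTri G T) - fE φ G) = 0 := by
  rcases (triangles G).eq_empty_or_nonempty with h | h
  · rw [h, sum_empty]
  · have hc : ((triangles G).card : ℝ) ≠ 0 := by exact_mod_cast h.card_pos.ne'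
    rw [sum_sub_distrib, sum_const, nsmul_eq_mul]
    unfold fE
    rw [← ex_stab φ _ G (ncard_le G), ex, if_pos h]
    field_simp; ring

lemma fE_pop (φ : ℕ → ℝ) (h : ℝ) : Pop h (fE (V := V) φ) = fE φ := by
  funext G; unfold Pop; rw [sum_lw]; simp only [nxt, fE_harm, mul_zero, add_zero]

lemma fE_end (φ : ℕ → ℝ) {G : SimpleGraph V} (h : ¬(triangles G).Nonempty) :
    fE φ G = φ G.edgeSet.ncard := by
  unfold fE; rw [← ex_stab φ _ G (ncard_le G), ex, if_neg h]

def stepG (G : SimpleGraph V) (R : Finset V → Prop) : SimpleGraph V where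
  Adj u v := G.Adj u v ∧ ¬∃ T ∈ triangles G, R T ∧ u ∈ T ∧ v ∈ T
  symm := ⟨fun _ _ h => ⟨h.1.symm, fun ⟨T, h1, h2, h3, h4⟩ => h.2 ⟨T, h1, h2, h4, h3⟩⟩⟩
  loopless := ⟨fun _ h => G.irrefl h.1⟩

lemma stepG_le (G : SimpleGraph V) (R : Finset V → Prop) : stepG G R ≤ G := fun _ _ h => h.1

def state (G : SimpleGraph V) (X : Finset V → ℕ) : ℕ → SimpleGraph V
  | 0 => G
  | s + 1 => stepG (state G X s) fun T => X T = s

lemma state_le (G : SimpleGraph V) (X : Finset V → ℕ) (s : ℕ) : state G X s ≤ G := by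
  induction s with
  | zero => exact le_rfl
  | succ s ih => exact fun _ _ h => ih h.1

lemma tri_mono {G H : SimpleGraph V} (h : G ≤ H) {T : Finset V} (hT : T ∈ triangles G) :
    T ∈ triangles H := mem_tri.2 ((mem_tri.1 hT).mono h)

lemma not_tri_step {G : SimpleGraph V} {R : Finset V → Prop} {T : Finset V}
    (hT : T ∈ triangles (stepG G R)) : ¬R T := by
  intro hR
  obtain ⟨a, b, c, h1, -, -, e⟩ := SimpleGraph.is3Clique_iff.1 (mem_tri.1 hT)
  exact h1.2 ⟨T, tri_mono (stepG_le _ _) hT, hR, by simp [e], by simp [e]⟩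

lemma stepG_congr {G : SimpleGraph V} {R R' : Finset V → Prop} (h : ∀ T ∈ triangles G, R T ↔ R' T) :
    stepG G R = stepG G R' := by
  ext u v
  refine and_congr_right fun _ => not_congr ⟨?_, ?_⟩
  · rintro ⟨T, h1, h2, h3⟩; exact ⟨T, h1, (h T h1).1 h2, h3⟩
  · rintro ⟨T, h1, h2, h3⟩; exact ⟨T, h1, (h T h1).2 h2, h3⟩

lemma state_merge (G : SimpleGraph V) (R : Finset V → Bool) (X : Finset V → ℕ) (s : ℕ) :
    state G (fun T => if R T then 0 else X T + 1) (s + 1) = state (stepG G fun T => R T = true) X s := by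
  induction s with
  | zero => exact stepG_congr fun T _ => by by_cases h : R T <;> simp [h]
  | succ s ih =>
    rw [state, ih, state]
    refine stepG_congr fun T hT => ?_
    have := not_tri_step (tri_mono (state_le _ _ _) hT)
    simp [this]

lemma tri_state {G : SimpleGraph V} {X : Finset V → ℕ} {k : ℕ} {T : Finset V}
    (hT : T ∈ triangles (state G X k)) : k ≤ X T := by
  induction k with
  | zero => exact Nat.zero_le _
  | succ k ih =>
    have h1 := ih (tri_mono (stepG_le _ _) hT)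
    have h2 := not_tri_step hT
    omega

noncomputable def wk (κ : ℝ) (k : ℕ) (j : Fin (k + 1)) : ℝ :=
  if j.val < k then κ * (1 - κ) ^ j.val else (1 - κ) ^ k

lemma wk_push (κ : ℝ) (k : ℕ) (hk : ∑ j, wk κ k j = 1) (ψ : Fin (k + 1 + 1) → ℝ) :
    ∑ a : Bool × Fin (k + 1), (if a.1 then κ else 1 - κ) * wk κ k a.2 *
      ψ (if a.1 then 0 else a.2.succ) = ∑ t, wk κ (k + 1) t * ψ t := by
  rw [Fintype.sum_prod_type, Fintype.sum_bool, Fin.sum_univ_succ (fun t => wk κ (k + 1) t * ψ t)]
  simp only [if_true, Bool.false_eq_true, if_false]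
  rw [← sum_mul, ← mul_sum, hk]
  refine congrArg₂ (· + ·) ?_ ?_
  · simp [wk]
  · refine sum_congr rfl fun j _ => ?_
    refine congrArg (· * ψ j.succ) ?_
    simp only [wk, Fin.val_succ, add_lt_add_iff_right]
    split_ifs <;> ring

lemma wk_pw {κ : ℝ} (h0 : 0 ≤ κ) (h1 : κ ≤ 1) (k : ℕ) : Pw (wk κ k) := by
  refine ⟨fun t => by unfold wk; have : 0 ≤ 1 - κ := by linarith
                      split_ifs <;> positivity, ?_⟩
  induction k with
  | zero => simp [wk]
  | succ k ih =>
    have := wk_push κ k ih fun _ => 1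
    simp only [mul_one] at this
    rw [← this, Fintype.sum_prod_type, Fintype.sum_bool]
    simp only [if_true, Bool.false_eq_true, if_false, ← mul_sum, ih]; ring

lemma Ex_push {ι α β : Type} [Fintype ι] [DecidableEq ι] [Fintype α] [Fintype β] (w' : α → ℝ) (w : β → ℝ)
    (m : α → β) (h : ∀ ψ : β → ℝ, ∑ a, w' a * ψ (m a) = ∑ t, w t * ψ t) (Φ : (ι → β) → ℝ) :
    Ex (fun _ => w') (fun x => Φ fun i => m (x i)) = Ex (fun _ => w) Φ := by
  have e : ∀ y : ι → β, Φ y = ∑ y0 : ι → β, Φ y0 * ∏ i, ind (y i = y0 i) := fun y => by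
    rw [sum_eq_single y]
    · simp [ind]
    · intro b _ hb
      obtain ⟨i, hi⟩ := Function.ne_iff.1 hb
      rw [prod_eq_zero (mem_univ i) (ind_neg hi.symm), mul_zero]
    · simp
  rw [show Φ = fun y => ∑ y0 : ι → β, Φ y0 * ∏ i, ind (y i = y0 i) from funext e]
  simp only [Ex_sum, Ex_mul]
  refine sum_congr rfl fun y0 _ => ?_
  rw [Ex_prod (fun _ => w') fun i a => ind (m a = y0 i), Ex_prod (fun _ => w) fun i t => ind (t = y0 i)]
  exact congrArg _ (prod_congr rfl fun i _ => h fun t => ind (t = y0 i))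

lemma Ex_pair {ι α β : Type} [Fintype ι] [DecidableEq ι] [Fintype α] [Fintype β] (u : α → ℝ) (w : β → ℝ)
    (Φ : (ι → α × β) → ℝ) :
    Ex (fun _ (a : α × β) => u a.1 * w a.2) Φ =
      Ex (fun _ => u) fun R => Ex (fun _ => w) fun X => Φ fun i => (R i, X i) := by
  unfold Ex wt
  rw [← (Equiv.arrowProdEquivProdArrow ι (fun _ => α) fun _ => β).symm.sum_comp, Fintype.sum_prod_type]
  refine sum_congr rfl fun R _ => ?_
  rw [mul_sum]
  refine sum_congr rfl fun X _ => ?_
  rw [← mul_assoc, ← prod_mul_distrib]; rfl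

lemma bern_lower {ι : Type} [Fintype ι] [DecidableEq ι] {κ : ℝ} (h0 : 0 ≤ κ) (h1 : κ ≤ 1)
    (F : (ι → Bool) → ℝ) (hF : ∀ R, 0 ≤ F R) (c : ℝ) (hc : 0 ≤ c) (hF0 : F (fun _ => false) = c)
    (hF1 : ∑ l, F (fun i => decide (i = l)) = Fintype.card ι * c) (hι : 0 < Fintype.card ι) :
    c * (1 - (Fintype.card ι * κ) ^ 2) ≤ Ex (fun _ (b : Bool) => if b then κ else 1 - κ) F := by
  obtain ⟨n, hn⟩ : ∃ n, Fintype.card ι = n + 1 := Nat.exists_eq_succ_of_ne_zero hι.ne'
  have hinj : Function.Injective fun (l : ι) (i : ι) => decide (i = l) := fun l l' h => by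
    simpa using congrFun h l
  have h2 : ∑ R ∈ insert (fun _ => false) (univ.image fun (l : ι) (i : ι) => decide (i = l)),
      wt (fun _ (b : Bool) => if b then κ else 1 - κ) R * F R ≤
      Ex (fun _ (b : Bool) => if b then κ else 1 - κ) F :=
    sum_le_sum_of_subset_of_nonneg (subset_univ _) fun R _ _ => mul_nonneg
      (prod_nonneg fun i _ => by dsimp only; split_ifs <;> linarith) (hF R)
  refine le_trans ?_ h2
  rw [sum_insert, sum_image fun a _ b _ h => hinj h]
  · have e1 : ∀ l : ι, wt (fun _ (b : Bool) => if b then κ else 1 - κ) (fun i => decide (i = l)) =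
        κ * (1 - κ) ^ n := fun l => by
      unfold wt
      rw [← mul_prod_erase _ _ (mem_univ l), prod_congr rfl (g := fun _ => 1 - κ) fun i hi => by
        simp [ne_of_mem_erase hi], prod_const, card_erase_of_mem (mem_univ l), card_univ, hn]
      simp
    simp only [e1, ← mul_sum, hF1, hF0]
    simp only [wt, Bool.false_eq_true, if_false, prod_const, card_univ, hn]
    have a1 := one_add_mul_le_pow (a := -κ) (by linarith) n
    rw [← sub_eq_add_neg] at a1
    have hn0 : (0 : ℝ) ≤ n := Nat.cast_nonneg n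
    have a2 := mul_le_mul_of_nonneg_right a1 (by positivity : 0 ≤ 1 + n * κ)
    have a3 : 1 - ((n + 1) * κ) ^ 2 ≤ (1 - κ) ^ n * (1 + n * κ) := by
      nlinarith [mul_nonneg hn0 (mul_nonneg h0 h0), mul_nonneg h0 h0]
    have := mul_le_mul_of_nonneg_left a3 hc
    push_cast
    rw [pow_succ (1 - κ) n]
    linarith
  · intro h
    obtain ⟨l, -, hl⟩ := mem_image.1 h
    simpa using congrFun hl l

lemma real_link {φ : ℕ → ℝ} {M κ : ℝ} (hφ : ∀ m ≤ Fintype.card V ^ 2, 0 ≤ φ m ∧ φ m ≤ M)
    (h0 : 0 ≤ κ) (h1 : κ ≤ 1) (k : ℕ) (G : SimpleGraph V) :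
    fE φ G ≤ Ex (fun _ => wk κ k) (fun X : Finset V → Fin (k + 1) =>
      fE φ (state G (fun T => (X T).val) k)) + k * (M * (Fintype.card (Finset V) * κ) ^ 2) := by
  induction k generalizing G with
  | zero => simp [state, Ex_const (wk_pw h0 h1 0).isPr]
  | succ k ih =>
    rw [← Ex_push _ _ _ (wk_push κ k (wk_pw h0 h1 k).sum), Ex_pair (fun b : Bool => if b then κ else 1 - κ)]
    have hb : IsPr (fun (_ : Finset V) (b : Bool) => if b then κ else 1 - κ) :=
      ⟨fun _ b => by split_ifs <;> linarith, fun _ => by simp⟩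
    have e : ∀ (R : Finset V → Bool) (X : Finset V → Fin (k + 1)),
        (fun T => ((if R T then 0 else (X T).succ : Fin (k + 1 + 1)) : ℕ)) =
          fun T => if R T then 0 else (X T).val + 1 := fun R X => by
      funext T; split_ifs <;> simp
    simp only [e, state_merge]
    have a1 := Ex_mono hb fun R => ih (stepG G fun T => R T = true)
    rw [Ex_add, Ex_const hb] at a1
    have a2 := bern_lower h0 h1 (fun R => fE φ (stepG G fun T => R T = true))
      (fun R => (ex_bd hφ _ _).1) (fE φ G) (ex_bd hφ _ _).1 (by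
        congr 1; ext u v; simp [stepG]) (by
        have b1 : ∀ l : Finset V, fE φ (stepG G fun T => decide (T = l) = true) =
            fE φ G + if l ∈ triangles G then fE φ (removeTri G l) - fE φ G else 0 := fun l => by
          split_ifs with hl
          · rw [add_sub_cancel]; congr 1; ext u v; simp [stepG, rem_adj, hl]
          · rw [add_zero]; congr 1; ext u v; simp [stepG, hl]
        simp only [b1, sum_add_distrib, sum_ite_mem, univ_inter, fE_harm, sum_const, card_univ,
          nsmul_eq_mul, add_zero]) Fintype.card_pos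
    have a3 := mul_le_mul_of_nonneg_right (ex_bd hφ (Fintype.card V ^ 2) G).2
      (sq_nonneg (Fintype.card (Finset V) * κ))
    push_cast
    unfold fE at *
    nlinarith

lemma real_end {φ : ℕ → ℝ} {M κ : ℝ} (hφ : ∀ m ≤ Fintype.card V ^ 2, 0 ≤ φ m ∧ φ m ≤ M)
    (h0 : 0 ≤ κ) (h1 : κ ≤ 1) (k : ℕ) (G : SimpleGraph V) :
    fE φ G ≤ Ex (fun _ => wk κ k) (fun X : Finset V → Fin (k + 1) =>
      φ (state G (fun T => (X T).val) k).edgeSet.ncard) +
      k * (M * (Fintype.card (Finset V) * κ) ^ 2) + M * (Fintype.card (Finset V) * (1 - κ) ^ k) := by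
  have hw := wk_pw h0 h1 k
  have hM : 0 ≤ M := (hφ 0 (Nat.zero_le _)).1.trans (hφ 0 (Nat.zero_le _)).2
  have a1 := Ex_mono hw.isPr (f := fun X : Finset V → Fin (k + 1) => fE φ (state G (fun T => (X T).val) k))
    (g := fun X => φ (state G (fun T => (X T).val) k).edgeSet.ncard +
      M * ∑ T, ∏ i ∈ {T}, ind (X i = Fin.last k)) fun X => by
    have b0 : 0 ≤ ∑ T, ∏ i ∈ ({T} : Finset (Finset V)), ind (X i = Fin.last k) :=
      sum_nonneg fun _ _ => prod_nonneg fun _ _ => ind_nonneg _
    by_cases hT : (triangles (state G (fun T => (X T).val) k)).Nonempty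
    · obtain ⟨T, hT⟩ := hT
      have b1 : X T = Fin.last k := Fin.eq_last_of_not_lt (not_lt.2 (tri_state hT))
      have b2 := single_le_sum (f := fun T => ∏ i ∈ ({T} : Finset (Finset V)), ind (X i = Fin.last k))
        (fun _ _ => prod_nonneg fun _ _ => ind_nonneg _) (mem_univ T)
      rw [prod_singleton, ind_pos b1] at b2
      have b3 := (ex_bd hφ (Fintype.card V ^ 2) (state G (fun T => (X T).val) k)).2
      have b4 := (hφ _ (ncard_le (state G (fun T => (X T).val) k))).1
      have := mul_le_mul_of_nonneg_left b2 hM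
      unfold fE; linarith
    · rw [fE_end φ hT]; nlinarith
  rw [Ex_add, Ex_mul, Ex_sum] at a1
  have e : ∀ T : Finset V, Ex (fun _ => wk κ k) (fun X : Finset V → Fin (k + 1) =>
      ∏ i ∈ {T}, ind (X i = Fin.last k)) = (1 - κ) ^ k := fun T => by
    rw [Ex_prod_on hw.isPr {T} fun _ t => ind (t = Fin.last k), prod_singleton, sum_eq_single (Fin.last k)]
    · simp [wk, ind]
    · intro b _ hb; simp [ind, hb]
    · simp
  simp only [e, sum_const, card_univ, nsmul_eq_mul] at a1
  linarith [real_link hφ h0 h1 k G]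

/-! ### Slots -/

open Classical in
noncomputable def ap (G : SimpleGraph V) (u t : V) (X : Finset V) : Finset V :=
  univ.filter fun v => G.Adj u v ∧ G.Adj t v ∧ v ∉ X

lemma mem_ap {G : SimpleGraph V} {u t v : V} {X : Finset V} :
    v ∈ ap G u t X ↔ G.Adj u v ∧ G.Adj t v ∧ v ∉ X := by unfold ap; simp

noncomputable def fanL (G : SimpleGraph V) (u t : V) (X : Finset V) : List (V × V × V) :=
  (ap G u t X).toList.map fun v => (u, t, v)

noncomputable def chG (G : SimpleGraph V) (a : V × V × V) : List (V × V × V) :=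
  fanL G a.1 a.2.2 {a.2.1} ++ fanL G a.2.1 a.2.2 {a.1}

def lineG (a : V × V × V) : Finset V := {a.1, a.2.1, a.2.2}

def VdG (G : SimpleGraph V) (a : V × V × V) : Prop :=
  G.Adj a.1 a.2.1 ∧ G.Adj a.1 a.2.2 ∧ G.Adj a.2.1 a.2.2

lemma forall_fanL {G : SimpleGraph V} {u t : V} {X : Finset V} {P : V × V × V → Prop} :
    (∀ b ∈ fanL G u t X, P b) ↔ ∀ v, G.Adj u v → G.Adj t v → v ∉ X → P (u, t, v) := by
  constructor
  · intro H v h1 h2 h3
    exact H _ (List.mem_map.2 ⟨v, Finset.mem_toList.2 (mem_ap.2 ⟨h1, h2, h3⟩), rfl⟩)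
  · intro H b hb
    obtain ⟨v, hv, rfl⟩ := List.mem_map.1 hb
    obtain ⟨h1, h2, h3⟩ := mem_ap.1 (Finset.mem_toList.1 hv)
    exact H v h1 h2 h3

lemma lsum_fan (G : SimpleGraph V) (u t : V) (X : Finset V) (f : V × V × V → ℝ) :
    ((fanL G u t X).map f).sum = ∑ v ∈ ap G u t X, f (u, t, v) := by
  rw [fanL, List.map_map, ← Finset.sum_map_toList]; rfl

lemma lprod_fan (G : SimpleGraph V) (u t : V) (X : Finset V) (f : V × V × V → ℝ) :
    ((fanL G u t X).map f).prod = ∏ v ∈ ap G u t X, f (u, t, v) := by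
  rw [fanL, List.map_map, ← Finset.prod_map_toList]; rfl

lemma fan_vd {G : SimpleGraph V} {u t : V} (h : G.Adj u t) (X : Finset V) : ∀ b ∈ fanL G u t X, VdG G b :=
  forall_fanL.2 fun _ h1 h2 _ => ⟨h, h1, h2⟩

lemma ch_vd {G : SimpleGraph V} (a : V × V × V) (ha : VdG G a) : ∀ b ∈ chG G a, VdG G b := fun b hb =>
  (List.mem_append.1 hb).elim (fan_vd ha.2.1 _ b) (fan_vd ha.2.2 _ b)

lemma state_succ_adj (G : SimpleGraph V) (X : Finset V → ℕ) (s : ℕ) (u t : V) (Y : Finset V)
    (hY : ∀ y ∈ Y, X {u, t, y} ≠ s) :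
    (state G X (s + 1)).Adj u t ↔ (state G X s).Adj u t ∧ ∀ v, G.Adj u v → G.Adj t v → v ∉ Y →
      X {u, t, v} = s → ¬((state G X s).Adj u v ∧ (state G X s).Adj t v) := by
  refine and_congr_right fun h => ⟨fun H v _ _ _ h4 h5 => H ⟨_, triple_mem h h5.1 h5.2, h4, by simp, by simp⟩,
    fun H ⟨T, h1, h2, h3, h4⟩ => ?_⟩
  obtain ⟨v, a1, a2, rfl⟩ := tri_third h1 h3 h4 h.ne
  exact H v (state_le _ _ _ a1) (state_le _ _ _ a2) (fun hv => hY v hv h2) h2 ⟨a1, a2⟩

variable {τ : Type} [Fintype τ] {tv : τ → ℕ}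

lemma run_ch (G : SimpleGraph V) (X : Finset V → τ) (s : ℕ) : ∀ a, VdG G a → s ≤ tv (X (lineG a)) →
    (run X (call lineG (chG G) tv s (chG G a)) = true ↔
      (state G (fun T => tv (X T)) s).Adj a.1 a.2.2 ∧ (state G (fun T => tv (X T)) s).Adj a.2.1 a.2.2) := by
  induction s with
  | zero => intro a ha _; simp [run_call_zero, state, ha.2.1, ha.2.2]
  | succ s ih =>
    rintro ⟨x, y, z⟩ ha hs
    rw [run_call_succ, ih _ ha (by omega), state_succ_adj G _ s x z {y}, state_succ_adj G _ s y z {x}]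
    · simp only [chG, List.forall_mem_append, forall_fanL]
      have e1 : (∀ v, G.Adj x v → G.Adj z v → v ∉ ({y} : Finset V) → tv (X (lineG (x, z, v))) = s →
          ¬run X (call lineG (chG G) tv s (chG G (x, z, v))) = true) ↔ ∀ v, G.Adj x v → G.Adj z v →
          v ∉ ({y} : Finset V) → tv (X {x, z, v}) = s → ¬((state G (fun T => tv (X T)) s).Adj x v ∧
            (state G (fun T => tv (X T)) s).Adj z v) :=
        forall_congr' fun v => forall_congr' fun h1 => forall_congr' fun h2 => forall_congr' fun _ =>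
          forall_congr' fun h4 => not_congr (ih (x, z, v) ⟨ha.2.1, h1, h2⟩ h4.ge)
      have e2 : (∀ v, G.Adj y v → G.Adj z v → v ∉ ({x} : Finset V) → tv (X (lineG (y, z, v))) = s →
          ¬run X (call lineG (chG G) tv s (chG G (y, z, v))) = true) ↔ ∀ v, G.Adj y v → G.Adj z v →
          v ∉ ({x} : Finset V) → tv (X {y, z, v}) = s → ¬((state G (fun T => tv (X T)) s).Adj y v ∧
            (state G (fun T => tv (X T)) s).Adj z v) :=
        forall_congr' fun v => forall_congr' fun h1 => forall_congr' fun h2 => forall_congr' fun _ =>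
          forall_congr' fun h4 => not_congr (ih (y, z, v) ⟨ha.2.2, h1, h2⟩ h4.ge)
      simp only [chG] at e1 e2
      rw [e1, e2]; tauto
    · intro w hw
      rw [mem_singleton.1 hw, show ({y, z, x} : Finset V) = lineG (x, y, z) by ext; simp [lineG]; tauto]
      omega
    · intro w hw
      rw [mem_singleton.1 hw, show ({x, z, y} : Finset V) = lineG (x, y, z) by ext; simp [lineG]; tauto]
      omega

lemma run_root (G : SimpleGraph V) (X : Finset V → τ) (s : ℕ) {x y : V} (h : G.Adj x y) :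
    run X (call lineG (chG G) tv s (fanL G x y ∅)) = true ↔ (state G (fun T => tv (X T)) s).Adj x y := by
  induction s with
  | zero => simp [run_call_zero, state, h]
  | succ s ih =>
    rw [run_call_succ, ih, state_succ_adj G _ s x y ∅ (by simp), forall_fanL]
    exact and_congr_right fun _ => forall_congr' fun v => forall_congr' fun h1 => forall_congr' fun h2 =>
      forall_congr' fun _ => forall_congr' fun h4 => not_congr (run_ch G X s (x, y, v) ⟨h, h1, h2⟩ h4.ge)

end Vale.Agent.P046
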